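import Vale.Agent.P106.U.Cell

/-!
# P106 / U / H466 : state of the M-step in the kappa regime over the cells of `U/Cell` (helper466)

`D = cell j b` (early step `j`, cap `b`), `Θ = T i` (late step `i`), frame of the step `f ≤ j`, `rk f = rk j`.
* `Rep S X r` : `r` chooses a representative of the value of `X`.
* `rho f i`, `TT f i` : normalisation ratio and kappa of the late slab relative to the early slab (at the late time).
* `Phi` : functional of `(D, Θ)`: numbers `ga, al, ph` of the slab `f` of the representative of `D`, kappa moved by `TT`.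
* state `sV, sZ, sE, sA, sM`.
-/

set_option autoImplicit false

namespace Vale.Agent.P106.U.H466

open Vale.Agent.P127 Vale.Agent.P127.Stk Vale.Agent.P106.U.Cell
open Vale.Agent.P127.U.CellD (q2 rd Nb)

variable {Ω τ : Type}

/-- `r ω` is a representative of the value `X ω`, in the support -/
structure Rep {α : Type} (S : Ω → Prop) (X : Ω → α) (r : Ω → Ω) : Prop where
  mem : ∀ ω, S ω → S (r ω)
  val : ∀ ω, S ω → X (r ω) = X ω
  eq : ∀ ω ω', X ω = X ω' → r ω = r ω'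

theorem exists_rep {α : Type} (S : Ω → Prop) (X : Ω → α) [Nonempty Ω] : ∃ r : Ω → Ω, Rep S X r := by
  classical
  refine ⟨fun ω => Classical.epsilon fun ω' => S ω' ∧ X ω' = X ω, ?_, ?_, ?_⟩
  · intro ω hω
    exact (Classical.epsilon_spec (p := fun ω' => S ω' ∧ X ω' = X ω) ⟨ω, hω, rfl⟩).1
  · intro ω hω
    exact (Classical.epsilon_spec (p := fun ω' => S ω' ∧ X ω' = X ω) ⟨ω, hω, rfl⟩).2
  · intro ω ω' h
    simp only [h]

/-- ratio of the normalisations of the slabs of the steps `f` and `i` -/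
noncomputable def rho (C : Pth Ω τ) (f i : ℕ) (ω : Ω) : ℝ :=
  (C.F f ω).cN (C.l ω) (C.s f ω) / (C.F i ω).cN (C.l ω) (C.s i ω)

/-- kappa of the slab of the step `i` relative to the slab of the step `f`, at the time of the step `i` -/
noncomputable def TT (C : Pth Ω τ) (f i : ℕ) (ω : Ω) : ℝ :=
  rho C f i ω * (C.F i ω).ka - ((C.F f ω).ka - (C.s i ω - C.s f ω) * (C.F f ω).al)

/-- velocity of the cell of cap `b` -/
noncomputable def vb (C : Pth Ω τ) (b : ℕ) (ω : Ω) : ℝ := rd b (C.l ω).v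

/-- normal velocity of the cell of cap `b` -/
noncomputable def wb (C : Pth Ω τ) (b : ℕ) (ω : Ω) : ℝ := C.ro 1 (b - C.μ) (C.l ω).w

/-- functional of the cell, frame `f`, representative `dr`, written at the time `s` -/
noncomputable def G0 (C : Pth Ω τ) (f : ℕ) (dr : Ω → Ω) (s : ℝ) (ω : Ω) : Fu := (C.F f (dr ω)).sh (s - C.s f ω)

/-- functional of the cell and of the late letter, representatives `dr`, `tr`, written at the time of the step `i` -/
noncomputable def Phi (C : Pth Ω τ) (f i b : ℕ) (dr tr : Ω → Ω) (ω : Ω) : Fu :=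
  ⟨(G0 C f dr (C.s i ω) ω).ga + TT C f i (tr ω) * wb C b ω, (G0 C f dr (C.s i ω) ω).ph - TT C f i (tr ω) * vb C b ω,
    (G0 C f dr (C.s i ω) ω).ka + TT C f i (tr ω), (G0 C f dr (C.s i ω) ω).al⟩

/-- slope of the ray relative to `Phi` -/
noncomputable def brP (C : Pth Ω τ) (f i b : ℕ) (dr tr : Ω → Ω) (ω : Ω) : ℝ :=
  C.p ω * (Phi C f i b dr tr ω).cN (C.l ω) (C.s i ω) - (Phi C f i b dr tr ω).cV (C.l ω) (C.s i ω)

/-- position -/
noncomputable def sV (C : Pth Ω τ) (j i b : ℕ) (ω : Ω) : ℝ := 2 ^ (C.a j + b) * (C.l ω).X (C.s i ω)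

/-- null coordinate -/
noncomputable def sZ (C : Pth Ω τ) (j i b : ℕ) (ω : Ω) : ℝ := 2 ^ (C.a j + 2 * b) * C.Zs b (C.s i ω) ω

/-- slope -/
noncomputable def sE (C : Pth Ω τ) (f j i b : ℕ) (dr tr : Ω → Ω) (ω : Ω) : ℝ :=
  2 ^ (C.rk j + b) * brP C f i b dr tr ω

/-- normal velocity -/
noncomputable def sA (C : Pth Ω τ) (f j i b : ℕ) (dr tr : Ω → Ω) (ω : Ω) : ℝ :=
  2 ^ (C.rk j + 2 * b) * ((Phi C f i b dr tr ω).gd (C.l ω) (C.s i ω) - brP C f i b dr tr ω * ((C.l ω).v - vb C b ω))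

/-- value -/
noncomputable def sM (C : Pth Ω τ) (f j i b : ℕ) (dr tr : Ω → Ω) (ω : Ω) : ℝ :=
  2 ^ (C.a j + C.rk j + 2 * b) * (Phi C f i b dr tr ω).g (C.l ω) (C.s i ω)

/-- hypotheses on the levels: frame `f`, early step `j`, intermediate step `js`, late step `i`, cap `b`, fine cap `bb` -/
structure Ctx (C : Pth Ω τ) (S : Ω → Prop) (K : ℝ) (f j js i b bb p : ℕ) : Prop where
  K1 : 1 ≤ K
  ok : ∀ ω, S ω → C.Ok K ω
  fj : f ≤ j
  rkf : C.rk f = C.rk j
  jjs : j ≤ js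
  jsi : js ≤ i
  a8 : C.a js + 8 * C.μ ≤ C.a i
  r8 : C.rk j + 8 * C.μ ≤ C.rk js
  b8 : 8 * C.μ ≤ b
  ba : C.a i + 8 * C.μ ≤ C.a j + b
  bb8 : b + 8 * C.μ ≤ bb
  bbp : b + p ≤ bb
  kf : C.rk f + bb ≤ C.rf f
  ki : C.rk i + b ≤ C.rf i

end Vale.Agent.P106.U.H466
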