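import Vale.Agent.P106.U.H466.HeiG
import Vale.Agent.P106.U.H785.MtrRun
import Vale.Agent.P106.U.H785.MtrOk
import Vale.Agent.P106.U.H572.AlS

/-!
# P106 / U / H466 : the hypotheses `LCtx` of the adapter for the true letters of a run (helper466)

Layers: `C1 = D.p1 k` (index `k`), `C2 = D.p1 i` (index `i`), `un = unL R`, `κW = kaL R k`, `αW = R.al k`.
* **`lctx_run`** : `LCtx (D.p1 k) (D.p1 i) .. (64 K) k i b bb bV 0`.
* **`geo_run`** : `GeoR` for arbitrary letters.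
-/

set_option autoImplicit false

namespace Vale.Agent.P106.U.H466

open Finset Vale.Agent.P127 Vale.Agent.P127.Stk
open Vale.Agent.P127.U.CellD
open Vale.Agent.P106.U.Cell
open Vale.Agent.P106.U.H785.Mtr (Mtd OfR)
open Vale.Agent.P106.U.H785.Mtr

variable {Ω : Type} [Fintype Ω] {τ υ π : Type}

/-- numbers of the step `(k, i)`, caps `b ≤ bb ≤ bV` -/
structure NumM (R : S3.Run Ω τ υ) (D : Mtd Ω π) (k i b bb bV : ℕ) : Prop where
  ki : k ≤ i
  aij : D.a k + 8 * D.μ ≤ D.a i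
  rij : D.rr k + 8 * D.μ ≤ D.rr i
  b8 : 8 * D.μ ≤ b
  bb8 : b + 8 * D.μ ≤ bb
  bbV : bb ≤ bV
  k2 : D.rr i + b ≤ D.rf i
  k3 : D.rr k + bb ≤ D.rf k
  deep : D.rk k + 8 * D.μ + R.m ≤ R.rI k
  a2 : 2 * D.μ ≤ D.a k
  rI0 : 2 * D.μ + R.m ≤ R.r0
  q : D.rr k + 5 * D.μ ≤ R.q
  μC : 2 * D.μ ≤ R.C.μ

theorem q2_pow_add (a μ n : ℕ) : q2 a * q2 μ ^ n = q2 (a + n * μ) := by
  rw [← Vale.Agent.P106.U.H466.q2_mul, ← q2_add]

section real

variable {K q q' x y u z w A : ℝ}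

theorem rl_n1 (hK : 0 < K) (h : 1 ≤ 8 * (4 * K) * x) : 1 ≤ 64 * K * x := by
  have h0 : 0 < x := by
    by_contra hn
    push Not at hn
    nlinarith
  have : 0 < K * x := by positivity
  linarith

theorem rl_n3 (hK : 0 < K) (h : 1 ≤ 4 * K * x) : 1 ≤ 64 * K * x := by
  have h0 : 0 < x := by
    by_contra hn
    push Not at hn
    nlinarith
  have : 0 < K * x := by positivity
  linarith

theorem rl_dN (hK : 0 < K) (h1 : |x - u| ≤ 4 * (4 * K) * q') (h2 : |y - u| ≤ 4 * (4 * K) * q) (hq : q' ≤ q)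
    (hq0 : 0 < q) : |x - y| ≤ 64 * K * q := by
  have h3 : K * q' ≤ K * q := mul_le_mul_of_nonneg_left hq hK.le
  have h4 : 0 < K * q := by positivity
  have h1 := ab h1
  have h2 := ab h2
  rw [abs_le]
  constructor <;> linarith

theorem rl_dk (hK : 1 ≤ K) (h1 : |x - u| ≤ q') (h2 : |y - w| ≤ q) (h3 : |w - u - z| ≤ 4 * K * A) (hq : q' ≤ q)
    (hA : A ≤ q) (hq0 : 0 < q) : |x - (y - z)| ≤ 64 * K * q := by
  have h5 : K * A ≤ K * q := mul_le_mul_of_nonneg_left hA (by linarith)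
  have h4 : q ≤ K * q := le_mul_of_one_le_left hq0.le hK
  have h1 := ab h1
  have h2 := ab h2
  have h3 := ab h3
  rw [abs_le]
  constructor <;> linarith

/-- three differences -/
theorem rl_da {g g' al al' X : ℝ} (hA : 0 < A) (h1 : |al' - g'| * A ≤ 4 * K * X) (h2 : |al' - al| * A ≤ K * X)
    (h3 : |al - g| * A ≤ 4 * K * X) : |g' - g| * A ≤ 9 * (K * X) := by
  have t1 : |g' - g| ≤ |al' - g'| + |al' - al| + |al - g| := by
    have e : g' - g = -(al' - g') + (al' - al) + (al - g) := by ring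
    rw [e]
    refine (abs_add_le _ _).trans (add_le_add ((abs_add_le _ _).trans (add_le_add ?_ le_rfl)) le_rfl)
    rw [abs_neg]
  have t2 := mul_le_mul_of_nonneg_right t1 hA.le
  linarith

end real

section run

variable {R : S3.Run Ω τ υ} {D : Mtd Ω π} {p : S3.Run.Num} {K c' g' gU : ℝ} {I : Set ℕ} {k i b bb bV : ℕ}
  (hD : OfR R D) (hok : R.Ok p K c' g' gU) (h1 : 1 ≤ K) (N : NumM R D k i b bb bV) {ω : Ω} (hω : 0 < R.Q.w ω)
  (hy : D.Hy (4 * K) I ω) (hk : k ∈ I) (hi : i ∈ I) (hin : i ≤ R.n + p.J)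

include N

theorem NumM.qrr : q2 (D.rr i) ≤ q2 (D.rr k) * q2 D.μ ^ 8 := by
  rw [q2_pow_add]
  exact q2_le N.rij

theorem NumM.qaa : q2 (D.a i) ≤ q2 (D.a k) * q2 D.μ ^ 8 := by
  rw [q2_pow_add]
  exact q2_le N.aij

theorem NumM.q1 : q2 (D.rr i) ≤ q2 (D.rr k) :=
  N.qrr.trans (mul_le_of_le_one_right (q2_pos _).le (pow_le_one₀ (q2_pos _).le (q2_one _)))

theorem NumM.q5 : q2 (D.rr i) ≤ q2 (D.rr k) * q2 D.μ ^ 5 :=
  N.qrr.trans (mul_le_mul_of_nonneg_left (pow_le_pow_of_le_one (q2_pos _).le (q2_one _) (by norm_num)) (q2_pos _).le)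

include hD hok h1 hω hin in
/-- curvatures of the two steps -/
theorem al_ki : |D.al i ω - D.al k ω| * q2 (D.a i) ≤ K * (q2 (D.rr k) * q2 D.μ ^ 8) := by
  have als := OfR.al_sub hok N.ki hin hω N.deep
  rw [← hD.al i ω, ← hD.al k ω, ← hD.a] at als
  refine als.trans (mul_le_mul_of_nonneg_left ?_ (by linarith))
  rw [← q2_pow_add]
  exact mul_le_mul_of_nonneg_right (Mtd.rr_le D k) (pow_pos (q2_pos _) _).le

include h1 hy hk in
theorem ap_k : |D.al k ω - D.g k ω| * q2 (D.a i) ≤ 4 * K * (q2 (D.rr k) * q2 D.μ ^ 8) := by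
  have hη := pow_pos (q2_pos D.μ) 8
  calc _ ≤ |D.al k ω - D.g k ω| * (q2 (D.a k) * q2 D.μ ^ 8) := mul_le_mul_of_nonneg_left N.qaa (abs_nonneg _)
    _ = (|D.al k ω - D.g k ω| * q2 (D.a k)) * q2 D.μ ^ 8 := by ring
    _ ≤ (4 * K * q2 (D.rr k)) * q2 D.μ ^ 8 := by
      refine mul_le_mul_of_nonneg_right ((hy.ap k hk).trans ?_) hη.le
      exact mul_le_mul_of_nonneg_left (Mtd.rr_le D k) (by linarith)
    _ = _ := by ring

include h1 hy hi in
theorem ap_i : |D.al i ω - D.g i ω| * q2 (D.a i) ≤ 4 * K * (q2 (D.rr k) * q2 D.μ ^ 8) :=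
  (hy.ap i hi).trans (mul_le_mul_of_nonneg_left ((Mtd.rr_le D i).trans N.qrr) (by linarith))

include hD hok h1 hω hy hk hi hin in
theorem f_da : |D.g i ω - D.g k ω| * q2 (D.a i) ≤ 64 * K * (q2 (D.rr k) * q2 D.μ ^ 6) := by
  have h := rl_da (q2_pos (D.a i)) (ap_i h1 N hy hi) (al_ki hD hok h1 N hω hin) (ap_k h1 N hy hk)
  have hη := q2_pos D.μ
  have qk := q2_pos (D.rr k)
  have t3 : K * (q2 (D.rr k) * q2 D.μ ^ 8) ≤ K * (q2 (D.rr k) * q2 D.μ ^ 6) := by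
    have : q2 D.μ ^ 8 ≤ q2 D.μ ^ 6 := pow_le_pow_of_le_one hη.le (q2_one _) (by norm_num)
    gcongr
  have t5 : 0 < K * (q2 (D.rr k) * q2 D.μ ^ 6) := by positivity
  linarith

include hD hok h1 hω hin in
theorem f_ek : |D.kaL i (D.lt i ω) - (S3.kaL R k ω - (D.s i ω - D.s k ω) * R.al k ω)| ≤
    64 * K * (q2 (D.rr k) * q2 D.μ ^ 5) := by
  have hη := q2_pos D.μ
  have qk := q2_pos (D.rr k)
  have ki := Mtd.ka_near D i ω
  have es : ∀ k, D.s k ω = R.C.s k ω := fun k => by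
    unfold Mtd.s Pth.s
    rw [hD.a, hD.t]
  have t1 := OfR.tW_near hok hin ω
  have t2 : |(D.al i ω - D.al k ω) * (R.tW ω - R.C.s i ω)| ≤ K * (q2 (D.rr k) * q2 D.μ ^ 8) := by
    rw [abs_mul]
    refine le_trans (mul_le_mul_of_nonneg_left ?_ (abs_nonneg _)) (al_ki hD hok h1 N hω hin)
    rw [hD.a]
    exact t1
  have e : D.kaL i (D.lt i ω) - (S3.kaL R k ω - (D.s i ω - D.s k ω) * R.al k ω) =
      (D.kaL i (D.lt i ω) - D.κ i ω) + (D.al i ω - D.al k ω) * (R.tW ω - R.C.s i ω) := by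
    rw [hD.κ i ω, hD.al i ω, hD.al k ω, es, es]
    unfold S3.kaL
    ring
  rw [e]
  have x1 := abs_add_le (D.kaL i (D.lt i ω) - D.κ i ω) ((D.al i ω - D.al k ω) * (R.tW ω - R.C.s i ω))
  have t4 : K * (q2 (D.rr k) * q2 D.μ ^ 8) ≤ K * (q2 (D.rr k) * q2 D.μ ^ 5) := by
    have : q2 D.μ ^ 8 ≤ q2 D.μ ^ 5 := pow_le_pow_of_le_one hη.le (q2_one _) (by norm_num)
    gcongr
  have t5 : q2 (D.rr k) * q2 D.μ ^ 5 ≤ K * (q2 (D.rr k) * q2 D.μ ^ 5) := le_mul_of_one_le_left (by positivity) h1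
  have t6 := N.q5
  have t7 : 0 < K * (q2 (D.rr k) * q2 D.μ ^ 5) := by positivity
  linarith

include hD hok h1 hω in
theorem f_nm : |S3.unL R ω ^ 2 * (1 + D.p ω ^ 2) - 1| ≤ 64 * K * (q2 (D.rr k) * q2 D.μ ^ 5) := by
  have hη := q2_pos D.μ
  have qk := q2_pos (D.rr k)
  have h := hok.FWn ω hω
  have hc := hok.Cp ω hω
  have e : S3.unL R ω ^ 2 * (1 + D.p ω ^ 2) = (R.FW ω).cN (R.C.l ω) (R.tW ω) ^ 2 + (R.FW ω).cV (R.C.l ω) (R.tW ω) ^ 2 := by
    rw [← hc, hD.p]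
    unfold S3.unL
    ring
  rw [e]
  have t3 : q2 R.q ≤ q2 (D.rr k) * q2 D.μ ^ 5 := by
    rw [q2_pow_add]
    exact q2_le N.q
  have t4 : K * q2 R.q ≤ K * (q2 (D.rr k) * q2 D.μ ^ 5) := mul_le_mul_of_nonneg_left t3 (by linarith)
  have t5 : 0 < K * (q2 (D.rr k) * q2 D.μ ^ 5) := by positivity
  linarith

include hD hok h1 hω hin in
theorem f_w0 : |R.al k ω| * q2 (D.a k) ≤ 64 * K * q2 D.μ ^ 2 := by
  have t := Vale.Agent.P106.U.H572.al_smallR hD hok (by linarith) hω (N.ki.trans hin) (i := k) (s := 2 * D.μ)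
    (by rw [← hD.a]; exact N.a2) N.rI0
  rw [hD.al] at t
  rw [← Vale.Agent.P106.U.H466.q2_mul]
  have : 0 < K * q2 (2 * D.μ) := mul_pos (by linarith) (q2_pos _)
  linarith

include hD hok h1 hω hy hk hi hin in
/-- **hypotheses at a point** -/
theorem lok_run : LOk (D.p1 k) (D.p1 i) (S3.unL R) (S3.kaL R k) (R.al k) (64 * K) k i 0 ω := by
  have K0 : 0 < K := by linarith
  have h4 : 1 ≤ 4 * K := by linarith
  have okk : (D.p1 k).Ok (8 * (4 * K)) ω := Mtd.pa_ok h4 hy (fun _ => hk)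
  have oki : (D.p1 i).Ok (8 * (4 * K)) ω := Mtd.pa_ok h4 hy (fun _ => hi)
  have nk := Mtd.cN_near h4 hy hk
  have ni := Mtd.cN_near h4 hy hi
  have kk := Mtd.ka_near D k ω
  have ki := Mtd.ka_near D i ω
  have e0 : ((2:ℝ) ^ 0) = 1 := pow_zero 2
  have qk := q2_pos (D.rr k)
  exact
    { p1 := OfR.p4 hD hok hω N.μC
      n1 := rl_n1 K0 (okk.n1 k)
      n1' := (okk.n2 k).trans (by linarith)
      n2 := rl_n1 K0 (oki.n1 i)
      n2' := (oki.n2 i).trans (by linarith)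
      n3 := rl_n3 K0 (by rw [← show D.un ω = S3.unL R ω from hD.un ω]; exact hy.n1)
      n3' := by
        rw [← show D.un ω = S3.unL R ω from hD.un ω]
        exact hy.n2.trans (by linarith)
      kE := (oki.k1 i).trans (by linarith)
      kD := (okk.k1 k).trans (by linarith)
      kW := by
        rw [← hD.κ k ω]
        exact (hy.k1 k hk).trans (by linarith)
      aE := (oki.a1 i).trans (by linarith)
      aD := (okk.a1 k).trans (by linarith)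
      dN := by
        rw [e0, mul_one]
        exact rl_dN K0 ni nk N.q1 qk
      dk := by
        rw [e0, mul_one]
        exact rl_dk h1 ki kk (hy.ka k hk i hi N.ki) N.q1 (Mtd.rr_le D k) qk
      da := f_da hD hok h1 N hω hy hk hi hin
      wN := by
        rw [e0, mul_one, ← show D.un ω = S3.unL R ω from hD.un ω, abs_sub_comm]
        refine nk.trans ?_
        have : 0 < K * q2 (D.rr k) := by positivity
        show 4 * (4 * K) * q2 (D.rr k) ≤ 64 * K * q2 (D.rr k)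
        linarith
      wk := by
        rw [e0, mul_one, ← hD.κ k ω, abs_sub_comm]
        refine kk.trans ?_
        have : q2 (D.rr k) ≤ K * q2 (D.rr k) := le_mul_of_one_le_left qk.le h1
        show q2 (D.rr k) ≤ 64 * K * q2 (D.rr k)
        linarith
      wa := by
        rw [← hD.al k ω]
        refine (hy.ap k hk).trans ?_
        have : K * q2 (D.rk k) ≤ K * q2 (D.rr k) := mul_le_mul_of_nonneg_left (Mtd.rr_le D k) K0.le
        have : 0 < K * q2 (D.rr k) := by positivity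
        show 4 * K * q2 (D.rk k) ≤ 64 * K * q2 (D.rr k)
        linarith
      w0 := f_w0 hD hok h1 N hω hin
      eN := by
        rw [← show D.un ω = S3.unL R ω from hD.un ω]
        refine ni.trans ?_
        have t4 : K * q2 (D.rr i) ≤ K * (q2 (D.rr k) * q2 D.μ ^ 5) := mul_le_mul_of_nonneg_left N.q5 K0.le
        have hη := q2_pos D.μ
        have t5 : 0 < K * (q2 (D.rr k) * q2 D.μ ^ 5) := by positivity
        show 4 * (4 * K) * q2 (D.rr i) ≤ 64 * K * (q2 (D.rr k) * q2 D.μ ^ 5)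
        linarith
      ek := f_ek hD hok h1 N hω hin
      nm := f_nm hD hok h1 N hω }

include hD hok h1 hin in
/-- **the context of the adapter** -/
theorem lctx_run (hy : ∀ ω, 0 < R.Q.w ω → D.Hy (4 * K) I ω) (hk : k ∈ I) (hi : i ∈ I) :
    LCtx (D.p1 k) (D.p1 i) (S3.unL R) (S3.kaL R k) (R.al k) (fun ω => 0 < R.Q.w ω) (64 * K) k i b bb bV 0 where
  K1 := by linarith
  l2 := rfl
  t2 := rfl
  p2 := rfl
  m2 := rfl
  aij := N.aij
  rij := N.rij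
  b8 := N.b8
  bb8 := N.bb8
  bbV := N.bbV
  nu := Nat.zero_le _
  k1 := by
    have := N.k3
    have := N.bb8
    show D.rr k + b ≤ D.rf k
    omega
  k2 := N.k2
  k3 := by
    have := N.k3
    have := N.bbV
    show D.rr k + bb ≤ D.rr k + min bV (D.rf k - D.rr k)
    omega
  ok := fun ω hω => lok_run hD hok h1 N hω (hy ω hω) hk hi hin

end run

/-- the first time step -/
theorem rI0_of {R : S3.Run Ω τ υ} {p : S3.Run.Num} (h : R.Path p) {k s : ℕ} (hk : k ≤ R.n + p.J) (ha : 0 < R.C.a k)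
    (hs : s ≤ R.r0) : ∃ i₀ ≤ k, R.C.a i₀ = 0 ∧ s ≤ R.rI i₀ := by
  classical
  have hex : ∃ i, 0 < R.C.a i := ⟨k, ha⟩
  have h1 := Nat.find_spec hex
  have h2 : Nat.find hex ≤ k := Nat.find_min' hex ha
  have h3 : Nat.find hex ≠ 0 := by
    intro h0
    rw [h0, h.a0] at h1
    exact lt_irrefl _ h1
  obtain ⟨i₀, hi₀⟩ := Nat.exists_eq_succ_of_ne_zero h3
  have h4 : R.C.a i₀ = 0 := by
    have := Nat.find_min hex (show i₀ < Nat.find hex by omega)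
    omega
  rw [hi₀, Nat.succ_eq_add_one] at h1
  have hlt : i₀ < R.n + p.J := by omega
  have h5 : R.IsA i₀ := by
    rcases h.stp i₀ hlt with h6 | h6 | h6
    · exact h6.1
    · omega
    · omega
  refine ⟨i₀, by omega, h4, ?_⟩
  have h7 := (h.leI i₀ hlt h5).1
  have h8 := R.C.hk (Nat.zero_le i₀)
  rw [h.k0] at h8
  omega

/-- the cell of the path `p1 i`, at any index -/
theorem p1_cell (D : Mtd Ω π) (i n b : ℕ) (ω ω' : Ω) :
    (D.p1 i).cell n b ω = (D.p1 i).cell n b ω' ↔ D.mtr i b ω = D.mtr i b ω' := D.p1_cell_iff i n b ω ω'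

/-- **GeoR FOR THE TRUE LETTERS OF A RUN**: arbitrary letters `U` (cell), `Θ` (time), `W` (fine cell, kappa, curvature),
`E` (late cell), arbitrary function `e` of `(U, W)` -/
theorem geo_run {R : S3.Run Ω τ υ} {D : Mtd Ω π} {p : S3.Run.Num} {K c' g' gU : ℝ} {I : Set ℕ} {k i b bb bV : ℕ}
    (hD : OfR R D) (hok : R.Ok p K c' g' gU) (h1 : 1 ≤ K) (N : NumM R D k i b bb bV)
    (hy : ∀ ω, 0 < R.Q.w ω → D.Hy (4 * K) I ω) (hk : k ∈ I) (hi : i ∈ I) (hin : i ≤ R.n + p.J)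
    {dr : Ω → Ω} (hdr : Rep (fun ω => 0 < R.Q.w ω) ((D.p1 k).cell k b) dr)
    {A T B G : Type*} {U : Ω → A} {Θ : Ω → T} {W : Ω → B} {E : Ω → G}
    (hU : ∀ ω ω', 0 < R.Q.w ω → 0 < R.Q.w ω' → U ω' = U ω → D.mtr k b ω' = D.mtr k b ω)
    (hΘ : ∀ ω ω', 0 < R.Q.w ω → 0 < R.Q.w ω' → Θ ω' = Θ ω → D.s i ω' = D.s i ω)
    (hE : ∀ ω ω', 0 < R.Q.w ω → 0 < R.Q.w ω' → E ω' = E ω → D.mtr i b ω' = D.mtr i b ω)
    (hW : ∀ ω ω', 0 < R.Q.w ω → 0 < R.Q.w ω' → W ω' = W ω → D.mtr k bV ω' = D.mtr k bV ω ∧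
      |S3.kaL R k ω' - S3.kaL R k ω| ≤ 64 * K * q2 (D.rr k + 5 * D.μ) ∧
      |R.al k ω' - R.al k ω| * q2 (D.a k) ≤ 64 * K * q2 (D.rr k + 5 * D.μ))
    {e : A → B → ℝ × ℝ} {px : ℝ} (px1 : px ≤ 1)
    (he : ∀ ω, 0 < R.Q.w ω → 0 ≤ (e (U ω) (W ω)).1 ∧ (e (U ω) (W ω)).1 ≤ 1)
    (hx : ∀ ω, 0 < R.Q.w ω → |2 ^ b * ((R.C.l ω).v - rd b (R.C.l ω).v) - (e (U ω) (W ω)).1| ≤ px)
    (hx' : ∀ ω, 0 < R.Q.w ω →
      |2 ^ D.ν * (2 ^ D.rr k * (q2 (D.a k) * (R.al k ω - D.g k ω))) - (e (U ω) (W ω)).2| ≤ 2 ^ D.ν * px)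
    {Sf Tf : A → T → T → ℝ}
    (hS : ∀ ω ω', 0 < R.Q.w ω → 0 < R.Q.w ω' → U ω' = U ω →
      Sf (U ω) (Θ ω) (Θ ω') = 2 ^ D.a k * (D.s i ω' - D.s i ω))
    (hT : ∀ ω ω', 0 < R.Q.w ω → 0 < R.Q.w ω' → U ω' = U ω → Tf (U ω) (Θ ω) (Θ ω') = 0) :
    Vale.Agent.P106.TV.GeoR R.Q U Θ W E e
      (H572.RH (XH (D.p1 k) (D.p1 i) (2 ^ D.ν) k i b dr) (MH (D.p1 k) (D.p1 i) (2 ^ D.ν) k i b dr) Sf Tf
        (2 ^ D.ν * tolH (64 * K) D.μ 0 px)) := by
  have X := lctx_run hD hok h1 N hin hy hk hi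
  refine X.geoH R.Q hdr (fun ω ω' h h' e => (p1_cell D k k b ω' ω).2 (hU ω ω' h h' e)) (fun ω ω' h h' e => hΘ ω ω' h h' e)
    (fun ω ω' h h' e => (p1_cell D i i b ω' ω).2 (hE ω ω' h h' e)) ?_ (one_le_pow₀ (by norm_num)) px1 he ?_ hx' hS hT
  · intro ω ω' h h' e
    obtain ⟨a1, a2, a3⟩ := hW ω ω' h h' e
    refine ⟨(p1_cell D k k bV ω' ω).2 a1, ?_, ?_⟩
    · show |S3.kaL R k ω' - S3.kaL R k ω| ≤ 64 * K * (q2 (D.rr k) * q2 D.μ ^ 5)
      rw [q2_pow_add]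
      exact a2
    · show |R.al k ω' - R.al k ω| * q2 (D.a k) ≤ 64 * K * (q2 (D.rr k) * q2 D.μ ^ 5)
      rw [q2_pow_add]
      exact a3
  · intro ω hω
    have := hx ω hω
    rw [← hD.l] at this
    exact this

end Vale.Agent.P106.U.H466
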