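import Vale.Agent.P106.U.H466.GeoK

/-!
# P106 / U / H466 : THE ADAPTER, kappa regime: 101's cells satisfy the hypothesis `geo` of 25's `satK` (helper466)

`D = cell j b`, `Θ = T i`, `W = cell j bb`, `E = cell i b`; `eD` : direction, `Sf`, `Tf` : differences of the times and of
the kappas of two letters; state `XX = (sV, sZ, sE)`, `sM`, and `sA` (normal velocity, two-cap step).
* `Ctx.stp` : one chain, the five relations.
* **`Ctx.geoR`** : `GeoR P D Θ W E e (RK XX sM Sf Tf ρ)`.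
-/

set_option autoImplicit false

namespace Vale.Agent.P106.U.H466

open Vale.Agent.P127 Vale.Agent.P127.Stk Vale.Agent.P106.U.Cell
open Vale.Agent.P127.U.CellD (q2 rd Nb q2_pos q2_add q2_le rd_err rd_le lt_rd rd_mono q2_mul_pow fl1_fl1)

section defs

variable {Ω τ : Type}

/-- direction of the fine cell `w` in the cell `d`, to `b + p` digits -/
noncomputable def eD (b bb p : ℕ) (d w : τ × Pth.Dg) : ℝ :=
  2 ^ b * (((w.2.1 / 2 ^ (bb - (b + p)) : ℤ) : ℝ) / 2 ^ (b + p) - (d.2.1 : ℝ) / 2 ^ b)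

theorem fl1_div {r r' : ℕ} (h : r ≤ r') (z : ℝ) : fl1 r z = fl1 r' z / 2 ^ (r' - r) := by
  obtain ⟨d, rfl⟩ := Nat.exists_eq_add_of_le h
  rw [Nat.add_sub_cancel_left]
  unfold fl1
  have h1 : (2 : ℝ) ^ r * z = ((2 : ℝ) ^ (r + d) * z) / ((2 ^ d : ℕ) : ℝ) := by
    push_cast
    rw [pow_add]
    field_simp
  have h2 := Int.floor_div_natCast ((2 : ℝ) ^ (r + d) * z) (2 ^ d)
  rw [h1, h2]
  norm_cast

theorem eD_eq (C : Pth Ω τ) {j b bb p : ℕ} (h : b + p ≤ bb) (ω ω' : Ω) :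
    eD b bb p (C.cell j b ω) (C.cell j bb ω') = 2 ^ b * (rd (b + p) (C.l ω').v - vb C b ω) := by
  show 2 ^ b * (((fl1 bb (C.l ω').v / 2 ^ (bb - (b + p)) : ℤ) : ℝ) / 2 ^ (b + p) - (fl1 b (C.l ω).v : ℝ) / 2 ^ b) = _
  rw [← fl1_div h]
  rfl

open Classical in
/-- kappa of the letter `θ` in the cell `d` -/
noncomputable def Tv (C : Pth Ω τ) (S : Ω → Prop) (f i j b : ℕ) (tr : Ω → Ω) (d : τ × Pth.Dg) (θ : τ) : ℝ :=
  if h : ∃ ω, S ω ∧ (C.cell j b ω, C.T i ω) = (d, θ) then TT C f i (tr h.choose) else 0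

theorem Tv_eq (C : Pth Ω τ) {S : Ω → Prop} {f i j b : ℕ} {tr : Ω → Ω}
    (htr : Rep S (fun ω => (C.cell j b ω, C.T i ω)) tr) {ω ω' : Ω} (hω' : S ω')
    (h : C.cell j b ω' = C.cell j b ω) : Tv C S f i j b tr (C.cell j b ω) (C.T i ω') = TT C f i (tr ω') := by
  have hex : ∃ ω'', S ω'' ∧ (C.cell j b ω'', C.T i ω'') = (C.cell j b ω, C.T i ω') := ⟨ω', hω', by rw [h]⟩
  unfold Tv
  rw [dif_pos hex]
  have h2 := hex.choose_spec.2
  have h3 : tr hex.choose = tr ω' := htr.eq _ _ (by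
    show (C.cell j b hex.choose, C.T i hex.choose) = (C.cell j b ω', C.T i ω')
    rw [h2, h])
  rw [h3]

/-- difference of the times of two letters -/
noncomputable def Sf (C : Pth Ω τ) (i j : ℕ) (_ : τ × Pth.Dg) (θ θ' : τ) : ℝ := 2 ^ C.a j * (C.tv i θ' - C.tv i θ)

/-- difference of the kappas of two letters -/
noncomputable def Tf (C : Pth Ω τ) (S : Ω → Prop) (f i j b : ℕ) (tr : Ω → Ω) (d : τ × Pth.Dg) (θ θ' : τ) : ℝ :=
  2 ^ C.rk j * (Tv C S f i j b tr d θ' - Tv C S f i j b tr d θ)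

theorem Sf_eq (C : Pth Ω τ) (i j : ℕ) (d : τ × Pth.Dg) (ω ω' : Ω) :
    Sf C i j d (C.T i ω) (C.T i ω') = 2 ^ C.a j * (C.s i ω' - C.s i ω) := by
  unfold Sf
  rw [tv_eq, tv_eq]

theorem Tf_eq (C : Pth Ω τ) {S : Ω → Prop} {f i j b : ℕ} {tr : Ω → Ω}
    (htr : Rep S (fun ω => (C.cell j b ω, C.T i ω)) tr) {ω ω' : Ω} (hω : S ω) (hω' : S ω')
    (h : C.cell j b ω' = C.cell j b ω) :
    Tf C S f i j b tr (C.cell j b ω) (C.T i ω) (C.T i ω') = 2 ^ C.rk j * (TT C f i (tr ω') - TT C f i (tr ω)) := by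
  unfold Tf
  rw [Tv_eq C htr hω' h, Tv_eq C htr hω rfl]

/-- the state `(V, Z, ε)` -/
noncomputable def XX (C : Pth Ω τ) (f j i b : ℕ) (dr tr : Ω → Ω) (ω : Ω) : Fin 3 → ℝ :=
  ![sV C j i b ω, sZ C j i b ω, sE C f j i b dr tr ω]

/-! ### the state in terms of the numbers of the point -/

theorem sE_eq (C : Pth Ω τ) (f j i b : ℕ) (dr tr : Ω → Ω) (ω : Ω) :
    sE C f j i b dr tr ω = (pt C f j b dr (C.s i ω) ω).r -
      2 ^ C.rk j * TT C f i (tr ω) * (pt C f j b dr (C.s i ω) ω).y -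
      C.p ω * (2 ^ C.rk j * TT C f i (tr ω)) * (pt C f j b dr (C.s i ω) ω).u := by
  unfold sE brP Phi pt Fu.cN Fu.cV
  dsimp only
  ring

theorem sM_eq (C : Pth Ω τ) (f j i b : ℕ) (dr tr : Ω → Ω) (ω : Ω) :
    sM C f j i b dr tr ω = (pt C f j b dr (C.s i ω) ω).g -
      2 ^ C.rk j * TT C f i (tr ω) * (pt C f j b dr (C.s i ω) ω).Z := by
  unfold sM Phi pt Fu.g Pth.Zs
  dsimp only
  have e1 : C.ro 1 (b - C.μ) (C.l ω).w = wb C b ω := rfl
  have e2 : rd b (C.l ω).v = vb C b ω := rfl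
  rw [e1, e2]
  ring

theorem sA_eq (C : Pth Ω τ) (f j i b : ℕ) (dr tr : Ω → Ω) (ω : Ω) :
    sA C f j i b dr tr ω = (pt C f j b dr (C.s i ω) ω).d -
      (pt C f j b dr (C.s i ω) ω).r * (pt C f j b dr (C.s i ω) ω).y +
      2 ^ C.rk j * TT C f i (tr ω) * (pt C f j b dr (C.s i ω) ω).y ^ 2 / 2 -
      2 ^ C.rk j * TT C f i (tr ω) * (pt C f j b dr (C.s i ω) ω).u ^ 2 / 2 +
      C.p ω * (2 ^ C.rk j * TT C f i (tr ω)) * (pt C f j b dr (C.s i ω) ω).u * (pt C f j b dr (C.s i ω) ω).y +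
      2 ^ C.rk j * TT C f i (tr ω) * cc C b ω := by
  unfold sA brP Phi pt cc Fu.cN Fu.cV Fu.gd
  dsimp only
  ring

end defs

variable {Ω τ : Type}

/-- tolerance of the relations -/
noncomputable def tol (K : ℝ) (C : Pth Ω τ) (p : ℕ) : ℝ := 40000 * K ^ 10 * (q2 p + q2 C.μ)

/-- the relation of a chain, five numbers -/
structure Stp (C : Pth Ω τ) (f j i b : ℕ) (dr tr : Ω → Ω) (S T x x' ρ : ℝ) (a c : Ω) : Prop where
  V : |sV C j i b c - sV C j i b a - S * (x - x')| ≤ ρ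
  Z : |sZ C j i b c - sZ C j i b a - S * (x ^ 2 - x' ^ 2) / 2| ≤ ρ
  E : |sE C f j i b dr tr c - sE C f j i b dr tr a - -(T * (x - x'))| ≤ ρ
  M : |sM C f j i b dr tr c - sM C f j i b dr tr a - sE C f j i b dr tr a * (sV C j i b c - sV C j i b a) -
    -(S * T * (x - x') ^ 2 / 2)| ≤ ρ
  A : |sA C f j i b dr tr c - sA C f j i b dr tr a - T * ((x ^ 2 - x' ^ 2) / 2)| ≤ ρ

namespace Ctx

variable {C : Pth Ω τ} {S : Ω → Prop} {K : ℝ} {f j js i b bb p : ℕ} (X : Ctx C S K f j js i b bb p)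
include X

/-- two letters in the same cell: the times -/
theorem tt {ω ω' : Ω} (h : C.cell j b ω' = C.cell j b ω) : |C.s i ω' - C.s i ω| ≤ q2 (C.a j) := by
  have hs : C.s j ω' = C.s j ω := (same_T C (congrArg Prod.fst h)).1
  have ha := C.ha (X.jjs.trans X.jsi)
  have h1 : ∀ ω, C.s j ω ≤ C.s i ω ∧ C.s i ω < C.s j ω + q2 (C.a j) := fun ω =>
    ⟨rd_mono ha _, (rd_le _ _).trans_lt (lt_rd _ _)⟩
  have h2 := h1 ω
  have h3 := h1 ω'
  rw [hs] at h3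
  rw [abs_le]
  constructor <;> linarith

theorem Sf_le {ω ω' : Ω} (h : C.cell j b ω' = C.cell j b ω) (d : τ × Pth.Dg) :
    |Sf C i j d (C.T i ω) (C.T i ω')| ≤ 1 := by
  rw [Sf_eq]
  exact scl (by rw [one_mul]; exact X.tt h)

theorem tau_le {tr : Ω → Ω} (htr : Rep S (fun ω => (C.cell j b ω, C.T i ω)) tr) {ω : Ω} (hω : S ω) :
    |2 ^ C.rk j * TT C f i (tr ω)| ≤ 2 * K ^ 3 := by
  refine scl ?_
  rw [← X.rkf]
  exact TT_abs X.K1 (X.ok _ (htr.mem ω hω)) X.fi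

theorem Tf_le {tr : Ω → Ω} (htr : Rep S (fun ω => (C.cell j b ω, C.T i ω)) tr) {ω ω' : Ω} (hω : S ω) (hω' : S ω')
    (h : C.cell j b ω' = C.cell j b ω) : |Tf C S f i j b tr (C.cell j b ω) (C.T i ω) (C.T i ω')| ≤ 4 * K ^ 3 := by
  rw [Tf_eq C htr hω hω' h, mul_sub]
  have h1 := X.tau_le htr hω
  have h2 := X.tau_le htr hω'
  have := abs_sub (2 ^ C.rk j * TT C f i (tr ω')) (2 ^ C.rk j * TT C f i (tr ω))
  linarith

/-- **one chain** -/
theorem stp {dr tr : Ω → Ω} (hdr : Rep S (C.cell j b) dr) (htr : Rep S (fun ω => (C.cell j b ω, C.T i ω)) tr)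
    {a a₁ a₂ a₃ a₄ c : Ω} (pa : S a) (p1 : S a₁) (p2 : S a₂) (p3 : S a₃) (p4 : S a₄) (pc : S c)
    (d1 : C.cell j b a₁ = C.cell j b a) (d2 : C.cell j b a₂ = C.cell j b a) (d3 : C.cell j b a₃ = C.cell j b a)
    (d4 : C.cell j b a₄ = C.cell j b a) (dc : C.cell j b c = C.cell j b a)
    (t4 : C.T i a₄ = C.T i a)
    (e1 : C.cell i b a = C.cell i b a₁) (w1 : C.cell j bb a₁ = C.cell j bb a₂) (e2 : C.cell i b a₂ = C.cell i b a₃)
    (w2 : C.cell j bb a₃ = C.cell j bb a₄) (e3 : C.cell i b a₄ = C.cell i b c) :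
    Stp C f j i b dr tr (2 ^ C.a j * (C.s i a₂ - C.s i a)) (2 ^ C.rk j * (TT C f i (tr a₂) - TT C f i (tr a)))
      (eD b bb p (C.cell j b a) (C.cell j bb a₁)) (eD b bb p (C.cell j b a) (C.cell j bb a₄)) (tol K C p) a c := by
  have hK := X.K1
  have hη := q2_pos C.μ
  have hη1 := q2_one C.μ
  have hpη := pη C.μ
  have hqp := q2_pos p
  have qm : ∀ {m n : ℕ}, m ≤ n → q2 C.μ ^ n ≤ q2 C.μ ^ m := fun hmn => pow_le_pow_of_le_one hη.le hη1 hmn
  have q1' : ∀ {n : ℕ}, 1 ≤ n → q2 C.μ ^ n ≤ q2 C.μ := fun hn => by simpa using qm hn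
  have Km : ∀ {m n : ℕ}, m ≤ n → K ^ m ≤ K ^ n := fun hmn => pow_le_pow_right₀ hK hmn
  have K1 : ∀ {n : ℕ}, 1 ≤ K ^ n := fun {n} => one_le_pow₀ hK
  have M1 : (1:ℝ) ≤ 2 ^ C.μ := one_le_pow₀ (by norm_num)
  -- times
  have s4 : C.s i a₄ = C.s i a := (same_T C t4).1
  have sc : C.s i c = C.s i a := by
    rw [(same_T C (congrArg Prod.fst e3.symm)).1, s4]
  have tc : C.T i c = C.T i a := (congrArg Prod.fst e3.symm : C.T i c = C.T i a₄).trans t4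
  have trc : tr c = tr a := htr.eq _ _ (by show (C.cell j b c, C.T i c) = _; rw [dc, tc])
  have tr4 : tr a₄ = tr a := htr.eq _ _ (by show (C.cell j b a₄, C.T i a₄) = _; rw [d4, t4])
  set t := C.s i a with ht
  set t' := C.s i a₂ with ht'
  -- time change of the points 2, 3
  have m2 := pt_mv C f j b dr t t' a₂
  have m3 := pt_mv C f j b dr t t' a₃
  rw [vcell C (d3.trans d2.symm), cccell C (d3.trans d2.symm)] at m3
  -- steps
  have E1 := X.estep hdr htr pa p1 d1 e1.symm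
  have W1 := X.wstep hdr p1 p2 (d2.trans d1.symm) w1.symm (t := t) (by
    rw [(same_T C (congrArg Prod.fst d1 : C.T j a₁ = C.T j a)).1]
    exact X.ds)
  have E2 := X.estep hdr htr p2 p3 (d3.trans d2.symm) e2.symm
  have W2 := X.wstep hdr p3 p4 (d4.trans d3.symm) w2.symm (t := t) (by
    rw [(same_T C (congrArg Prod.fst d3 : C.T j a₃ = C.T j a)).1]
    exact X.ds)
  have E3 := X.estep hdr htr p4 pc (dc.trans d4.symm) e3.symm
  rw [s4, tr4] at E3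
  rw [← ht', m2, m3] at E2
  -- directions
  have dir : ∀ ω₁ ω₂ : Ω, C.cell j b ω₁ = C.cell j b a → C.cell j b ω₂ = C.cell j b a → C.cell j bb ω₁ = C.cell j bb ω₂ →
      |(pt C f j b dr t ω₂).y - eD b bb p (C.cell j b a) (C.cell j bb ω₁)| ≤ q2 p := by
    intro ω₁ ω₂ _ h2 hw
    rw [hw, eD_eq C X.bbp]
    show |2 ^ b * ((C.l ω₂).v - vb C b ω₂) - _| ≤ _
    rw [vcell C h2, show 2 ^ b * ((C.l ω₂).v - vb C b a) - 2 ^ b * (rd (b + p) (C.l ω₂).v - vb C b a) =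
      2 ^ b * ((C.l ω₂).v - rd (b + p) (C.l ω₂).v) by ring]
    refine scl ?_
    rw [abs_sub_comm, mul_comm, ← q2_add]
    exact rd_err _ _
  have e01 : ∀ ω₁ : Ω, C.cell j b ω₁ = C.cell j b a →
      0 ≤ eD b bb p (C.cell j b a) (C.cell j bb ω₁) ∧ eD b bb p (C.cell j b a) (C.cell j bb ω₁) ≤ 1 := by
    intro ω₁ h1
    rw [eD_eq C X.bbp, ← vcell C h1]
    unfold vb
    have h2 := rd_mono (Nat.le_add_right b p) (C.l ω₁).v
    have h3 := rd_le (b + p) (C.l ω₁).v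
    have h4 := lt_rd b (C.l ω₁).v
    have h5 := q2_mul_pow b
    have h6 : (0:ℝ) < 2 ^ b := by positivity
    constructor
    · have : 0 ≤ rd (b + p) (C.l ω₁).v - rd b (C.l ω₁).v := by linarith
      positivity
    · nlinarith
  have x2 := dir a₁ a₂ d1 d2 w1
  have x3 := dir a₄ a₃ d4 d3 w2.symm
  -- the chain
  have L1 : 1 ≤ 2 * K ^ 3 := by
    have : 1 ≤ K ^ 3 := K1
    linarith
  have K3 : 1 ≤ K ^ 3 := K1
  have hR : 1 ≤ 13 * K ^ 3 * (2 ^ C.μ) ^ 3 := by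
    have h1 : (1:ℝ) ≤ (2 ^ C.μ) ^ 3 := one_le_pow₀ M1
    nlinarith
  have ch : Chain (2 ^ C.rk j * TT C f i (tr a)) (2 ^ C.rk j * TT C f i (tr a₂)) (2 ^ C.a j * (t' - t))
      (2 ^ b * vb C b a₂) (cc C b a₂) (600 * K ^ 7 * q2 C.μ) (2 * q2 C.μ ^ 7) (q2 C.μ ^ 8) (20 * K ^ 2 * q2 C.μ ^ 2) (q2 p)
      (13 * K ^ 3 * (2 ^ C.μ) ^ 3) (2 ^ C.μ) (2 * K ^ 3)
      (eD b bb p (C.cell j b a) (C.cell j bb a₁)) (eD b bb p (C.cell j b a) (C.cell j bb a₄))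
      (pt C f j b dr t a) (pt C f j b dr t a₁) (pt C f j b dr t a₂) (pt C f j b dr t a₃) (pt C f j b dr t a₄)
      (pt C f j b dr t c) :=
    { E1 := E1
      W1 := W1
      E2 := E2
      W2 := W2
      E3 := E3
      ba := X.bd hdr t pa
      b1 := X.bd hdr t p1
      b2 := X.bd hdr t p2
      b3 := X.bd hdr t p3
      b4 := X.bd hdr t p4
      bb := X.bd hdr t pc
      S1 := scl (by rw [one_mul]; exact X.tt d2)
      t1 := X.tau_le htr pa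
      t2 := X.tau_le htr p2
      L1 := L1
      R1 := hR
      U1 := M1
      RV := by
        calc 13 * K ^ 3 * (2 ^ C.μ) ^ 3 * (2 * q2 C.μ ^ 7) = 26 * K ^ 3 * q2 C.μ ^ 4 * (q2 C.μ * 2 ^ C.μ) ^ 3 := by ring
          _ = 26 * K ^ 3 * q2 C.μ ^ 4 := by rw [hpη]; ring
          _ ≤ 600 * K ^ 7 * q2 C.μ := by
            have := Km (m := 3) (n := 7) (by norm_num)
            have := q1' (n := 4) (by norm_num)
            gcongr
            norm_num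
      Ry := by
        calc 13 * K ^ 3 * (2 ^ C.μ) ^ 3 * q2 C.μ ^ 8 = 13 * K ^ 3 * q2 C.μ ^ 5 * (q2 C.μ * 2 ^ C.μ) ^ 3 := by ring
          _ = 13 * K ^ 3 * q2 C.μ ^ 5 := by rw [hpη]; ring
          _ ≤ 600 * K ^ 7 * q2 C.μ := by
            have := Km (m := 3) (n := 7) (by norm_num)
            have := q1' (n := 5) (by norm_num)
            gcongr
            norm_num
      Uu := by
        calc 2 ^ C.μ * (20 * K ^ 2 * q2 C.μ ^ 2) = 20 * K ^ 2 * q2 C.μ * (q2 C.μ * 2 ^ C.μ) := by ring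
          _ = 20 * K ^ 2 * q2 C.μ := by rw [hpη]; ring
          _ ≤ 600 * K ^ 7 * q2 C.μ := by
            have := Km (m := 2) (n := 7) (by norm_num)
            gcongr
            norm_num
      x0 := e01 a₁ d1
      x1 := e01 a₄ d4
      x := x2
      x' := x3 }
  -- the numbers `p τ u`
  have hh : ∀ ω, S ω → |2 ^ C.rk j * TT C f i (tr ω)| ≤ 2 * K ^ 3 →
      |C.p ω * (2 ^ C.rk j * TT C f i (tr ω)) * (pt C f j b dr t ω).u| ≤ 2 * K ^ 3 * q2 C.μ := by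
    intro ω hω h1
    have h2 : |C.p ω| ≤ q2 C.μ ^ 2 := by
      have := (X.ok ω hω).p1
      rwa [q2_mul] at this
    refine (amul (amul h2 h1) (X.bd hdr t hω).u).trans (le_of_eq ?_)
    calc q2 C.μ ^ 2 * (2 * K ^ 3) * 2 ^ C.μ = 2 * K ^ 3 * q2 C.μ * (q2 C.μ * 2 ^ C.μ) := by ring
      _ = _ := by rw [hpη, mul_one]
  have he : 2 * K ^ 3 * q2 C.μ ≤ 600 * K ^ 7 * q2 C.μ := by
    have := Km (m := 3) (n := 7) (by norm_num)
    gcongr
    norm_num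
  have hL : 2 * K ^ 3 * q2 C.μ ≤ 2 * K ^ 3 := mul_le_of_le_one_right (by positivity) hη1
  have ha := hh a pa (X.tau_le htr pa)
  have hc := hh c pc (X.tau_le htr pc)
  rw [trc] at hc
  -- the tolerance
  have K310 : K ^ 3 ≤ K ^ 10 := Km (by norm_num)
  have tol1 : 31 * (2 * K ^ 3 * (600 * K ^ 7 * q2 C.μ)) + 4 * (2 * K ^ 3 * q2 p) ≤ tol K C p := by
    unfold tol
    have u1 : 31 * (2 * K ^ 3 * (600 * K ^ 7 * q2 C.μ)) = 37200 * (K ^ 10 * q2 C.μ) := by ring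
    have u2 : 4 * (2 * K ^ 3 * q2 p) ≤ 8 * (K ^ 10 * q2 p) := by
      calc _ = 8 * (K ^ 3 * q2 p) := by ring
        _ ≤ _ := by gcongr
    have u3 : 0 < K ^ 10 * q2 C.μ := by positivity
    have u4 : 0 < K ^ 10 * q2 p := by positivity
    have u5 : 40000 * K ^ 10 * (q2 p + q2 C.μ) = 40000 * (K ^ 10 * q2 p) + 40000 * (K ^ 10 * q2 C.μ) := by ring
    linarith
  have n1 : 600 * K ^ 7 * q2 C.μ ≤ 2 * K ^ 3 * (600 * K ^ 7 * q2 C.μ) := le_mul_of_one_le_left (by positivity) L1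
  have n2 : q2 p ≤ 2 * K ^ 3 * q2 p := le_mul_of_one_le_left (by positivity) L1
  have n0 : 0 ≤ 2 * K ^ 3 * (600 * K ^ 7 * q2 C.μ) := by positivity
  have n3 : 0 ≤ 2 * K ^ 3 * q2 p := by positivity
  have hcc : cc C b c = cc C b a := cccell C dc
  have hTT : 2 ^ C.rk j * (TT C f i (tr a₂) - TT C f i (tr a)) =
    2 ^ C.rk j * TT C f i (tr a₂) - 2 ^ C.rk j * TT C f i (tr a) := mul_sub _ _ _
  have cV := ch.V
  have cZ := ch.Z
  have cE := ch.E (ha.trans he) (hc.trans he)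
  have cM := ch.M (ha.trans he) (ha.trans hL)
  have cA := ch.A (ha.trans he) (hc.trans he) (c := 2 ^ C.rk j * TT C f i (tr a) * cc C b a)
  refine ⟨?_, ?_, ?_, ?_, ?_⟩
  · show |2 ^ (C.a j + b) * (C.l c).X (C.s i c) - 2 ^ (C.a j + b) * (C.l a).X (C.s i a) - _| ≤ _
    rw [sc]
    refine cV.trans ?_
    linarith
  · show |2 ^ (C.a j + 2 * b) * C.Zs b (C.s i c) c - 2 ^ (C.a j + 2 * b) * C.Zs b (C.s i a) a - _| ≤ _
    rw [sc]
    refine cZ.trans ?_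
    linarith
  · rw [sE_eq, sE_eq, sc, trc, hTT]
    refine cE.trans ?_
    linarith
  · have e0 : sV C j i b c - sV C j i b a = (pt C f j b dr t c).V - (pt C f j b dr t a).V := by
      show 2 ^ (C.a j + b) * (C.l c).X (C.s i c) - 2 ^ (C.a j + b) * (C.l a).X (C.s i a) = _
      rw [sc]
      rfl
    rw [e0, sM_eq, sM_eq, sE_eq, sc, trc, hTT]
    refine cM.trans ?_
    linarith
  · rw [sA_eq, sA_eq, sc, trc, hTT, hcc]
    refine cA.trans ?_
    linarith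

/-- directions of the fine cells are in `[0, 1]` -/
theorem e01 {ω ω' : Ω} (h : C.cell j b ω' = C.cell j b ω) :
    0 ≤ eD b bb p (C.cell j b ω) (C.cell j bb ω') ∧ eD b bb p (C.cell j b ω) (C.cell j bb ω') ≤ 1 := by
  rw [eD_eq C X.bbp, ← vcell C h]
  unfold vb
  have h2 := rd_mono (Nat.le_add_right b p) (C.l ω').v
  have h3 := rd_le (b + p) (C.l ω').v
  have h4 := lt_rd b (C.l ω').v
  have h5 := q2_mul_pow b
  have h6 : (0:ℝ) < 2 ^ b := by positivity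
  constructor
  · have : 0 ≤ rd (b + p) (C.l ω').v - rd b (C.l ω').v := by linarith
    positivity
  · nlinarith

end Ctx

section geo

variable [Fintype Ω] {C : Pth Ω τ} {K : ℝ} {f j js i b bb p : ℕ} (P : Law Ω)
  (X : Ctx C (fun ω => 0 < P.w ω) K f j js i b bb p)
include X

/-- **THE ADAPTER** -/
theorem Ctx.geoR {dr tr : Ω → Ω} (hdr : Rep (fun ω => 0 < P.w ω) (C.cell j b) dr)
    (htr : Rep (fun ω => 0 < P.w ω) (fun ω => (C.cell j b ω, C.T i ω)) tr) :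
    Vale.Agent.P106.TV.GeoR P (C.cell j b) (C.T i) (C.cell j bb) (C.cell i b) (eD b bb p)
      (H25.RK (XX C f j i b dr tr) (sM C f j i b dr tr) (Sf C i j) (Tf C (fun ω => 0 < P.w ω) f i j b tr) (tol K C p)) := by
  intro a a₁ a₂ a₃ a₄ c pa p1 p2 p3 p4 pc d1 d2 d3 d4 dc t1 t3 t4 tc e1 w1 e2 w2 e3
  have h := X.stp hdr htr pa p1 p2 p3 p4 pc d1 d2 d3 d4 dc t4 e1 w1 e2 w2 e3
  rw [← Tf_eq C htr pa p2 d2, ← Sf_eq C i j (C.cell j b a) a a₂] at h
  refine ⟨fun k => ?_, h.M⟩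
  fin_cases k
  · exact h.V
  · exact h.Z
  · exact h.E

end geo

end Vale.Agent.P106.U.H466
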