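import Vale.Agent.P106.U.H466.HeiM
import Vale.Agent.P106.U.H785.MtrF2

/-!
# P106 / U / H466 : the numbers `NumM` and `GeoR` for the data `mt` of `S3.F2` (helper466)

* `numM_mt` : `NumM R (mt R F μ o o') k i (m b1) (m b1 + 8 μ) bV`.
* `ob_near`, `ao_near`, `mtr_D`, `mtr_W`, `s_Th` : the letters of `S3.F2` (`LDk`, `LTh`, the letter of `V2`).
* **`geo_mt`** : `GeoR` over `S3.F2`, `U = LDk`, `Θ = LTh`, `E = mtr i b`, arbitrary `W` which determines `mtr k bV`, the true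
  kappa and curvature.
-/

set_option autoImplicit false

namespace Vale.Agent.P106.U.H466

open Finset Vale.Agent.P127 Vale.Agent.P127.Stk
open Vale.Agent.P127.U.CellD
open Vale.Agent.P106.U.Cell
open Vale.Agent.P106.U.H785.Mtr

variable {Ω : Type} [Fintype Ω] {τ υ π : Type}

section

variable {R : S3.Run Ω τ υ} {p : S3.Run.Num} {K c' g' gU : ℝ} {B bS bV μ : ℕ} {F : S3.Pf R π} {Vs Xs : Finset ℕ}
  {o : Fin 7 → ℝ} {o' : ℕ → ℝ} {ω : Ω} {i k d : ℕ}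

/-- the numbers: `k` young, kappa regime with the margin `m B`, `i` the a-step `d` blocks later of the same run -/
theorem numM_mt (hok : R.Ok p K c' g' gU) (hf : S3.F2 R p K B bS bV F Vs Xs)
    (hr : 100 * (R.m * B) ≤ R.r0) (hb1 : 8 * B ≤ R.b1) (hμB : μ ≤ B) (hμ : 2 * μ ≤ R.C.μ)
    (hkn : k ≤ R.n) (hkV : S3.lv R k ∈ Vs) (hmix : R.m * R.b1 + R.C.rk k + R.m * B ≤ R.C.rf k)
    (hki : k ≤ i) (hai : R.C.a i = R.C.a k + d * R.m) (hri : R.C.rk i = R.C.rk k + d * R.m)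
    (hd : d ≤ B) (hdμ : 8 * μ ≤ d * R.m) (hm8 : 8 * μ + R.m ≤ R.m * B) (ha : 2 * μ ≤ R.C.a k) (ha0 : 0 < R.C.a k) :
    NumM R (S3.mt R F μ o o') k i (R.m * R.b1) (R.m * R.b1 + 8 * μ) bV := by
  have m1 := hok.pth.m1
  have k0 := hok.pth.k0
  have rk0 : R.r0 ≤ R.C.rk k := k0 ▸ R.C.hk (Nat.zero_le k)
  have rfi : R.C.rf k ≤ R.C.rf i := R.C.hf hki
  have mB : B ≤ R.m * B := Nat.le_mul_of_pos_left B m1
  have dm : d * R.m ≤ R.m * B := by rw [mul_comm]; exact Nat.mul_le_mul_left _ hd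
  have b8 : 8 * B ≤ R.m * R.b1 := hb1.trans (Nat.le_mul_of_pos_left _ m1)
  have loS := hf.loS
  have loV := hf.loV
  have e1 : R.m * (R.b1 + B) = R.m * R.b1 + R.m * B := Nat.mul_add _ _ _
  have dp := hf.deep k (by omega) hkV
  have e2 : R.m * (B + p.s) = R.m * B + R.m * p.s := Nat.mul_add _ _ _
  have lf := hok.pth.leF k (by omega)
  have rF := hok.pth.rF
  exact
    { ki := hki
      aij := by
        show R.C.a k + 8 * μ ≤ R.C.a i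
        omega
      rij := by
        show R.C.rk k - μ / 2 + 8 * μ ≤ R.C.rk i - μ / 2
        omega
      b8 := by
        show 8 * μ ≤ R.m * R.b1
        omega
      bb8 := le_refl _
      bbV := by omega
      k2 := by
        show R.C.rk i - μ / 2 + R.m * R.b1 ≤ R.C.rf i
        omega
      k3 := by
        show R.C.rk k - μ / 2 + (R.m * R.b1 + 8 * μ) ≤ R.C.rf k
        omega
      deep := by
        show R.C.rk k + 8 * μ + R.m ≤ R.rI k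
        omega
      a2 := ha
      rI0 := show 2 * μ + R.m ≤ R.r0 by omega
      q := by
        show R.C.rk k - μ / 2 + 5 * μ ≤ R.q
        omega
      μC := hμ }

/-- kappa from `Ob` -/
theorem ob_near {ω' : Ω} (h : S3.Ob R B o' k ω' = S3.Ob R B o' k ω) :
    |S3.kaL R k ω' - S3.kaL R k ω| ≤ q2 (R.C.rk k + R.m * B) := fl1_near h

/-- curvature from `Ao` -/
theorem ao_near (hf : S3.F2 R p K B bS bV F Vs Xs) (hk : k ≤ R.n + p.J) (hkV : S3.lv R k ∈ Vs) {ω' : Ω}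
    (hω : 0 < R.Q.w ω) (hω' : 0 < R.Q.w ω') (h : F.Ao (S3.lv R k) ω' = F.Ao (S3.lv R k) ω) :
    |R.al k ω' - R.al k ω| * q2 (R.C.a k) ≤ 2 * K * q2 (R.C.rk k + R.m * B) := by
  have h1 := hf.aoA k hk hkV ω hω
  have h2 := hf.aoA k hk hkV ω' hω'
  rw [h] at h2
  have hA := q2_pos (R.C.a k)
  have h3 : |R.al k ω' - R.al k ω| ≤ |R.al k ω' - F.Ao (S3.lv R k) ω| + |R.al k ω - F.Ao (S3.lv R k) ω| := by
    have e : R.al k ω' - R.al k ω = (R.al k ω' - F.Ao (S3.lv R k) ω) - (R.al k ω - F.Ao (S3.lv R k) ω) := by ring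
    rw [e]
    exact abs_sub _ _
  have h4 := mul_le_mul_of_nonneg_right h3 hA.le
  linarith

/-- the cell from `LDk` -/
theorem mtr_D {D : Mtd Ω π} {b : ℕ} {ω ω' : Ω} (h : S3.LDk (D.fz k k) b k ω' = S3.LDk (D.fz k k) b k ω) :
    D.mtr k b ω' = D.mtr k b ω :=
  (D.fz_cell_iff (le_refl k) b ω' ω).1 (congrArg Prod.fst h)

/-- the time from `LTh` -/
theorem s_Th {D : Mtd Ω π} {b : ℕ} {ω ω' : Ω} (hki : k ≤ i)
    (h : S3.LTh (D.fz k k) b i ω' = S3.LTh (D.fz k k) b i ω) : D.s i ω' = D.s i ω := by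
  have h1 : (D.fz k k).T i ω' = (D.fz k k).T i ω := congrArg Prod.fst h
  have h2 : fl1 (D.a (max i k)) (D.t ω') = fl1 (D.a (max i k)) (D.t ω) := congrArg Prod.snd h1
  rw [max_eq_left hki] at h2
  unfold Mtd.s rd
  rw [h2]

/-- the time of the letter `LTh` -/
noncomputable def sTh (D : Mtd Ω π) (i : ℕ) (θ : (Lt π × ℤ) × ℤ) : ℝ := (θ.1.2 : ℝ) / 2 ^ D.a i

theorem sTh_eq (D : Mtd Ω π) {b : ℕ} (hki : k ≤ i) (ω : Ω) : sTh D i (S3.LTh (D.fz k k) b i ω) = D.s i ω := by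
  show ((fl1 (D.a (max i k)) (D.t ω) : ℤ) : ℝ) / 2 ^ D.a i = rd (D.a i) (D.t ω)
  rw [max_eq_left hki]
  rfl

/-- **GeoR over `S3.F2`** -/
theorem geo_mt (hok : R.Ok p K c' g' gU) (hf : S3.F2 R p K B bS bV F Vs Xs) (h1 : 1 ≤ K)
    (hB : (100 * K) ^ 20 ≤ (B : ℝ)) (hr : 100 * (R.m * B) ≤ R.r0) (hb1 : 8 * B ≤ R.b1) (hμB : μ ≤ B)
    (hμ : 2 * μ ≤ R.C.μ)
    (hkn : k ≤ R.n) (hkV : S3.lv R k ∈ Vs) (hmix : R.m * R.b1 + R.C.rk k + R.m * B ≤ R.C.rf k)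
    (hki : k ≤ i) (hin : i ≤ R.n + p.J) (hiV : S3.lv R i ∈ Vs)
    (hai : R.C.a i = R.C.a k + d * R.m) (hri : R.C.rk i = R.C.rk k + d * R.m)
    (hd : d ≤ B) (hdμ : 8 * μ ≤ d * R.m) (hm8 : 8 * μ + R.m ≤ R.m * B) (ha : 2 * μ ≤ R.C.a k) (ha0 : 0 < R.C.a k)
    {dr : Ω → Ω} (hdr : Rep (fun ω => 0 < R.Q.w ω) (((S3.mt R F μ o o').p1 k).cell k (R.m * R.b1)) dr)
    {G : Type*} {W : Ω → G}
    (hW : ∀ ω ω', 0 < R.Q.w ω → 0 < R.Q.w ω' → W ω' = W ω →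
      (S3.mt R F μ o o').mtr k bV ω' = (S3.mt R F μ o o').mtr k bV ω ∧
      |S3.kaL R k ω' - S3.kaL R k ω| ≤ 64 * K * q2 (R.C.rk k + 5 * μ) ∧
      |R.al k ω' - R.al k ω| * q2 (R.C.a k) ≤ 64 * K * q2 (R.C.rk k + 5 * μ))
    {e : ((Lt π × ℤ) × Pth.Dg) × ℤ → G → ℝ × ℝ} {px : ℝ} (px1 : px ≤ 1)
    (he : ∀ ω, 0 < R.Q.w ω → 0 ≤ (e (S3.LDk ((S3.mt R F μ o o').fz k k) (R.m * R.b1) k ω) (W ω)).1 ∧
      (e (S3.LDk ((S3.mt R F μ o o').fz k k) (R.m * R.b1) k ω) (W ω)).1 ≤ 1)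
    (hx : ∀ ω, 0 < R.Q.w ω → |2 ^ (R.m * R.b1) * ((R.C.l ω).v - rd (R.m * R.b1) (R.C.l ω).v) -
      (e (S3.LDk ((S3.mt R F μ o o').fz k k) (R.m * R.b1) k ω) (W ω)).1| ≤ px)
    (hx' : ∀ ω, 0 < R.Q.w ω → |2 ^ R.C.rk k * (q2 (R.C.a k) * (R.al k ω - F.gv k (F.pf k ω))) -
      (e (S3.LDk ((S3.mt R F μ o o').fz k k) (R.m * R.b1) k ω) (W ω)).2| ≤ 2 ^ (μ / 2) * px) :
    Vale.Agent.P106.TV.GeoR R.Q (S3.LDk ((S3.mt R F μ o o').fz k k) (R.m * R.b1) k)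
      (S3.LTh ((S3.mt R F μ o o').fz k k) (R.m * R.b1) i) W ((S3.mt R F μ o o').mtr i (R.m * R.b1)) e
      (H572.RH (XH ((S3.mt R F μ o o').p1 k) ((S3.mt R F μ o o').p1 i) (2 ^ (μ / 2)) k i (R.m * R.b1) dr)
        (MH ((S3.mt R F μ o o').p1 k) ((S3.mt R F μ o o').p1 i) (2 ^ (μ / 2)) k i (R.m * R.b1) dr)
        (fun _ θ θ' => 2 ^ R.C.a k * (sTh (S3.mt R F μ o o') i θ' - sTh (S3.mt R F μ o o') i θ)) (fun _ _ _ => 0)
        (2 ^ (μ / 2) * tolH (64 * K) μ 0 px)) := by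
  have N := numM_mt (F := F) (o := o) (o' := o') hok hf hr hb1 hμB hμ hkn hkV hmix hki hai hri hd hdμ hm8 ha ha0
  have hμ' : μ ≤ R.C.μ := by omega
  have hD := ofR_mt (F := F) (o := o) (o' := o') hμ'
  have m1 := hok.pth.m1
  have rk0 : R.r0 ≤ R.C.rk k := hok.pth.k0 ▸ R.C.hk (Nat.zero_le k)
  have mB : B ≤ R.m * B := Nat.le_mul_of_pos_left B m1
  have hν : 2 ^ (μ / 2) * (2:ℝ) ^ (R.C.rk k - μ / 2) = 2 ^ R.C.rk k := by
    rw [← pow_add]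
    congr 1
    omega
  have q5 : q2 (R.C.rk k + 5 * μ) ≤ q2 (R.C.rk k - μ / 2 + 5 * μ) := q2_le (by omega)
  refine geo_run (I := YI R p Vs) hD hok h1 N (fun ω hω => hy_mt hok hf h1 hB hr hμB hμ' hω) ⟨by omega, hkV⟩
    ⟨hin, hiV⟩ hin hdr (fun ω ω' _ _ h => mtr_D h) (fun ω ω' _ _ h => s_Th hki h) (fun _ _ _ _ h => h) ?_ px1 he hx ?_
    ?_ (fun _ _ _ _ _ => rfl)
  · intro ω ω' h h' e
    obtain ⟨a1, a2, a3⟩ := hW ω ω' h h' e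
    refine ⟨a1, a2.trans ?_, a3.trans ?_⟩
    · exact mul_le_mul_of_nonneg_left q5 (by linarith)
    · exact mul_le_mul_of_nonneg_left q5 (by linarith)
  · intro ω hω
    show |2 ^ (μ / 2) * (2 ^ (R.C.rk k - μ / 2) * (q2 (R.C.a k) * (R.al k ω - F.gv k (F.pf k ω)))) - _| ≤ _
    rw [← mul_assoc, hν]
    exact hx' ω hω
  · intro ω ω' _ _ _
    show 2 ^ R.C.a k * (sTh (S3.mt R F μ o o') i (S3.LTh ((S3.mt R F μ o o').fz k k) (R.m * R.b1) i ω') -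
      sTh (S3.mt R F μ o o') i (S3.LTh ((S3.mt R F μ o o').fz k k) (R.m * R.b1) i ω)) = _
    rw [sTh_eq _ hki, sTh_eq _ hki]
    rfl

end

end Vale.Agent.P106.U.H466
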