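import Vale.Agent.P106.U.H466.RayE
import Vale.Agent.P106.U.H466.Defs

/-!
# P106 / U / H466 : same cell, consequences for the rays (helper466)

* `Ctx.es` : two points in the same cells `(j, b)`, `(i, b)` satisfy `Es`.
* `Ctx.ws` : two points in the same cell `(j, bb)` satisfy `Ws`.
* `Ctx.TT_near` : `TT f i` is nearly constant on a cell.
-/

set_option autoImplicit false

namespace Vale.Agent.P106.U.H466

open Vale.Agent.P127 Vale.Agent.P127.Stk Vale.Agent.P106.U.Cell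
open Vale.Agent.P127.U.CellD (q2 rd Nb q2_pos q2_add q2_le rd_err rd_le lt_rd fl1_fl1)

theorem fl1_near {n : ℕ} {x y o : ℝ} (h : fl1 n (x + o) = fl1 n (y + o)) : |x - y| ≤ q2 n := by
  have h1 : rd n (x + o) = rd n (y + o) := by unfold rd; rw [h]
  have a1 := rd_le n (x + o)
  have a2 := lt_rd n (x + o)
  have a3 := rd_le n (y + o)
  have a4 := lt_rd n (y + o)
  rw [abs_le]
  constructor <;> linarith

theorem fl1_near' {n : ℕ} {x y : ℝ} (h : fl1 n x = fl1 n y) : |x - y| ≤ q2 n := by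
  refine fl1_near (o := 0) ?_
  simpa using h

theorem q2_sub (n m : ℕ) : q2 (n - m) ≤ q2 n * 2 ^ m := by
  rcases le_total m n with h | h
  · have e : q2 n = q2 (n - m) * q2 m := by rw [← q2_add]; congr 1; omega
    rw [e, mul_assoc]
    have : q2 m * 2 ^ m = 1 := by unfold q2; rw [← mul_pow]; norm_num
    rw [this, mul_one]
  · have e1 : n - m = 0 := by omega
    rw [e1]
    have e2 : q2 0 = 1 := by unfold q2; simp
    rw [e2]
    have : q2 n * 2 ^ n = 1 := by unfold q2; rw [← mul_pow]; norm_num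
    rw [← this]
    exact mul_le_mul_of_nonneg_left (pow_le_pow_right₀ (by norm_num) h) (q2_pos n).le

theorem q2_mul (n m : ℕ) : q2 (n * m) = q2 m ^ n := by unfold q2; rw [mul_comm, pow_mul]

theorem q2_one (n : ℕ) : q2 n ≤ 1 := by
  unfold q2
  exact pow_le_one₀ (by norm_num) (by norm_num)

variable {Ω τ : Type}

/-- functional of the cell `(j, b)`, from its digits -/
noncomputable def GD (C : Pth Ω τ) (j b : ℕ) (ω : Ω) : Fu := C.Fr j b (C.R j b - 3 * C.μ) ω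

theorem T_mono (C : Pth Ω τ) {i j : ℕ} (hij : i ≤ j) {ω ω' : Ω} (h : C.T j ω' = C.T j ω) : C.T i ω' = C.T i ω := by
  obtain ⟨n, rfl⟩ := Nat.exists_eq_add_of_le hij
  induction n with
  | zero => exact h
  | succ n ih => exact ih (Nat.le_add_right _ _) (C.hT _ _ _ h)

/-- same letter: same time and same numbers of the slab -/
theorem same_T (C : Pth Ω τ) {i : ℕ} {ω ω' : Ω} (h : C.T i ω' = C.T i ω) : C.s i ω' = C.s i ω ∧
    (C.F i ω').ga = (C.F i ω).ga ∧ (C.F i ω').ka = (C.F i ω).ka ∧ (C.F i ω').al = (C.F i ω).al := by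
  refine ⟨?_, ?_, ?_, ?_⟩
  · unfold Pth.s rd
    rw [← C.htm i ω, ← C.htm i ω', h]
  · show C.ga i (C.T i ω') = C.ga i (C.T i ω)
    rw [h]
  · show C.ka i (C.T i ω') = C.ka i (C.T i ω)
    rw [h]
  · show C.al i (C.T i ω') = C.al i (C.T i ω)
    rw [h]

theorem tv_eq (C : Pth Ω τ) (i : ℕ) (ω : Ω) : C.tv i (C.T i ω) = C.s i ω := by
  unfold Pth.tv Pth.s rd
  rw [C.htm]

/-- own slope of the slab of the step `i` -/
theorem F_cV (C : Pth Ω τ) (i : ℕ) (ω : Ω) :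
    (C.F i ω).cV (C.l ω) (C.s i ω) = rd (C.rf i) (C.p ω) * (C.F i ω).cN (C.l ω) (C.s i ω) := by
  unfold Pth.F Pth.Fv Fu.cV Fu.cN
  rw [tv_eq]
  ring

theorem Fr_cN (C : Pth Ω τ) (i b m : ℕ) (ω : Ω) (l : Ray) (s : ℝ) : (C.Fr i b m ω).cN l s = (C.F i ω).cN l s := rfl

theorem ro_err (C : Pth Ω τ) (k : Fin 7) (n : ℕ) (y : ℝ) : |C.ro k n y - y| ≤ q2 n := by
  unfold Pth.ro
  have := rd_err n (y + C.o k)
  have e : rd n (y + C.o k) - C.o k - y = rd n (y + C.o k) - (y + C.o k) := by ring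
  rwa [e]

theorem Fr_cV (C : Pth Ω τ) (i b m : ℕ) (ω : Ω) (l : Ray) (s : ℝ) :
    (C.Fr i b m ω).cV l s = (C.F i ω).cV l s + (C.ro 4 m (C.sl i b ω) - C.sl i b ω) := by
  unfold Pth.Fr Pth.sl Fu.cV
  dsimp only
  ring

/-- the own slope and the slope of the rounded slab -/
theorem Fr_sl (C : Pth Ω τ) {K : ℝ} (hK : 1 ≤ K) {i b n : ℕ} {ω : Ω} (ok : C.Ok K ω) (h : C.rk i + b ≤ C.rf i)
    (hn : n = C.rk i + b - 3 * C.μ) :
    |(C.Fr i b n ω).cV (C.l ω) (C.s i ω) - C.p ω * (C.Fr i b n ω).cN (C.l ω) (C.s i ω)| ≤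
      2 * K * (q2 (C.rk i) * q2 b * (2 ^ C.μ) ^ 3) := by
  rw [Fr_cN, Fr_cV, F_cV]
  set c := (C.F i ω).cN (C.l ω) (C.s i ω) with hc
  have hc2 : c ≤ K := ok.n2 i
  have hc1 : 1 ≤ K * c := ok.n1 i
  have hc0 : 0 < c := by
    by_contra hn
    push Not at hn
    nlinarith
  have e : rd (C.rf i) (C.p ω) * c + (C.ro 4 n (C.sl i b ω) - C.sl i b ω) - C.p ω * c =
      (rd (C.rf i) (C.p ω) - C.p ω) * c + (C.ro 4 n (C.sl i b ω) - C.sl i b ω) := by ring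
  rw [e]
  have h1 : |(rd (C.rf i) (C.p ω) - C.p ω) * c| ≤ q2 (C.rk i + b) * K := by
    rw [abs_mul, abs_of_pos hc0]
    exact mul_le_mul ((rd_err _ _).trans (q2_le h)) hc2 hc0.le (q2_pos _).le
  have h2 : |C.ro 4 n (C.sl i b ω) - C.sl i b ω| ≤ q2 (C.rk i + b) * 2 ^ (3 * C.μ) := by
    refine (ro_err C 4 n _).trans ?_
    rw [hn]
    exact q2_sub _ _
  have h3 : (1:ℝ) ≤ 2 ^ (3 * C.μ) := one_le_pow₀ (by norm_num)
  have h4 : (2:ℝ) ^ (3 * C.μ) = (2 ^ C.μ) ^ 3 := by rw [← pow_mul, mul_comm]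
  have h5 : q2 (C.rk i + b) = q2 (C.rk i) * q2 b := q2_add _ _
  have h6 : 0 < q2 (C.rk i + b) := q2_pos _
  rw [← h5, ← h4]
  refine (abs_add_le _ _).trans ((add_le_add h1 h2).trans ?_)
  have h7 : q2 (C.rk i + b) * K ≤ K * (q2 (C.rk i + b) * 2 ^ (3 * C.μ)) := by
    rw [mul_comm]
    exact mul_le_mul_of_nonneg_left (le_mul_of_one_le_right h6.le h3) (by linarith)
  have h8 : q2 (C.rk i + b) * 2 ^ (3 * C.μ) ≤ K * (q2 (C.rk i + b) * 2 ^ (3 * C.μ)) :=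
    le_mul_of_one_le_left (by positivity) hK
  linarith

/-- the digits of the cell give the functional -/
theorem GD_eq (C : Pth Ω τ) {j b : ℕ} {ω ω' : Ω} (h : C.cell j b ω' = C.cell j b ω) : GD C j b ω' = GD C j b ω := by
  have hT : C.T j ω' = C.T j ω := congrArg Prod.fst h
  have hv : fl1 b (C.l ω').v = fl1 b (C.l ω).v := congrArg (fun q => q.2.1) h
  have hd : ∀ k, fl1 (C.lv j b k) (C.va j b ω' k + C.o k) = fl1 (C.lv j b k) (C.va j b ω k + C.o k) :=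
    fun k => congrArg (fun q => q.2.2 k) h
  obtain ⟨-, e1, e2, e3⟩ := same_T C hT
  have e4 : fl1 (C.R j b - 3 * C.μ) (C.sl j b ω' + C.o 4) = fl1 (C.R j b - 3 * C.μ) (C.sl j b ω + C.o 4) := hd 4
  have e5 : rd (C.bs j b) (C.l ω').v = rd (C.bs j b) (C.l ω).v := by
    unfold rd
    rw [fl1_fl1 (s := C.bs j b) (s' := b) (min_le_left _ _) hv]
  have e6 : C.ro 4 (C.R j b - 3 * C.μ) (C.sl j b ω') = C.ro 4 (C.R j b - 3 * C.μ) (C.sl j b ω) := by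
    unfold Pth.ro rd
    rw [e4]
  unfold GD Pth.Fr
  rw [e6, e5]
  ext
  · exact e1
  · show _ - (C.F j ω').ka * _ = _ - (C.F j ω).ka * _
    rw [e2]
  · exact e2
  · exact e3

/-! ### pairs of steps -/

section pair

variable {C : Pth Ω τ} {K : ℝ} {ω : Ω} (hK : 1 ≤ K) (ok : C.Ok K ω)
include hK ok

theorem c0 (n : ℕ) : 0 < (C.F n ω).cN (C.l ω) (C.s n ω) := by
  have h1 := ok.n1 n
  by_contra hn
  push Not at hn
  nlinarith

theorem r_abs {f i : ℕ} (hfi : f ≤ i) : |rho C f i ω| ≤ K ^ 2 ∧ |1 - rho C f i ω| ≤ K ^ 2 * q2 (C.rk f) := by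
  have hi := c0 hK ok i
  have hj := c0 hK ok f
  have n1 := ok.n1 i
  have n2 := ok.n2 f
  have hinv : 1 / (C.F i ω).cN (C.l ω) (C.s i ω) ≤ K := by
    rw [div_le_iff₀ hi]
    exact n1
  constructor
  · unfold rho
    rw [abs_div, abs_of_pos hi, abs_of_pos hj, div_eq_mul_one_div, sq]
    exact mul_le_mul n2 hinv (by positivity) (by linarith)
  · have h1 := (ok.ag f i hfi).cN
    rw [show C.s i ω = C.s f ω + (C.s i ω - C.s f ω) by ring, add_sub_cancel_left, Fu.cN_sh,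
      ← show C.s i ω = C.s f ω + (C.s i ω - C.s f ω) by ring] at h1
    have e : 1 - rho C f i ω = ((C.F i ω).cN (C.l ω) (C.s i ω) - (C.F f ω).cN (C.l ω) (C.s f ω)) *
        (1 / (C.F i ω).cN (C.l ω) (C.s i ω)) := by
      unfold rho
      field_simp
    rw [e, abs_mul, abs_of_pos (by positivity : 0 < 1 / (C.F i ω).cN (C.l ω) (C.s i ω))]
    calc _ ≤ (K * q2 (C.rk f)) * K := mul_le_mul h1 hinv (by positivity) (by have := q2_pos (C.rk f); positivity)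
      _ = K ^ 2 * q2 (C.rk f) := by ring

theorem TT_abs {f i : ℕ} (hfi : f ≤ i) : |TT C f i ω| ≤ 2 * K ^ 3 * q2 (C.rk f) := by
  have hk := q2_pos (C.rk f)
  have h1 : |(C.F i ω).ka - ((C.F f ω).ka - (C.s i ω - C.s f ω) * (C.F f ω).al)| ≤ K * q2 (C.rk f) := (ok.ag f i hfi).ka
  have h2 := (r_abs hK ok hfi).2
  have h3 := ok.k1 i
  have e : TT C f i ω = ((C.F i ω).ka - ((C.F f ω).ka - (C.s i ω - C.s f ω) * (C.F f ω).al)) -
      (1 - rho C f i ω) * (C.F i ω).ka := by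
    unfold TT
    ring
  rw [e]
  have x1 := abs_sub ((C.F i ω).ka - ((C.F f ω).ka - (C.s i ω - C.s f ω) * (C.F f ω).al))
    ((1 - rho C f i ω) * (C.F i ω).ka)
  have x2 : |(1 - rho C f i ω) * (C.F i ω).ka| ≤ K ^ 2 * q2 (C.rk f) * K := by
    rw [abs_mul]
    exact mul_le_mul h2 h3 (abs_nonneg _) (by positivity)
  have x3 : K * q2 (C.rk f) ≤ K ^ 3 * q2 (C.rk f) := by
    refine mul_le_mul_of_nonneg_right ?_ hk.le
    calc K = K ^ 1 := (pow_one K).symm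
      _ ≤ K ^ 3 := pow_le_pow_right₀ hK (by norm_num)
  have x4 : K ^ 2 * q2 (C.rk f) * K = K ^ 3 * q2 (C.rk f) := by ring
  linarith

theorem aH0 {f i : ℕ} (hfi : f ≤ i) : |(C.F f ω).al - rho C f i ω * (C.F i ω).al| * q2 (C.a i) ≤ 2 * K ^ 3 * q2 (C.rk f) := by
  have hk := q2_pos (C.rk f)
  have hA := q2_pos (C.a i)
  have h1 : |(C.F i ω).al - (C.F f ω).al| * q2 (C.a i) ≤ K * q2 (C.rk f) := (ok.ag f i hfi).al
  have h2 := (r_abs hK ok hfi).2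
  have h3 := ok.a1 i
  have e : (C.F f ω).al - rho C f i ω * (C.F i ω).al = -((C.F i ω).al - (C.F f ω).al) +
      (1 - rho C f i ω) * (C.F i ω).al := by ring
  rw [e]
  have x1 := abs_add_le (-((C.F i ω).al - (C.F f ω).al)) ((1 - rho C f i ω) * (C.F i ω).al)
  rw [abs_neg] at x1
  have x2 := mul_le_mul_of_nonneg_right x1 hA.le
  have x3 : |(1 - rho C f i ω) * (C.F i ω).al| * q2 (C.a i) ≤ K ^ 3 * q2 (C.rk f) := by
    rw [abs_mul]
    calc |1 - rho C f i ω| * |(C.F i ω).al| * q2 (C.a i) = |1 - rho C f i ω| * (|(C.F i ω).al| * q2 (C.a i)) := by ring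
      _ ≤ (K ^ 2 * q2 (C.rk f)) * K := mul_le_mul h2 h3 (by positivity) (by positivity)
      _ = K ^ 3 * q2 (C.rk f) := by ring
  have x4 : K ≤ K ^ 3 := by
    calc K = K ^ 1 := (pow_one K).symm
      _ ≤ K ^ 3 := pow_le_pow_right₀ hK (by norm_num)
  have x5 : K * q2 (C.rk f) ≤ K ^ 3 * q2 (C.rk f) := mul_le_mul_of_nonneg_right x4 hk.le
  linarith

end pair

theorem pη (m : ℕ) : q2 m * 2 ^ m = 1 := by unfold q2; rw [← mul_pow]; norm_num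

/-- null coordinate of two rays with the same digits -/
theorem dz_le (C : Pth Ω τ) {d : ℕ} {ω ω' : Ω} {s A : ℝ} (hA : 0 ≤ A)
    (hv : fl1 d (C.l ω').v = fl1 d (C.l ω).v) (hw : fl1 (d - C.μ) ((C.l ω').w + C.o 1) = fl1 (d - C.μ) ((C.l ω).w + C.o 1))
    (hX : |(C.l ω').X s - (C.l ω).X s| ≤ A * q2 d * 2 ^ C.μ) (hN : |(C.l ω').N s - (C.l ω).N s| ≤ A * q2 d * 2 ^ C.μ)
    (hZ : |C.Zs d s ω' - C.Zs d s ω| ≤ A * q2 d ^ 2 * (2 ^ C.μ) ^ 3) :
    |(C.l ω).dz (C.l ω') s| ≤ 3 * A * q2 d ^ 2 * (2 ^ C.μ) ^ 3 := by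
  have ev : rd d (C.l ω').v = rd d (C.l ω).v := by unfold rd; rw [hv]
  have ew : C.ro 1 (d - C.μ) (C.l ω').w = C.ro 1 (d - C.μ) (C.l ω).w := by unfold Pth.ro rd; rw [hw]
  have e : (C.l ω).dz (C.l ω') s = (C.Zs d s ω' - C.Zs d s ω) +
      (rd d (C.l ω).v - (C.l ω).v) * ((C.l ω').X s - (C.l ω).X s) +
      (C.ro 1 (d - C.μ) (C.l ω).w - (C.l ω).w) * ((C.l ω').N s - (C.l ω).N s) := by
    unfold Pth.Zs Ray.dz
    rw [ev, ew]
    ring
  have hB := q2_pos d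
  set M : ℝ := 2 ^ C.μ with hM
  have hM1 : 1 ≤ M := one_le_pow₀ (by norm_num)
  have h1 : |rd d (C.l ω).v - (C.l ω).v| ≤ q2 d := rd_err _ _
  have h2 : |C.ro 1 (d - C.μ) (C.l ω).w - (C.l ω).w| ≤ q2 d * M := (ro_err C 1 _ _).trans (q2_sub _ _)
  have t1 : |(rd d (C.l ω).v - (C.l ω).v) * ((C.l ω').X s - (C.l ω).X s)| ≤ A * q2 d ^ 2 * M ^ 3 := by
    rw [abs_mul]
    calc _ ≤ q2 d * (A * q2 d * M) := mul_le_mul h1 hX (abs_nonneg _) hB.le
      _ = A * q2 d ^ 2 * M ^ 1 := by ring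
      _ ≤ A * q2 d ^ 2 * M ^ 3 := mul_le_mul_of_nonneg_left (pow_le_pow_right₀ hM1 (by norm_num)) (by positivity)
  have t2 : |(C.ro 1 (d - C.μ) (C.l ω).w - (C.l ω).w) * ((C.l ω').N s - (C.l ω).N s)| ≤ A * q2 d ^ 2 * M ^ 3 := by
    rw [abs_mul]
    calc _ ≤ (q2 d * M) * (A * q2 d * M) := mul_le_mul h2 hN (abs_nonneg _) (by positivity)
      _ = A * q2 d ^ 2 * M ^ 2 := by ring
      _ ≤ A * q2 d ^ 2 * M ^ 3 := mul_le_mul_of_nonneg_left (pow_le_pow_right₀ hM1 (by norm_num)) (by positivity)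
  rw [e]
  have x1 := abs_add_le ((C.Zs d s ω' - C.Zs d s ω) + (rd d (C.l ω).v - (C.l ω).v) * ((C.l ω').X s - (C.l ω).X s))
    ((C.ro 1 (d - C.μ) (C.l ω).w - (C.l ω).w) * ((C.l ω').N s - (C.l ω).N s))
  have x2 := abs_add_le (C.Zs d s ω' - C.Zs d s ω) ((rd d (C.l ω).v - (C.l ω).v) * ((C.l ω').X s - (C.l ω).X s))
  linarith

/-- closeness of two points in the same cell `(n, d)`, `R n d = rk n + d` -/
structure Near (C : Pth Ω τ) (n d : ℕ) (ω ω' : Ω) : Prop where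
  s : C.s n ω' = C.s n ω
  G : GD C n d ω' = GD C n d ω
  v : |(C.l ω').v - (C.l ω).v| ≤ q2 d
  w : |(C.l ω').w - (C.l ω).w| ≤ q2 d * 2 ^ C.μ
  X : |(C.l ω').X (C.s n ω) - (C.l ω).X (C.s n ω)| ≤ q2 (C.a n) * q2 d * 2 ^ C.μ
  N : |(C.l ω').N (C.s n ω) - (C.l ω).N (C.s n ω)| ≤ q2 (C.a n) * q2 d * 2 ^ C.μ
  Z : |C.Zs d (C.s n ω) ω' - C.Zs d (C.s n ω) ω| ≤ q2 (C.a n) * q2 d ^ 2 * (2 ^ C.μ) ^ 3
  z : |(C.l ω).dz (C.l ω') (C.s n ω)| ≤ 3 * q2 (C.a n) * q2 d ^ 2 * (2 ^ C.μ) ^ 3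
  g : |(GD C n d ω).g (C.l ω') (C.s n ω) - (GD C n d ω).g (C.l ω) (C.s n ω)| ≤
    q2 (C.a n) * q2 d ^ 2 * q2 (C.rk n) * (2 ^ C.μ) ^ 7
  gd : |(GD C n d ω).gd (C.l ω') (C.s n ω) - (GD C n d ω).gd (C.l ω) (C.s n ω)| ≤
    q2 d ^ 2 * q2 (C.rk n) * (2 ^ C.μ) ^ 5

theorem near (C : Pth Ω τ) {n d : ℕ} {ω ω' : Ω} (hr : C.rk n + d ≤ C.rf n) (hi : C.cell n d ω' = C.cell n d ω) :
    Near C n d ω ω' := by
  have hR : C.R n d = C.rk n + d := by unfold Pth.R Pth.bs; omega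
  have hTi : C.T n ω' = C.T n ω := congrArg Prod.fst hi
  have hv : fl1 d (C.l ω').v = fl1 d (C.l ω).v := congrArg (fun q => q.2.1) hi
  have hd : ∀ k, fl1 (C.lv n d k) (C.va n d ω' k + C.o k) = fl1 (C.lv n d k) (C.va n d ω k + C.o k) :=
    fun k => congrArg (fun q => q.2.2 k) hi
  obtain ⟨hs, f1, f2, f3⟩ := same_T C hTi
  have hGD := GD_eq C hi
  have hw : fl1 (d - C.μ) ((C.l ω').w + C.o 1) = fl1 (d - C.μ) ((C.l ω).w + C.o 1) := hd 1
  have hX : |(C.l ω').X (C.s n ω) - (C.l ω).X (C.s n ω)| ≤ q2 (C.a n) * q2 d * 2 ^ C.μ := by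
    have h0 : fl1 (C.a n + d - C.μ) ((C.l ω').X (C.s n ω') + C.o 0) = fl1 (C.a n + d - C.μ) ((C.l ω).X (C.s n ω) + C.o 0) := hd 0
    rw [hs] at h0
    refine (fl1_near h0).trans ?_
    rw [← q2_add]
    exact q2_sub _ _
  have hN : |(C.l ω').N (C.s n ω) - (C.l ω).N (C.s n ω)| ≤ q2 (C.a n) * q2 d * 2 ^ C.μ := by
    have h0 : fl1 (C.a n + d - C.μ) ((C.l ω').N (C.s n ω') + C.o 2) = fl1 (C.a n + d - C.μ) ((C.l ω).N (C.s n ω) + C.o 2) := hd 2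
    rw [hs] at h0
    refine (fl1_near h0).trans ?_
    rw [← q2_add]
    exact q2_sub _ _
  have hZ : |C.Zs d (C.s n ω) ω' - C.Zs d (C.s n ω) ω| ≤ q2 (C.a n) * q2 d ^ 2 * (2 ^ C.μ) ^ 3 := by
    have h0 : fl1 (C.a n + 2 * d - 3 * C.μ) (C.Zs d (C.s n ω') ω' + C.o 3) =
      fl1 (C.a n + 2 * d - 3 * C.μ) (C.Zs d (C.s n ω) ω + C.o 3) := hd 3
    rw [hs] at h0
    refine (fl1_near h0).trans ((q2_sub _ _).trans (le_of_eq ?_))
    rw [q2_add, q2_mul, ← pow_mul, mul_comm 3 C.μ]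
  refine ⟨hs, hGD, fl1_near' hv, (fl1_near hw).trans (q2_sub _ _), hX, hN, hZ, dz_le C (q2_pos _).le hv hw hX hN hZ, ?_, ?_⟩
  · have h0 : fl1 (C.a n + d + C.R n d - 7 * C.μ) ((GD C n d ω').g (C.l ω') (C.s n ω') + C.o 6) =
      fl1 (C.a n + d + C.R n d - 7 * C.μ) ((GD C n d ω).g (C.l ω) (C.s n ω) + C.o 6) := hd 6
    rw [hs, hGD] at h0
    refine (fl1_near h0).trans ((q2_sub _ _).trans (le_of_eq ?_))
    rw [hR, q2_add, q2_add, q2_add, ← pow_mul, mul_comm 7 C.μ]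
    ring
  · have h0 : fl1 (C.R n d + d - 5 * C.μ) ((GD C n d ω').gd (C.l ω') (C.s n ω') + C.o 5) =
      fl1 (C.R n d + d - 5 * C.μ) ((GD C n d ω).gd (C.l ω) (C.s n ω) + C.o 5) := hd 5
    rw [hs, hGD] at h0
    refine (fl1_near h0).trans ((q2_sub _ _).trans (le_of_eq ?_))
    rw [hR, q2_add, q2_add, ← pow_mul, mul_comm 5 C.μ]
    ring

/-- `cN`, `cV` of the functional of the frame `f` do not depend on the time -/
theorem G0_cN (C : Pth Ω τ) (f : ℕ) (dr : Ω → Ω) (s : ℝ) (ω : Ω) (l : Ray) :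
    (G0 C f dr s ω).cN l s = (C.F f (dr ω)).cN l (C.s f ω) := by
  have := Fu.cN_sh (C.F f (dr ω)) l (C.s f ω) (s - C.s f ω)
  rwa [add_sub_cancel] at this

theorem G0_cV (C : Pth Ω τ) (f : ℕ) (dr : Ω → Ω) (s : ℝ) (ω : Ω) (l : Ray) :
    (G0 C f dr s ω).cV l s = (C.F f (dr ω)).cV l (C.s f ω) := by
  have := Fu.cV_sh (C.F f (dr ω)) l (C.s f ω) (s - C.s f ω)
  rwa [add_sub_cancel] at this

theorem G0_gd (C : Pth Ω τ) (f : ℕ) (dr : Ω → Ω) (s : ℝ) (ω : Ω) (l : Ray) :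
    (G0 C f dr s ω).gd l s = (C.F f (dr ω)).gd l (C.s f ω) := by
  have := Fu.gd_sh (C.F f (dr ω)) l (C.s f ω) (s - C.s f ω)
  rwa [add_sub_cancel] at this

theorem G0_g (C : Pth Ω τ) (f : ℕ) (dr : Ω → Ω) (s s' : ℝ) (ω : Ω) (l : Ray) :
    (G0 C f dr s' ω).g l s' = (G0 C f dr s ω).g l s + (s' - s) * (G0 C f dr s ω).gd l s := by
  have h1 := Fu.g_sh (C.F f (dr ω)) l (C.s f ω) (s' - C.s f ω)
  have h2 := Fu.g_sh (C.F f (dr ω)) l (C.s f ω) (s - C.s f ω)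
  rw [add_sub_cancel] at h1 h2
  rw [G0_gd]
  show ((C.F f (dr ω)).sh (s' - C.s f ω)).g l s' = ((C.F f (dr ω)).sh (s - C.s f ω)).g l s + _
  rw [h1, h2]
  ring

namespace Ctx

variable {C : Pth Ω τ} {S : Ω → Prop} {K : ℝ} {f j js i b bb p : ℕ} (X : Ctx C S K f j js i b bb p)
include X

theorem fi : f ≤ i := X.fj.trans (X.jjs.trans X.jsi)

theorem kj : C.rk j + bb ≤ C.rf j := by
  have h1 := X.kf
  have h2 := C.hf X.fj
  have h3 := X.rkf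
  omega

theorem kjb : C.rk j + b ≤ C.rf j := by
  have h1 := X.kj
  have h2 := X.bb8
  omega

theorem kfb : C.rk f + b ≤ C.rf f := by
  have h1 := X.kf
  have h2 := X.bb8
  omega

theorem ai : C.a j + 8 * C.μ ≤ C.a i := by
  have := C.ha X.jjs
  have := X.a8
  omega

theorem ri : C.rk j + 8 * C.μ ≤ C.rk i := by
  have := C.hk X.jsi
  have := X.r8
  omega

theorem AA : q2 (C.a i) ≤ q2 (C.a j) * q2 C.μ ^ 8 := by
  rw [← q2_mul, ← q2_add]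
  exact q2_le X.ai

theorem kk : q2 (C.rk i) ≤ q2 (C.rk j) * q2 C.μ ^ 8 := by
  rw [← q2_mul, ← q2_add]
  exact q2_le X.ri

theorem Bη : q2 b ≤ q2 C.μ ^ 8 := by
  rw [← q2_mul]
  exact q2_le X.b8

theorem BB : q2 bb ≤ q2 b * q2 C.μ ^ 8 := by
  rw [← q2_mul, ← q2_add]
  exact q2_le X.bb8

theorem AB : q2 (C.a j) * q2 b ≤ q2 (C.a i) * q2 C.μ ^ 8 := by
  rw [← q2_mul, ← q2_add, ← q2_add]
  exact q2_le X.ba

/-- bound of the alpha difference -/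
theorem al_diff {ω : Ω} (hω : S ω) :
    |(C.F i ω).al - (C.F f ω).al| * q2 (C.a i) ≤ 2 * K * (q2 (C.rk j) * q2 C.μ ^ 8) := by
  have ok := X.ok ω hω
  have hK := X.K1
  have h1' : |(C.F i ω).al - (C.F js ω).al| * q2 (C.a i) ≤ K * q2 (C.rk js) := (ok.ag js i X.jsi).al
  have h2' : |(C.F js ω).al - (C.F f ω).al| * q2 (C.a js) ≤ K * q2 (C.rk f) := (ok.ag f js (X.fj.trans X.jjs)).al
  have h3 : q2 (C.rk js) ≤ q2 (C.rk j) * q2 C.μ ^ 8 := by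
    rw [← q2_mul, ← q2_add]
    exact q2_le X.r8
  have h4 : q2 (C.a i) ≤ q2 (C.a js) * q2 C.μ ^ 8 := by
    rw [← q2_mul, ← q2_add]
    exact q2_le X.a8
  have hη : 0 < q2 C.μ ^ 8 := pow_pos (q2_pos _) 8
  have x1 := abs_add_le ((C.F i ω).al - (C.F js ω).al) ((C.F js ω).al - (C.F f ω).al)
  rw [sub_add_sub_cancel] at x1
  have x2 : |(C.F js ω).al - (C.F f ω).al| * q2 (C.a i) ≤ K * q2 (C.rk j) * q2 C.μ ^ 8 := by
    calc _ ≤ |(C.F js ω).al - (C.F f ω).al| * (q2 (C.a js) * q2 C.μ ^ 8) := mul_le_mul_of_nonneg_left h4 (abs_nonneg _)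
      _ = (|(C.F js ω).al - (C.F f ω).al| * q2 (C.a js)) * q2 C.μ ^ 8 := by ring
      _ ≤ (K * q2 (C.rk f)) * q2 C.μ ^ 8 := mul_le_mul_of_nonneg_right h2' hη.le
      _ = _ := by rw [X.rkf]
  have x3 : K * q2 (C.rk js) ≤ K * (q2 (C.rk j) * q2 C.μ ^ 8) := mul_le_mul_of_nonneg_left h3 (by linarith)
  have x4 := mul_le_mul_of_nonneg_right x1 (q2_pos (C.a i)).le
  linarith

theorem aH {ω : Ω} (hω : S ω) : |(C.F f ω).al - rho C f i ω * (C.F i ω).al| * q2 (C.a i) ≤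
    5 * K ^ 3 * (q2 (C.rk j) * q2 C.μ ^ 5) := by
  have ok := X.ok ω hω
  have hK := X.K1
  have hk := q2_pos (C.rk j)
  have hη := q2_pos C.μ
  have hη1 := q2_one C.μ
  have hk1 := q2_one (C.rk j)
  have hA := q2_pos (C.a i)
  have h1 := X.al_diff hω
  have h2 := (r_abs hK ok X.fi).2
  rw [X.rkf] at h2
  have h3 := ok.a1 f
  have haf : q2 (C.a j) ≤ q2 (C.a f) := q2_le (C.ha X.fj)
  set η := q2 C.μ with hηd
  set k := q2 (C.rk j) with hkd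
  set A' := q2 (C.a i) with hAd
  have h85 : η ^ 8 ≤ η ^ 5 := pow_le_pow_of_le_one hη.le hη1 (by norm_num)
  have hj : |(C.F f ω).al| * A' ≤ K * η ^ 8 := by
    calc |(C.F f ω).al| * A' ≤ |(C.F f ω).al| * (q2 (C.a f) * η ^ 8) := by
          refine mul_le_mul_of_nonneg_left (X.AA.trans ?_) (abs_nonneg _)
          exact mul_le_mul_of_nonneg_right haf (by positivity)
      _ = (|(C.F f ω).al| * q2 (C.a f)) * η ^ 8 := by ring
      _ ≤ K * η ^ 8 := mul_le_mul_of_nonneg_right h3 (by positivity)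
  have hi : |(C.F i ω).al| * A' ≤ 3 * K * η ^ 8 := by
    have x1 := abs_add_le ((C.F i ω).al - (C.F f ω).al) (C.F f ω).al
    rw [sub_add_cancel] at x1
    have x2 := mul_le_mul_of_nonneg_right x1 hA.le
    have x3 : 2 * K * (k * η ^ 8) ≤ 2 * K * η ^ 8 := by
      have : k * η ^ 8 ≤ η ^ 8 := mul_le_of_le_one_left (by positivity) hk1
      exact mul_le_mul_of_nonneg_left this (by positivity)
    linarith
  have e : (C.F f ω).al - rho C f i ω * (C.F i ω).al = -((C.F i ω).al - (C.F f ω).al) +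
      (1 - rho C f i ω) * (C.F i ω).al := by ring
  rw [e]
  have x1 := abs_add_le (-((C.F i ω).al - (C.F f ω).al)) ((1 - rho C f i ω) * (C.F i ω).al)
  rw [abs_neg] at x1
  have x2 := mul_le_mul_of_nonneg_right x1 hA.le
  have x3 : |(1 - rho C f i ω) * (C.F i ω).al| * A' ≤ 3 * K ^ 3 * (k * η ^ 8) := by
    rw [abs_mul]
    calc |1 - rho C f i ω| * |(C.F i ω).al| * A' = |1 - rho C f i ω| * (|(C.F i ω).al| * A') := by ring
      _ ≤ (K ^ 2 * k) * (3 * K * η ^ 8) := mul_le_mul h2 hi (by positivity) (by positivity)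
      _ = 3 * K ^ 3 * (k * η ^ 8) := by ring
  have x4 : K ≤ K ^ 3 := by
    calc K = K ^ 1 := (pow_one K).symm
      _ ≤ K ^ 3 := pow_le_pow_right₀ hK (by norm_num)
  have x5 : 2 * K * (k * η ^ 8) ≤ 2 * K ^ 3 * (k * η ^ 8) := by
    have : 0 ≤ k * η ^ 8 := by positivity
    nlinarith
  have x6 : 5 * K ^ 3 * (k * η ^ 8) ≤ 5 * K ^ 3 * (k * η ^ 5) := by
    have : k * η ^ 8 ≤ k * η ^ 5 := mul_le_mul_of_nonneg_left h85 hk.le
    exact mul_le_mul_of_nonneg_left this (by positivity)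
  linarith

end Ctx

end Vale.Agent.P106.U.H466
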