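import Vale.Agent.P106.U.H466.CellE

/-!
# P106 / U / H466 : the data `Es`, `Ws` for points of the cells (helper466)

* `Ctx.br_le` : slopes relative to the functional of the cell.
* `Ctx.es` : same cells `(j, b)`, `(i, b)`; `Ctx.ws` : same cell `(j, bb)`.
* `Ctx.TT_near` : `TT f i` is nearly constant on `(cell j b, T i)`.
-/

set_option autoImplicit false

namespace Vale.Agent.P106.U.H466

open Vale.Agent.P127 Vale.Agent.P127.Stk Vale.Agent.P106.U.Cell
open Vale.Agent.P127.U.CellD (q2 rd Nb q2_pos q2_add q2_le rd_err rd_le lt_rd fl1_fl1)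

variable {Ω τ : Type}

theorem cN_same (C : Pth Ω τ) {n : ℕ} {ω ω' : Ω} (h : C.T n ω' = C.T n ω) (l : Ray) (s : ℝ) :
    (C.F n ω').cN l s = (C.F n ω).cN l s := by
  obtain ⟨-, e1, e2, e3⟩ := same_T C h
  unfold Fu.cN
  rw [e1, e2, e3]

namespace Ctx

variable {C : Pth Ω τ} {S : Ω → Prop} {K : ℝ} {f j js i b bb p : ℕ} (X : Ctx C S K f j js i b bb p)
include X

theorem dT {dr : Ω → Ω} (hdr : Rep S (C.cell j b) dr) {ω : Ω} (hω : S ω) : C.T j (dr ω) = C.T j ω :=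
  congrArg Prod.fst (hdr.val ω hω)

theorem dTf {dr : Ω → Ω} (hdr : Rep S (C.cell j b) dr) {ω : Ω} (hω : S ω) : C.T f (dr ω) = C.T f ω :=
  T_mono C X.fj (X.dT hdr hω)

theorem br_le {dr : Ω → Ω} (hdr : Rep S (C.cell j b) dr) {ω : Ω} (hω : S ω) :
    |C.p ω * (C.F f (dr ω)).cN (C.l ω) (C.s f ω) - (C.F f (dr ω)).cV (C.l ω) (C.s f ω)| ≤
      13 * K ^ 3 * (q2 (C.rk j) * q2 b * (2 ^ C.μ) ^ 3) := by
  have hK := X.K1
  have h0 := hdr.mem ω hω
  have ok := X.ok ω hω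
  have ok0 := X.ok _ h0
  have hTf := X.dTf hdr hω
  have hTj := X.dT hdr hω
  have hsf := (same_T C hTf).1
  have hsj := (same_T C hTj).1
  have nr := near C (n := j) (d := b) (ω := dr ω) (ω' := ω) X.kjb (hdr.val ω hω).symm
  have hB := q2_pos b
  have hk := q2_pos (C.rk j)
  have hA := q2_pos (C.a j)
  set M : ℝ := 2 ^ C.μ with hM
  have hM1 : 1 ≤ M := one_le_pow₀ (by norm_num)
  set B := q2 b with hBd
  set k := q2 (C.rk j) with hkd
  set A := q2 (C.a j) with hAd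
  set G := G0 C f dr (C.s j ω) ω with hG
  set F := GD C j b (dr ω) with hF
  have eN : ∀ l, G.cN l (C.s j ω) = (C.F f (dr ω)).cN l (C.s f ω) := fun l => G0_cN C f dr _ ω l
  have eV : ∀ l, G.cV l (C.s j ω) = (C.F f (dr ω)).cV l (C.s f ω) := fun l => G0_cV C f dr _ ω l
  have hc0 := c0 hK ok0 j
  have hcr : G.cN (C.l (dr ω)) (C.s j ω) = rho C f j (dr ω) * F.cN (C.l (dr ω)) (C.s j ω) := by
    rw [eN, ← hsj, ← hsf]
    show _ = rho C f j (dr ω) * (C.F j (dr ω)).cN (C.l (dr ω)) (C.s j (dr ω))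
    unfold rho
    rw [div_mul_cancel₀ _ hc0.ne']
  have e := br_pair F G (C.l (dr ω)) (C.l ω) (C.s j ω) _ (C.p (dr ω)) (C.p ω) hcr
  have hT : |G.ka - rho C f j (dr ω) * F.ka| ≤ 2 * K ^ 3 * k := by
    have := TT_abs hK ok0 X.fj
    rw [← abs_neg, X.rkf] at this
    have e2 : G.ka - rho C f j (dr ω) * F.ka = -TT C f j (dr ω) := by
      unfold TT
      show (C.F f (dr ω)).ka - (C.s j ω - C.s f ω) * (C.F f (dr ω)).al - rho C f j (dr ω) * (C.F j (dr ω)).ka = _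
      rw [hsj, hsf]
      ring
    rw [e2]
    exact this
  have ha : |G.al - rho C f j (dr ω) * F.al| * A ≤ 2 * K ^ 3 * k := by
    have := aH0 hK ok0 X.fj
    rw [X.rkf] at this
    exact this
  have hr := (r_abs hK ok0 X.fj).1
  have hp1 : |C.p ω| ≤ 1 := ok.p1.trans (q2_one _)
  have m1 : M ^ 1 ≤ M ^ 3 := pow_le_pow_right₀ hM1 (by norm_num)
  have m1' : M ≤ M ^ 3 := by simpa using m1
  have m0 : 1 ≤ M ^ 3 := one_le_pow₀ hM1
  have hal : ∀ x : ℝ, |x| ≤ A * B * M → |(G.al - rho C f j (dr ω) * F.al) * x| ≤ 2 * K ^ 3 * (k * B * M ^ 3) := by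
    intro x hx
    rw [abs_mul]
    calc _ ≤ |G.al - rho C f j (dr ω) * F.al| * (A * B * M) := mul_le_mul_of_nonneg_left hx (abs_nonneg _)
      _ = (|G.al - rho C f j (dr ω) * F.al| * A) * (B * M) := by ring
      _ ≤ (2 * K ^ 3 * k) * (B * M ^ 3) := mul_le_mul ha (by gcongr) (by positivity) (by positivity)
      _ = _ := by ring
  have hka : ∀ x : ℝ, |x| ≤ B * M → |(G.ka - rho C f j (dr ω) * F.ka) * x| ≤ 2 * K ^ 3 * (k * B * M ^ 3) := by
    intro x hx
    rw [abs_mul]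
    calc _ ≤ (2 * K ^ 3 * k) * (B * M) := mul_le_mul hT hx (abs_nonneg _) (by positivity)
      _ ≤ (2 * K ^ 3 * k) * (B * M ^ 3) := by gcongr
      _ = _ := by ring
  have nX := nr.X
  have nN := nr.N
  rw [hsj] at nX nN
  have t1 := hka _ nr.w
  have t2 := hal _ nN
  have t3 := hka _ (nr.v.trans (le_mul_of_one_le_right hB.le hM1))
  have t4 := hal _ nX
  have s1 : |F.cV (C.l ω) (C.s j ω) - C.p ω * F.cN (C.l ω) (C.s j ω)| ≤ 2 * K * (k * B * M ^ 3) := by
    have := Fr_sl C hK ok X.kjb (n := C.R j b - 3 * C.μ) (by unfold Pth.R Pth.bs; have := X.kjb; omega)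
    have e2 : C.Fr j b (C.R j b - 3 * C.μ) ω = F := nr.G
    rw [e2] at this
    exact this
  have s2 : |F.cV (C.l (dr ω)) (C.s j ω) - C.p (dr ω) * F.cN (C.l (dr ω)) (C.s j ω)| ≤ 2 * K * (k * B * M ^ 3) := by
    have := Fr_sl C hK ok0 X.kjb (n := C.R j b - 3 * C.μ) (by unfold Pth.R Pth.bs; have := X.kjb; omega)
    rw [hsj] at this
    exact this
  have t5 : |rho C f j (dr ω) * ((F.cV (C.l ω) (C.s j ω) - C.p ω * F.cN (C.l ω) (C.s j ω)) -
      (F.cV (C.l (dr ω)) (C.s j ω) - C.p (dr ω) * F.cN (C.l (dr ω)) (C.s j ω)))| ≤ 4 * K ^ 3 * (k * B * M ^ 3) := by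
    rw [abs_mul]
    have x1 := abs_sub (F.cV (C.l ω) (C.s j ω) - C.p ω * F.cN (C.l ω) (C.s j ω))
      (F.cV (C.l (dr ω)) (C.s j ω) - C.p (dr ω) * F.cN (C.l (dr ω)) (C.s j ω))
    calc _ ≤ K ^ 2 * (4 * K * (k * B * M ^ 3)) := mul_le_mul hr (by linarith) (abs_nonneg _) (by positivity)
      _ = _ := by ring
  have t6 : |C.p ω * (-(G.ka - rho C f j (dr ω) * F.ka) * ((C.l ω).w - (C.l (dr ω)).w) -
      (G.al - rho C f j (dr ω) * F.al) * ((C.l ω).N (C.s j ω) - (C.l (dr ω)).N (C.s j ω)))| ≤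
      4 * K ^ 3 * (k * B * M ^ 3) := by
    rw [abs_mul]
    have x1 := abs_sub (-(G.ka - rho C f j (dr ω) * F.ka) * ((C.l ω).w - (C.l (dr ω)).w))
      ((G.al - rho C f j (dr ω) * F.al) * ((C.l ω).N (C.s j ω) - (C.l (dr ω)).N (C.s j ω)))
    rw [neg_mul, abs_neg] at x1
    calc |C.p ω| * _ ≤ 1 * _ := mul_le_mul_of_nonneg_right hp1 (abs_nonneg _)
      _ = |-(G.ka - rho C f j (dr ω) * F.ka) * ((C.l ω).w - (C.l (dr ω)).w) -
      (G.al - rho C f j (dr ω) * F.al) * ((C.l ω).N (C.s j ω) - (C.l (dr ω)).N (C.s j ω))| := one_mul _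
      _ ≤ 4 * K ^ 3 * (k * B * M ^ 3) := by
        rw [neg_mul]
        linarith
  have t7 : |C.p (dr ω) * G.cN (C.l (dr ω)) (C.s j ω) - G.cV (C.l (dr ω)) (C.s j ω)| ≤ K ^ 3 * (k * B * M ^ 3) := by
    rw [eN, eV]
    have h1 := F_cV C f (dr ω)
    rw [hsf] at h1
    rw [h1, ← sub_mul, abs_mul]
    have h2 : |C.p (dr ω) - rd (C.rf f) (C.p (dr ω))| ≤ k * B := by
      rw [abs_sub_comm]
      refine (rd_err _ _).trans ?_
      rw [hkd, hBd, ← q2_add, ← X.rkf]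
      exact q2_le X.kfb
    have h3 : |(C.F f (dr ω)).cN (C.l (dr ω)) (C.s f ω)| ≤ K := by
      have h4 := c0 hK ok0 f
      have h5 := ok0.n2 f
      rw [hsf] at h4 h5
      rw [abs_of_pos h4]
      exact h5
    have h6 : K ≤ K ^ 3 := by
      calc K = K ^ 1 := (pow_one K).symm
        _ ≤ K ^ 3 := pow_le_pow_right₀ hK (by norm_num)
    calc _ ≤ (k * B) * K := mul_le_mul h2 h3 (abs_nonneg _) (by positivity)
      _ = K * (k * B) := by ring
      _ ≤ K ^ 3 * (k * B * M ^ 3) := mul_le_mul h6 (le_mul_of_one_le_right (by positivity) m0) (by positivity) (by positivity)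
  rw [← eN, ← eV]
  have x0 := abs_add_le ((C.p ω * G.cN (C.l ω) (C.s j ω) - G.cV (C.l ω) (C.s j ω)) -
    (C.p (dr ω) * G.cN (C.l (dr ω)) (C.s j ω) - G.cV (C.l (dr ω)) (C.s j ω)))
    (C.p (dr ω) * G.cN (C.l (dr ω)) (C.s j ω) - G.cV (C.l (dr ω)) (C.s j ω))
  rw [sub_add_cancel] at x0
  rw [e] at x0
  have x1 := abs_sub (C.p ω * (-(G.ka - rho C f j (dr ω) * F.ka) * ((C.l ω).w - (C.l (dr ω)).w) -
      (G.al - rho C f j (dr ω) * F.al) * ((C.l ω).N (C.s j ω) - (C.l (dr ω)).N (C.s j ω))) -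
      (G.ka - rho C f j (dr ω) * F.ka) * ((C.l ω).v - (C.l (dr ω)).v) -
      (G.al - rho C f j (dr ω) * F.al) * ((C.l ω).X (C.s j ω) - (C.l (dr ω)).X (C.s j ω)))
      (rho C f j (dr ω) * ((F.cV (C.l ω) (C.s j ω) - C.p ω * F.cN (C.l ω) (C.s j ω)) -
      (F.cV (C.l (dr ω)) (C.s j ω) - C.p (dr ω) * F.cN (C.l (dr ω)) (C.s j ω))))
  have x2 := abs_sub (C.p ω * (-(G.ka - rho C f j (dr ω) * F.ka) * ((C.l ω).w - (C.l (dr ω)).w) -
      (G.al - rho C f j (dr ω) * F.al) * ((C.l ω).N (C.s j ω) - (C.l (dr ω)).N (C.s j ω))) -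
      (G.ka - rho C f j (dr ω) * F.ka) * ((C.l ω).v - (C.l (dr ω)).v))
      ((G.al - rho C f j (dr ω) * F.al) * ((C.l ω).X (C.s j ω) - (C.l (dr ω)).X (C.s j ω)))
  have x3 := abs_sub (C.p ω * (-(G.ka - rho C f j (dr ω) * F.ka) * ((C.l ω).w - (C.l (dr ω)).w) -
      (G.al - rho C f j (dr ω) * F.al) * ((C.l ω).N (C.s j ω) - (C.l (dr ω)).N (C.s j ω))))
      ((G.ka - rho C f j (dr ω) * F.ka) * ((C.l ω).v - (C.l (dr ω)).v))
  linarith

/-- **same late cell** -/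
theorem es {dr : Ω → Ω} (hdr : Rep S (C.cell j b) dr) {ω ω' : Ω} (hω : S ω) (hω' : S ω')
    (hi : C.cell i b ω' = C.cell i b ω) :
    Es K (q2 (C.a j)) (q2 (C.a i)) (q2 b) (q2 (C.rk j)) (q2 (C.rk i)) (q2 C.μ) (2 ^ C.μ) (GD C i b ω)
      (G0 C f dr (C.s i ω) ω) (C.l ω) (C.l ω') (C.p ω) (C.p ω') (C.s i ω) (rho C f i ω) := by
  have ok := X.ok ω hω
  have ok' := X.ok ω' hω'
  have hK := X.K1
  have nr := near C (n := i) (d := b) X.ki hi
  have q2p : ∀ n, 0 < q2 n := q2_pos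
  have hTf := X.dTf hdr hω
  have hcj : (G0 C f dr (C.s i ω) ω).cN (C.l ω) (C.s i ω) = (C.F f ω).cN (C.l ω) (C.s f ω) := by
    rw [G0_cN, cN_same C hTf]
  have hc0 := c0 hK ok i
  exact
    { K1 := hK
      A0 := q2p _
      A'0 := q2p _
      B0 := q2p _
      k0 := q2p _
      k'0 := q2p _
      η0 := q2p _
      η1 := q2_one _
      M1 := pη _
      AA := X.AA
      kk := X.kk
      Bη := X.Bη
      kB := (mul_le_of_le_one_left (q2p b).le (q2_one _)).trans X.Bη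
      hv := nr.v
      hw := nr.w
      hX := nr.X
      hN := nr.N
      hz := nr.z
      hg := nr.g
      hd := nr.gd
      c1 := ok.n1 i
      cr := by
        rw [hcj]
        show _ = rho C f i ω * (C.F i ω).cN (C.l ω) (C.s i ω)
        unfold rho
        rw [div_mul_cancel₀ _ hc0.ne']
      r0 := (r_abs hK ok X.fi).1
      sl := Fr_sl C hK ok X.ki (by unfold Pth.R Pth.bs; have := X.ki; omega)
      sm := by
        have := Fr_sl C hK ok' X.ki (n := C.R i b - 3 * C.μ) (by unfold Pth.R Pth.bs; have := X.ki; omega)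
        have e : C.Fr i b (C.R i b - 3 * C.μ) ω' = GD C i b ω := nr.G
        rw [e, nr.s] at this
        exact this
      cN2 := ok.n2 i
      p1 := by
        have := ok.p1
        rwa [q2_mul] at this
      q1 := by
        have := ok'.p1
        rwa [q2_mul] at this
      br := by
        rw [G0_cN, G0_cV]
        exact X.br_le hdr hω
      ka := ok.k1 i
      al := ok.a1 i
      T := by
        have := TT_abs hK ok X.fi
        rw [← abs_neg, X.rkf] at this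
        have e : (G0 C f dr (C.s i ω) ω).ka - rho C f i ω * (GD C i b ω).ka = -TT C f i ω := by
          unfold TT
          obtain ⟨-, -, e2, e3⟩ := same_T C hTf
          show (C.F f (dr ω)).ka - (C.s i ω - C.s f ω) * (C.F f (dr ω)).al - rho C f i ω * (C.F i ω).ka = _
          rw [e2, e3]
          ring
        rw [e]
        exact this.trans (by
          have h1 : (1:ℝ) ≤ 2 ^ C.μ := one_le_pow₀ (by norm_num)
          have h2 := q2p (C.rk j)
          exact mul_le_mul_of_nonneg_left (le_mul_of_one_le_right h2.le h1) (by positivity))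
      aH := by
        obtain ⟨-, -, e2, e3⟩ := same_T C hTf
        show |(C.F f (dr ω)).al - rho C f i ω * (C.F i ω).al| * _ ≤ _
        rw [e3]
        exact X.aH hω }

/-- **same fine cell** -/
theorem ws {dr : Ω → Ω} (hdr : Rep S (C.cell j b) dr) {ω ω' : Ω} (hω : S ω) (hω' : S ω')
    (hi : C.cell j bb ω' = C.cell j bb ω) :
    Ws K (q2 (C.a j)) (q2 b) (q2 bb) (q2 (C.rk j)) (q2 C.μ) (2 ^ C.μ) (GD C j bb ω)
      (G0 C f dr (C.s j ω) ω) (C.l ω) (C.l ω') (C.p ω) (C.p ω') (C.s j ω) (rho C f j ω) := by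
  have ok := X.ok ω hω
  have ok' := X.ok ω' hω'
  have hK := X.K1
  have nr := near C (n := j) (d := bb) X.kj hi
  have q2p : ∀ n, 0 < q2 n := q2_pos
  have hTf := X.dTf hdr hω
  have hcj : (G0 C f dr (C.s j ω) ω).cN (C.l ω) (C.s j ω) = (C.F f ω).cN (C.l ω) (C.s f ω) := by
    rw [G0_cN, cN_same C hTf]
  have hc0 := c0 hK ok j
  exact
    { K1 := hK
      A0 := q2p _
      B0 := q2p _
      β0 := q2p _
      k0 := q2p _
      η0 := q2p _
      η1 := q2_one _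
      M1 := pη _
      βB := X.BB
      hv := nr.v
      hw := nr.w
      hX := nr.X
      hN := nr.N
      hz := nr.z
      hg := nr.g
      hd := nr.gd
      cr := by
        rw [hcj]
        show _ = rho C f j ω * (C.F j ω).cN (C.l ω) (C.s j ω)
        unfold rho
        rw [div_mul_cancel₀ _ hc0.ne']
      r0 := (r_abs hK ok X.fj).1
      sl := Fr_sl C hK ok X.kj (by unfold Pth.R Pth.bs; have := X.kj; omega)
      sm := by
        have := Fr_sl C hK ok' X.kj (n := C.R j bb - 3 * C.μ) (by unfold Pth.R Pth.bs; have := X.kj; omega)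
        have e : C.Fr j bb (C.R j bb - 3 * C.μ) ω' = GD C j bb ω := nr.G
        rw [e, nr.s] at this
        exact this
      q1 := ok'.p1.trans (q2_one _)
      br := by
        rw [G0_cN, G0_cV]
        exact X.br_le hdr hω
      T := by
        have := TT_abs hK ok X.fj
        rw [← abs_neg, X.rkf] at this
        have e : (G0 C f dr (C.s j ω) ω).ka - rho C f j ω * (GD C j bb ω).ka = -TT C f j ω := by
          unfold TT
          obtain ⟨-, -, e2, e3⟩ := same_T C hTf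
          show (C.F f (dr ω)).ka - (C.s j ω - C.s f ω) * (C.F f (dr ω)).al - rho C f j ω * (C.F j ω).ka = _
          rw [e2, e3]
          ring
        rw [e]
        exact this.trans (by
          have h1 : (1:ℝ) ≤ 2 ^ C.μ := one_le_pow₀ (by norm_num)
          have h2 := q2p (C.rk j)
          exact mul_le_mul_of_nonneg_left (le_mul_of_one_le_right h2.le h1) (by positivity))
      aH := by
        have := aH0 hK ok X.fj
        rw [X.rkf] at this
        obtain ⟨-, -, e2, e3⟩ := same_T C hTf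
        show |(C.F f (dr ω)).al - rho C f j ω * (C.F j ω).al| * _ ≤ _
        rw [e3]
        exact this }

/-- time of the late step against the time of the early step -/
theorem ds {ω : Ω} : |C.s i ω - C.s j ω| ≤ q2 (C.a j) := by
  have h := C.ha (X.jjs.trans X.jsi)
  exact Vale.Agent.P127.U.CellD.rd_sub h _

/-- **`TT` is nearly constant** -/
theorem TT_near {ω ω' : Ω} (hω : S ω) (hω' : S ω') (hD : C.cell j b ω' = C.cell j b ω) (hT : C.T i ω' = C.T i ω) :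
    |TT C f i ω' - TT C f i ω| ≤ 12 * K ^ 5 * (q2 (C.rk j) * q2 C.μ ^ 7) := by
  have ok := X.ok ω hω
  have ok' := X.ok ω' hω'
  have hK := X.K1
  have nr := near C (n := j) (d := b) X.kjb hD
  obtain ⟨si, i1, i2, i3⟩ := same_T C hT
  obtain ⟨sf, f1, f2, f3⟩ := same_T C (T_mono C X.fi hT)
  have hc := c0 hK ok' i
  have hB := q2_pos b
  have hk := q2_pos (C.rk j)
  have hA := q2_pos (C.a j)
  have hA' := q2_pos (C.a i)
  have hη := q2_pos C.μ
  have hpη := pη C.μ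
  set M : ℝ := 2 ^ C.μ with hM
  have hM1 : 1 ≤ M := one_le_pow₀ (by norm_num)
  have hds := X.ds (ω := ω)
  -- the difference of the ratios
  have e1 : (C.F f ω').cN (C.l ω') (C.s f ω') = (C.F f ω').ga -
      ((C.F f ω').ka - (C.s i ω' - C.s f ω') * (C.F f ω').al) * (C.l ω').w - (C.F f ω').al * (C.l ω').N (C.s i ω') := by
    unfold Fu.cN Ray.N; ring
  have e2 : (C.F f ω).cN (C.l ω) (C.s f ω) = (C.F f ω).ga -
      ((C.F f ω).ka - (C.s i ω - C.s f ω) * (C.F f ω).al) * (C.l ω).w - (C.F f ω).al * (C.l ω).N (C.s i ω) := by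
    unfold Fu.cN Ray.N; ring
  have e3 : (C.F f ω).cN (C.l ω) (C.s f ω) = rho C f i ω * (C.F i ω).cN (C.l ω) (C.s i ω) := by
    unfold rho
    rw [div_mul_cancel₀ _ (c0 hK ok i).ne']
  have key : (C.F f ω').cN (C.l ω') (C.s f ω') - rho C f i ω * (C.F i ω').cN (C.l ω') (C.s i ω') =
      TT C f i ω * ((C.l ω').w - (C.l ω).w) -
      ((C.F f ω).al - rho C f i ω * (C.F i ω).al) * ((C.l ω').N (C.s i ω) - (C.l ω).N (C.s i ω)) := by
    have h1 : (C.F f ω').cN (C.l ω') (C.s f ω') - rho C f i ω * (C.F i ω').cN (C.l ω') (C.s i ω') =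
        ((C.F f ω').cN (C.l ω') (C.s f ω') - rho C f i ω * (C.F i ω').cN (C.l ω') (C.s i ω')) -
        ((C.F f ω).cN (C.l ω) (C.s f ω) - rho C f i ω * (C.F i ω).cN (C.l ω) (C.s i ω)) := by rw [e3]; ring
    rw [h1, e1, e2, f1, f2, f3, si, sf]
    unfold TT Fu.cN
    rw [i1, i2, i3]
    ring
  have hN : |(C.l ω').N (C.s i ω) - (C.l ω).N (C.s i ω)| ≤ 2 * (q2 (C.a j) * q2 b * M) := by
    have e : (C.l ω').N (C.s i ω) - (C.l ω).N (C.s i ω) = ((C.l ω').N (C.s j ω) - (C.l ω).N (C.s j ω)) +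
        (C.s i ω - C.s j ω) * ((C.l ω').w - (C.l ω).w) := by unfold Ray.N; ring
    rw [e]
    have h1 : |(C.s i ω - C.s j ω) * ((C.l ω').w - (C.l ω).w)| ≤ q2 (C.a j) * (q2 b * M) := by
      rw [abs_mul]
      exact mul_le_mul hds nr.w (abs_nonneg _) hA.le
    have h2 := nr.N
    have := abs_add_le ((C.l ω').N (C.s j ω) - (C.l ω).N (C.s j ω)) ((C.s i ω - C.s j ω) * ((C.l ω').w - (C.l ω).w))
    have e3 : q2 (C.a j) * (q2 b * M) = q2 (C.a j) * q2 b * M := by ring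
    linarith
  have hT' := TT_abs hK ok X.fi
  rw [X.rkf] at hT'
  have haH := X.aH hω
  have hηη : ∀ n, q2 C.μ ^ n * (q2 C.μ * M) = q2 C.μ ^ n := fun n => by rw [hpη, mul_one]
  have t1 : |TT C f i ω * ((C.l ω').w - (C.l ω).w)| ≤ 2 * K ^ 3 * (q2 (C.rk j) * q2 C.μ ^ 7) := by
    rw [abs_mul]
    calc _ ≤ (2 * K ^ 3 * q2 (C.rk j)) * (q2 b * M) := mul_le_mul hT' nr.w (abs_nonneg _) (by positivity)
      _ ≤ (2 * K ^ 3 * q2 (C.rk j)) * (q2 C.μ ^ 8 * M) := by
        have := X.Bη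
        gcongr
      _ = (2 * K ^ 3 * q2 (C.rk j)) * (q2 C.μ ^ 7 * (q2 C.μ * M)) := by ring
      _ = _ := by rw [hηη]; ring
  have t2 : |((C.F f ω).al - rho C f i ω * (C.F i ω).al) * ((C.l ω').N (C.s i ω) - (C.l ω).N (C.s i ω))| ≤
      10 * K ^ 3 * (q2 (C.rk j) * q2 C.μ ^ 7) := by
    rw [abs_mul]
    have h1 : q2 (C.a j) * q2 b * M ≤ q2 (C.a i) * q2 C.μ ^ 7 := by
      calc _ ≤ (q2 (C.a i) * q2 C.μ ^ 8) * M := mul_le_mul_of_nonneg_right X.AB (by positivity)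
        _ = q2 (C.a i) * (q2 C.μ ^ 7 * (q2 C.μ * M)) := by ring
        _ = _ := by rw [hηη]
    have h2 : q2 C.μ ^ 5 * q2 C.μ ^ 7 ≤ q2 C.μ ^ 7 := by
      refine mul_le_of_le_one_left (by positivity) (pow_le_one₀ hη.le (q2_one _))
    calc _ ≤ |(C.F f ω).al - rho C f i ω * (C.F i ω).al| * (2 * (q2 (C.a i) * q2 C.μ ^ 7)) :=
          mul_le_mul_of_nonneg_left (by linarith) (abs_nonneg _)
      _ = (|(C.F f ω).al - rho C f i ω * (C.F i ω).al| * q2 (C.a i)) * (2 * q2 C.μ ^ 7) := by ring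
      _ ≤ (5 * K ^ 3 * (q2 (C.rk j) * q2 C.μ ^ 5)) * (2 * q2 C.μ ^ 7) := mul_le_mul_of_nonneg_right haH (by positivity)
      _ = 10 * K ^ 3 * (q2 (C.rk j) * (q2 C.μ ^ 5 * q2 C.μ ^ 7)) := by ring
      _ ≤ _ := by gcongr
  have hnum : |(C.F f ω').cN (C.l ω') (C.s f ω') - rho C f i ω * (C.F i ω').cN (C.l ω') (C.s i ω')| ≤
      12 * K ^ 3 * (q2 (C.rk j) * q2 C.μ ^ 7) := by
    rw [key]
    have := abs_sub (TT C f i ω * ((C.l ω').w - (C.l ω).w))
      (((C.F f ω).al - rho C f i ω * (C.F i ω).al) * ((C.l ω').N (C.s i ω) - (C.l ω).N (C.s i ω)))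
    linarith
  have hr : |rho C f i ω' - rho C f i ω| ≤ 12 * K ^ 4 * (q2 (C.rk j) * q2 C.μ ^ 7) := by
    have e4 : rho C f i ω' - rho C f i ω = ((C.F f ω').cN (C.l ω') (C.s f ω') -
        rho C f i ω * (C.F i ω').cN (C.l ω') (C.s i ω')) * (1 / (C.F i ω').cN (C.l ω') (C.s i ω')) := by
      unfold rho
      field_simp
    have hinv : 1 / (C.F i ω').cN (C.l ω') (C.s i ω') ≤ K := by
      rw [div_le_iff₀ hc]
      exact ok'.n1 i
    rw [e4, abs_mul, abs_of_pos (by positivity : 0 < 1 / (C.F i ω').cN (C.l ω') (C.s i ω'))]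
    calc _ ≤ (12 * K ^ 3 * (q2 (C.rk j) * q2 C.μ ^ 7)) * K := mul_le_mul hnum hinv (by positivity) (by positivity)
      _ = _ := by ring
  have e5 : TT C f i ω' - TT C f i ω = (rho C f i ω' - rho C f i ω) * (C.F i ω).ka := by
    unfold TT
    rw [f2, f3, i2, si, sf]
    ring
  rw [e5, abs_mul]
  calc _ ≤ (12 * K ^ 4 * (q2 (C.rk j) * q2 C.μ ^ 7)) * K := mul_le_mul hr (ok.k1 i) (abs_nonneg _) (by positivity)
    _ = _ := by ring

end Ctx

end Vale.Agent.P106.U.H466
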