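import Mathlib

/-!
# P106 / U / H466 : algebra of a chain of the M-step, kappa regime (helper466)

`Pt` : scaled numbers of a point: velocity `y`, normal velocity `u`, slope `r`, derivative `d` and, at a time, `V`, `Z`, `g`.
* `EStep`, `WStep` : same late cell, same fine cell.
* `Chain` : `qa -E- q1 -W- q2 -E'- q3 -W- q4 -E- qb`.
* `Chain.V`, `Chain.Z`, `Chain.E`, `Chain.A`, `Chain.M`.
-/

set_option autoImplicit false

namespace Vale.Agent.P106.U.H466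

/-- scaled numbers of a point -/
structure Pt where
  y : ℝ
  u : ℝ
  r : ℝ
  d : ℝ
  V : ℝ
  Z : ℝ
  g : ℝ

/-- change of time -/
noncomputable def Pt.mv (q : Pt) (S c1 c0 : ℝ) : Pt :=
  ⟨q.y, q.u, q.r, q.d, q.V + S * (c1 + q.y), q.Z + S * ((q.y ^ 2 + q.u ^ 2) / 2 - c0), q.g + S * q.d⟩

/-- bounds of the numbers of a point -/
structure Bd (R U : ℝ) (q : Pt) : Prop where
  y0 : 0 ≤ q.y
  y1 : q.y ≤ 1
  u : |q.u| ≤ U
  r : |q.r| ≤ R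

/-- same late cell -/
structure EStep (τ e eV eu : ℝ) (q q' : Pt) : Prop where
  V : |q'.V - q.V| ≤ eV
  Z : |q'.Z - q.Z| ≤ e
  g : |q'.g - q.g| ≤ e
  r : |q'.r - q.r - τ * (q'.y - q.y)| ≤ e
  d : |q'.d - q.d - q.r * (q'.y - q.y) - τ * (q'.y - q.y) ^ 2 / 2| ≤ e
  u : |q'.u - q.u| ≤ eu

/-- same fine cell -/
structure WStep (e eV ey eu : ℝ) (q q' : Pt) : Prop where
  V : |q'.V - q.V| ≤ eV
  Z : |q'.Z - q.Z| ≤ e
  g : |q'.g - q.g| ≤ e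
  r : |q'.r - q.r| ≤ e
  d : |q'.d - q.d| ≤ e
  y : |q'.y - q.y| ≤ ey
  u : |q'.u - q.u| ≤ eu

/-- a chain -/
structure Chain (τ τ' S c1 c0 e eV ey eu ex R U L x x' : ℝ) (qa q1 q2 q3 q4 qb : Pt) : Prop where
  E1 : EStep τ e eV eu qa q1
  W1 : WStep e eV ey eu q1 q2
  E2 : EStep τ' e eV eu (q2.mv S c1 c0) (q3.mv S c1 c0)
  W2 : WStep e eV ey eu q3 q4
  E3 : EStep τ e eV eu q4 qb
  ba : Bd R U qa
  b1 : Bd R U q1
  b2 : Bd R U q2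
  b3 : Bd R U q3
  b4 : Bd R U q4
  bb : Bd R U qb
  S1 : |S| ≤ 1
  t1 : |τ| ≤ L
  t2 : |τ'| ≤ L
  L1 : 1 ≤ L
  R1 : 1 ≤ R
  U1 : 1 ≤ U
  RV : R * eV ≤ e
  Ry : R * ey ≤ e
  Uu : U * eu ≤ e
  x0 : 0 ≤ x ∧ x ≤ 1
  x1 : 0 ≤ x' ∧ x' ≤ 1
  x : |q2.y - x| ≤ ex
  x' : |q3.y - x'| ≤ ex

theorem ab {x e : ℝ} (h : |x| ≤ e) : -e ≤ x ∧ x ≤ e := abs_le.1 h

theorem amul {a b A B : ℝ} (ha : |a| ≤ A) (hb : |b| ≤ B) : |a * b| ≤ A * B := by
  rw [abs_mul]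
  exact mul_le_mul ha hb (abs_nonneg _) ((abs_nonneg _).trans ha)

namespace Chain

variable {τ τ' S c1 c0 e eV ey eu ex R U L x x' : ℝ} {qa q1 q2 q3 q4 qb : Pt}
  (h : Chain τ τ' S c1 c0 e eV ey eu ex R U L x x' qa q1 q2 q3 q4 qb)
include h

theorem eV0 : 0 ≤ eV := (abs_nonneg _).trans h.E1.V
theorem ey0 : 0 ≤ ey := (abs_nonneg _).trans h.W1.y
theorem eu0 : 0 ≤ eu := (abs_nonneg _).trans h.E1.u
theorem e0 : 0 ≤ e := (abs_nonneg _).trans h.E1.g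
theorem ex0 : 0 ≤ ex := (abs_nonneg _).trans h.x

theorem eVe : eV ≤ e := (le_mul_of_one_le_left h.eV0 h.R1).trans h.RV
theorem eye : ey ≤ e := (le_mul_of_one_le_left h.ey0 h.R1).trans h.Ry
theorem eue : eu ≤ e := (le_mul_of_one_le_left h.eu0 h.U1).trans h.Uu

theorem Le : e ≤ L * e := le_mul_of_one_le_left h.e0 h.L1

theorem Lex : ex ≤ L * ex := le_mul_of_one_le_left h.ex0 h.L1

theorem y23 : |q2.y - q3.y| ≤ 1 := by
  rw [abs_le]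
  constructor <;> linarith [h.b2.y0, h.b2.y1, h.b3.y0, h.b3.y1]

/-- position, with the velocities of the points 2, 3 -/
theorem Vy : |qb.V - qa.V - S * (q2.y - q3.y)| ≤ 5 * eV := by
  have h1 := ab h.E1.V
  have h2 := ab h.W1.V
  have h3 : |(q3.V + S * (c1 + q3.y)) - (q2.V + S * (c1 + q2.y))| ≤ eV := h.E2.V
  have h3 := ab h3
  have h4 := ab h.W2.V
  have h5 := ab h.E3.V
  rw [abs_le]
  constructor <;> nlinarith

/-- null coordinate -/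
theorem Zy : |qb.Z - qa.Z - S * ((q2.y ^ 2 - q3.y ^ 2) / 2)| ≤ 6 * e := by
  have h1 := ab h.E1.Z
  have h2 := ab h.W1.Z
  have h3 : |(q3.Z + S * ((q3.y ^ 2 + q3.u ^ 2) / 2 - c0)) - (q2.Z + S * ((q2.y ^ 2 + q2.u ^ 2) / 2 - c0))| ≤ e := h.E2.Z
  have h3 := ab h3
  have h4 := ab h.W2.Z
  have h5 := ab h.E3.Z
  have h6 : |q3.u - q2.u| ≤ eu := h.E2.u
  have h7 : |(q3.u + q2.u) / 2| ≤ U := by
    have := ab h.b2.u
    have := ab h.b3.u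
    rw [abs_le]
    constructor <;> linarith
  have h8 : |S * ((q3.u ^ 2 - q2.u ^ 2) / 2)| ≤ e := by
    have e1 : S * ((q3.u ^ 2 - q2.u ^ 2) / 2) = S * ((q3.u + q2.u) / 2 * (q3.u - q2.u)) := by ring
    rw [e1]
    calc _ ≤ 1 * (U * eu) := amul h.S1 (amul h7 h6)
      _ ≤ e := by rw [one_mul]; exact h.Uu
  have h8 := ab h8
  rw [abs_le]
  constructor <;> nlinarith

theorem sx : |(q2.y - q3.y) - (x - x')| ≤ 2 * ex := by
  have h1 := ab h.x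
  have h2 := ab h.x'
  rw [abs_le]
  constructor <;> linarith

theorem sx2 : |(q2.y ^ 2 - q3.y ^ 2) / 2 - (x ^ 2 - x' ^ 2) / 2| ≤ 2 * ex := by
  have e1 : (q2.y ^ 2 - q3.y ^ 2) / 2 - (x ^ 2 - x' ^ 2) / 2 = (q2.y + x) / 2 * (q2.y - x) - (q3.y + x') / 2 * (q3.y - x') := by
    ring
  have h1 : |(q2.y + x) / 2| ≤ 1 := by
    rw [abs_le]
    constructor <;> linarith [h.b2.y0, h.b2.y1, h.x0.1, h.x0.2]
  have h2 : |(q3.y + x') / 2| ≤ 1 := by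
    rw [abs_le]
    constructor <;> linarith [h.b3.y0, h.b3.y1, h.x1.1, h.x1.2]
  have h3 := amul h1 h.x
  have h4 := amul h2 h.x'
  rw [e1]
  have := abs_sub ((q2.y + x) / 2 * (q2.y - x)) ((q3.y + x') / 2 * (q3.y - x'))
  linarith

theorem sx3 : |(q2.y - q3.y) ^ 2 / 2 - (x - x') ^ 2 / 2| ≤ 2 * ex := by
  have e1 : (q2.y - q3.y) ^ 2 / 2 - (x - x') ^ 2 / 2 = ((q2.y - q3.y) + (x - x')) / 2 * ((q2.y - q3.y) - (x - x')) := by
    ring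
  have h1 : |((q2.y - q3.y) + (x - x')) / 2| ≤ 1 := by
    have := ab h.y23
    rw [abs_le]
    constructor <;> linarith [h.x0.1, h.x0.2, h.x1.1, h.x1.2]
  have h3 := amul h1 h.sx
  rw [e1]
  linarith

/-- **position** -/
theorem V : |qb.V - qa.V - S * (x - x')| ≤ 5 * e + 2 * ex := by
  have h1 := ab h.Vy
  have h2 := ab (amul h.S1 h.sx)
  have h3 := h.eVe
  rw [abs_le]
  constructor <;> nlinarith

/-- **null coordinate** -/
theorem Z : |qb.Z - qa.Z - S * (x ^ 2 - x' ^ 2) / 2| ≤ 6 * e + 2 * ex := by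
  have h1 := ab h.Zy
  have h2 := ab (amul h.S1 h.sx2)
  rw [abs_le]
  constructor <;> nlinarith

theorem T2 : |τ' - τ| ≤ 2 * L := by
  have := abs_sub τ' τ
  have := h.t1
  have := h.t2
  linarith

/-- slope, with the velocities of the points 2, 3 -/
theorem Ey : |(qb.r - τ * qb.y) - (qa.r - τ * qa.y) + (τ' - τ) * (q2.y - q3.y)| ≤ 7 * (L * e) := by
  have h1 := ab h.E1.r
  have h2 := ab h.W1.r
  have h3 : |q3.r - q2.r - τ' * (q3.y - q2.y)| ≤ e := h.E2.r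
  have h3 := ab h3
  have h4 := ab h.W2.r
  have h5 := ab h.E3.r
  have hy : ∀ {z : ℝ}, |z| ≤ ey → |τ * z| ≤ L * e := fun hz =>
    amul h.t1 (hz.trans h.eye)
  have h6 := ab (hy h.W1.y)
  have h7 := ab (hy h.W2.y)
  have h8 := h.Le
  rw [abs_le]
  constructor <;> nlinarith

/-- **slope** -/
theorem E {ha hb : ℝ} (h1 : |ha| ≤ e) (h2 : |hb| ≤ e) :
    |(qb.r - τ * qb.y - hb) - (qa.r - τ * qa.y - ha) - -((τ' - τ) * (x - x'))| ≤ 9 * (L * e) + 4 * (L * ex) := by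
  have h3 := ab h.Ey
  have h4 := ab (amul h.T2 h.sx)
  have h5 := h.Le
  have h1 := ab h1
  have h2 := ab h2
  rw [abs_le]
  constructor <;> nlinarith

omit h in
theorem fE {τ e eV eu : ℝ} {q q' : Pt} (h : EStep τ e eV eu q q') (h0 : 0 ≤ q'.y) (h1 : q'.y ≤ 1) :
    |(q'.d - q'.r * q'.y + τ * q'.y ^ 2 / 2) - (q.d - q.r * q.y + τ * q.y ^ 2 / 2)| ≤ 2 * e := by
  have e1 : (q'.d - q'.r * q'.y + τ * q'.y ^ 2 / 2) - (q.d - q.r * q.y + τ * q.y ^ 2 / 2) =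
      (q'.d - q.d - q.r * (q'.y - q.y) - τ * (q'.y - q.y) ^ 2 / 2) - (q'.r - q.r - τ * (q'.y - q.y)) * q'.y := by ring
  rw [e1]
  have h2 : |(q'.r - q.r - τ * (q'.y - q.y)) * q'.y| ≤ e * 1 := amul h.r (by rw [abs_le]; constructor <;> linarith)
  have := abs_sub (q'.d - q.d - q.r * (q'.y - q.y) - τ * (q'.y - q.y) ^ 2 / 2) ((q'.r - q.r - τ * (q'.y - q.y)) * q'.y)
  have := h.d
  linarith

omit h in
theorem fW {τ e eV ey eu R L : ℝ} {q q' : Pt} (h : WStep e eV ey eu q q') (h0 : 0 ≤ q'.y) (h1 : q'.y ≤ 1)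
    (k0 : 0 ≤ q.y) (k1 : q.y ≤ 1) (hr : |q.r| ≤ R) (hτ : |τ| ≤ L) (hR : R * ey ≤ e) (hL : L * ey ≤ L * e) :
    |(q'.d - q'.r * q'.y + τ * q'.y ^ 2 / 2) - (q.d - q.r * q.y + τ * q.y ^ 2 / 2)| ≤ 3 * e + L * e := by
  have e1 : (q'.d - q'.r * q'.y + τ * q'.y ^ 2 / 2) - (q.d - q.r * q.y + τ * q.y ^ 2 / 2) =
      (q'.d - q.d) - (q'.r - q.r) * q'.y - q.r * (q'.y - q.y) + τ * ((q'.y - q.y) * ((q'.y + q.y) / 2)) := by ring
  rw [e1]
  have h2 := ab (amul h.r (b := q'.y) (B := 1) (by rw [abs_le]; constructor <;> linarith))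
  have h3 := ab (amul hr h.y)
  have h4 := ab (amul hτ (amul h.y (b := (q'.y + q.y) / 2) (B := 1) (by rw [abs_le]; constructor <;> linarith)))
  have h5 := ab h.d
  rw [abs_le]
  constructor <;> nlinarith

/-- normal velocity, with the velocities of the points 2, 3 -/
theorem Ay : |(qb.d - qb.r * qb.y + τ * qb.y ^ 2 / 2) - (qa.d - qa.r * qa.y + τ * qa.y ^ 2 / 2) -
    (τ' - τ) * ((q2.y ^ 2 - q3.y ^ 2) / 2)| ≤ 14 * (L * e) := by
  have hLy : L * ey ≤ L * e := mul_le_mul_of_nonneg_left h.eye (by linarith [h.L1])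
  have f1 := ab (fE h.E1 h.b1.y0 h.b1.y1)
  have f2 := ab (fW (τ := τ) h.W1 h.b2.y0 h.b2.y1 h.b1.y0 h.b1.y1 h.b1.r h.t1 h.Ry hLy)
  have f3 : |(q3.d - q3.r * q3.y + τ' * q3.y ^ 2 / 2) - (q2.d - q2.r * q2.y + τ' * q2.y ^ 2 / 2)| ≤ 2 * e :=
    fE (q := q2.mv S c1 c0) (q' := q3.mv S c1 c0) h.E2 h.b3.y0 h.b3.y1
  have f3 := ab f3
  have f4 := ab (fW (τ := τ) h.W2 h.b4.y0 h.b4.y1 h.b3.y0 h.b3.y1 h.b3.r h.t1 h.Ry hLy)
  have f5 := ab (fE h.E3 h.bb.y0 h.bb.y1)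
  have h6 := h.Le
  have e1 : (qb.d - qb.r * qb.y + τ * qb.y ^ 2 / 2) - (qa.d - qa.r * qa.y + τ * qa.y ^ 2 / 2) -
      (τ' - τ) * ((q2.y ^ 2 - q3.y ^ 2) / 2) =
      ((qb.d - qb.r * qb.y + τ * qb.y ^ 2 / 2) - (q4.d - q4.r * q4.y + τ * q4.y ^ 2 / 2)) +
      ((q4.d - q4.r * q4.y + τ * q4.y ^ 2 / 2) - (q3.d - q3.r * q3.y + τ * q3.y ^ 2 / 2)) +
      ((q3.d - q3.r * q3.y + τ' * q3.y ^ 2 / 2) - (q2.d - q2.r * q2.y + τ' * q2.y ^ 2 / 2)) +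
      ((q2.d - q2.r * q2.y + τ * q2.y ^ 2 / 2) - (q1.d - q1.r * q1.y + τ * q1.y ^ 2 / 2)) +
      ((q1.d - q1.r * q1.y + τ * q1.y ^ 2 / 2) - (qa.d - qa.r * qa.y + τ * qa.y ^ 2 / 2)) := by ring
  rw [e1, abs_le]
  constructor <;> linarith

/-- the normal velocities -/
theorem uu : |τ * ((qb.u ^ 2 - qa.u ^ 2) / 2)| ≤ 5 * (L * e) := by
  have hu : |qb.u - qa.u| ≤ 5 * eu := by
    have u1 := ab h.E1.u
    have u2 := ab h.W1.u
    have u3 : |q3.u - q2.u| ≤ eu := h.E2.u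
    have u3 := ab u3
    have u4 := ab h.W2.u
    have u5 := ab h.E3.u
    rw [abs_le]
    constructor <;> linarith
  have hu2 : |(qb.u + qa.u) / 2| ≤ U := by
    have := ab h.ba.u
    have := ab h.bb.u
    rw [abs_le]
    constructor <;> linarith
  have e1 : τ * ((qb.u ^ 2 - qa.u ^ 2) / 2) = τ * ((qb.u + qa.u) / 2 * (qb.u - qa.u)) := by ring
  rw [e1]
  calc _ ≤ L * (U * (5 * eu)) := amul h.t1 (amul hu2 hu)
    _ = 5 * (L * (U * eu)) := by ring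
    _ ≤ 5 * (L * e) := by
      have := mul_le_mul_of_nonneg_left h.Uu (by linarith [h.L1] : (0:ℝ) ≤ L)
      linarith

/-- **normal velocity** -/
theorem A {ha hb c : ℝ} (h1 : |ha| ≤ e) (h2 : |hb| ≤ e) :
    |(qb.d - qb.r * qb.y + τ * qb.y ^ 2 / 2 - τ * qb.u ^ 2 / 2 + hb * qb.y + c) -
      (qa.d - qa.r * qa.y + τ * qa.y ^ 2 / 2 - τ * qa.u ^ 2 / 2 + ha * qa.y + c) -
      (τ' - τ) * ((x ^ 2 - x' ^ 2) / 2)| ≤ 21 * (L * e) + 4 * (L * ex) := by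
  have f := ab h.Ay
  have hu3 := ab h.uu
  have h3 := ab (amul h1 (b := qa.y) (B := 1) (by rw [abs_le]; constructor <;> linarith [h.ba.y0, h.ba.y1]))
  have h4 := ab (amul h2 (b := qb.y) (B := 1) (by rw [abs_le]; constructor <;> linarith [h.bb.y0, h.bb.y1]))
  have h5 := ab (amul h.T2 h.sx2)
  have h6 := h.Le
  have e1 : (qb.d - qb.r * qb.y + τ * qb.y ^ 2 / 2 - τ * qb.u ^ 2 / 2 + hb * qb.y + c) -
      (qa.d - qa.r * qa.y + τ * qa.y ^ 2 / 2 - τ * qa.u ^ 2 / 2 + ha * qa.y + c) -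
      (τ' - τ) * ((x ^ 2 - x' ^ 2) / 2) =
      ((qb.d - qb.r * qb.y + τ * qb.y ^ 2 / 2) - (qa.d - qa.r * qa.y + τ * qa.y ^ 2 / 2) -
      (τ' - τ) * ((q2.y ^ 2 - q3.y ^ 2) / 2)) - τ * ((qb.u ^ 2 - qa.u ^ 2) / 2) + hb * qb.y - ha * qa.y +
      (τ' - τ) * ((q2.y ^ 2 - q3.y ^ 2) / 2 - (x ^ 2 - x' ^ 2) / 2) := by ring
  rw [e1, abs_le]
  constructor <;> linarith

/-- **value** -/
theorem M {ha : ℝ} (h1 : |ha| ≤ e) (h1' : |ha| ≤ L) :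
    |(qb.g - τ * qb.Z) - (qa.g - τ * qa.Z) - (qa.r - τ * qa.y - ha) * (qb.V - qa.V) -
      -(S * (τ' - τ) * (x - x') ^ 2 / 2)| ≤ 31 * (L * e) + 4 * (L * ex) := by
  have hL0 : 0 ≤ L := by linarith [h.L1]
  -- the value of the functional
  have g1 := ab h.E1.g
  have g2 := ab h.W1.g
  have g3 : |(q3.g + S * q3.d) - (q2.g + S * q2.d)| ≤ e := h.E2.g
  have g3 := ab g3
  have g4 := ab h.W2.g
  have g5 := ab h.E3.g
  have d3 : |q3.d - q2.d - q2.r * (q3.y - q2.y) - τ' * (q3.y - q2.y) ^ 2 / 2| ≤ e := h.E2.d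
  have d4 := ab (amul h.S1 d3)
  have G : |qb.g - qa.g + S * (q2.r * (q3.y - q2.y) + τ' * (q3.y - q2.y) ^ 2 / 2)| ≤ 6 * e := by
    rw [abs_le]
    constructor <;> nlinarith
  -- the null coordinate
  have Zt : |τ * (qb.Z - qa.Z - S * ((q2.y ^ 2 - q3.y ^ 2) / 2))| ≤ L * (6 * e) := amul h.t1 h.Zy
  -- the slope
  have r1 := ab h.E1.r
  have r2 := ab h.W1.r
  have y1 := ab (amul h.t1 (h.W1.y.trans h.eye))
  have D : |q2.r - (qa.r - τ * qa.y - ha) - τ * q2.y| ≤ 3 * e + L * e := by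
    have := ab h1
    rw [abs_le]
    constructor <;> nlinarith
  have D2 : |S * (q2.y - q3.y) * (q2.r - (qa.r - τ * qa.y - ha) - τ * q2.y)| ≤ 1 * 1 * (3 * e + L * e) :=
    amul (amul h.S1 h.y23) D
  -- the position
  have EV : |(qa.r - τ * qa.y - ha) * (qb.V - qa.V - S * (q2.y - q3.y))| ≤ 5 * e + 10 * (L * e) := by
    have e1 : |qa.r - τ * qa.y - ha| ≤ R + 2 * L := by
      have a1 := ab h.ba.r
      have a2 := ab (amul h.t1 (b := qa.y) (B := 1) (by rw [abs_le]; constructor <;> linarith [h.ba.y0, h.ba.y1]))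
      have a3 := ab h1'
      rw [abs_le]
      constructor <;> linarith
    calc _ ≤ (R + 2 * L) * (5 * eV) := amul e1 h.Vy
      _ = 5 * (R * eV) + 10 * (L * eV) := by ring
      _ ≤ 5 * e + 10 * (L * e) := by
        have a1 := h.RV
        have a2 := mul_le_mul_of_nonneg_left h.eVe hL0
        linarith
  -- the directions
  have ST : |S * (τ' - τ) * ((q2.y - q3.y) ^ 2 / 2 - (x - x') ^ 2 / 2)| ≤ 1 * (2 * L) * (2 * ex) :=
    amul (amul h.S1 h.T2) h.sx3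
  have key : (qb.g - τ * qb.Z) - (qa.g - τ * qa.Z) - (qa.r - τ * qa.y - ha) * (qb.V - qa.V) -
      -(S * (τ' - τ) * (x - x') ^ 2 / 2) =
      (qb.g - qa.g + S * (q2.r * (q3.y - q2.y) + τ' * (q3.y - q2.y) ^ 2 / 2)) -
      τ * (qb.Z - qa.Z - S * ((q2.y ^ 2 - q3.y ^ 2) / 2)) +
      S * (q2.y - q3.y) * (q2.r - (qa.r - τ * qa.y - ha) - τ * q2.y) -
      (qa.r - τ * qa.y - ha) * (qb.V - qa.V - S * (q2.y - q3.y)) -
      S * (τ' - τ) * ((q2.y - q3.y) ^ 2 / 2 - (x - x') ^ 2 / 2) := by ring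
  have G := ab G
  have Zt := ab Zt
  have D2 := ab D2
  have EV := ab EV
  have ST := ab ST
  have h6 := h.Le
  rw [key, abs_le]
  constructor <;> linarith

end Chain

end Vale.Agent.P106.U.H466
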