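import Vale.Agent.P106.U.H466.CellF
import Vale.Agent.P106.U.H466.GeoA
import Vale.Agent.P106.H25.SatK

/-!
# P106 / U / H466 : points of the cells, steps of a chain (helper466)

* `pt` : scaled numbers of a point at a time; `pt_mv` : change of time.
* `Ctx.bd`, `Ctx.estep`, `Ctx.wstep`.
-/

set_option autoImplicit false

namespace Vale.Agent.P106.U.H466

open Vale.Agent.P127 Vale.Agent.P127.Stk Vale.Agent.P106.U.Cell
open Vale.Agent.P127.U.CellD (q2 rd Nb q2_pos q2_add q2_le rd_err rd_le lt_rd rd_mono q2_mul_pow fl1_fl1)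

variable {Ω τ : Type}

/-- scaled numbers of the point `ω` at the time `t` -/
noncomputable def pt (C : Pth Ω τ) (f j b : ℕ) (dr : Ω → Ω) (t : ℝ) (ω : Ω) : Pt :=
  ⟨2 ^ b * ((C.l ω).v - vb C b ω), 2 ^ b * ((C.l ω).w - wb C b ω),
    2 ^ (C.rk j + b) * (C.p ω * (G0 C f dr t ω).cN (C.l ω) t - (G0 C f dr t ω).cV (C.l ω) t),
    2 ^ (C.rk j + 2 * b) * (G0 C f dr t ω).gd (C.l ω) t,
    2 ^ (C.a j + b) * (C.l ω).X t, 2 ^ (C.a j + 2 * b) * C.Zs b t ω,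
    2 ^ (C.a j + C.rk j + 2 * b) * (G0 C f dr t ω).g (C.l ω) t⟩

/-- square of the velocity of the cell -/
noncomputable def cc (C : Pth Ω τ) (b : ℕ) (ω : Ω) : ℝ := 2 ^ (2 * b) * ((vb C b ω ^ 2 + wb C b ω ^ 2) / 2)

theorem pt_mv (C : Pth Ω τ) (f j b : ℕ) (dr : Ω → Ω) (t t' : ℝ) (ω : Ω) :
    pt C f j b dr t' ω = (pt C f j b dr t ω).mv (2 ^ C.a j * (t' - t)) (2 ^ b * vb C b ω) (cc C b ω) := by
  have h1 := G0_g C f dr t t' ω (C.l ω)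
  have e2 : (G0 C f dr t' ω).cN (C.l ω) t' = (G0 C f dr t ω).cN (C.l ω) t := by rw [G0_cN, G0_cN]
  have e3 : (G0 C f dr t' ω).cV (C.l ω) t' = (G0 C f dr t ω).cV (C.l ω) t := by rw [G0_cV, G0_cV]
  have e4 : (G0 C f dr t' ω).gd (C.l ω) t' = (G0 C f dr t ω).gd (C.l ω) t := by rw [G0_gd, G0_gd]
  unfold pt Pt.mv cc
  dsimp only
  congr 1
  · rw [e2, e3]
  · rw [e4]
  · unfold Ray.X
    ring
  · unfold Pth.Zs vb wb Ray.X Ray.Z Ray.N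
    ring
  · rw [h1]
    ring

theorem scl {n : ℕ} {x y : ℝ} (h : |x| ≤ y * q2 n) : |2 ^ n * x| ≤ y := by
  rw [abs_mul, abs_of_pos (by positivity : (0:ℝ) < 2 ^ n)]
  have h1 := q2_mul_pow n
  calc (2:ℝ) ^ n * |x| ≤ 2 ^ n * (y * q2 n) := mul_le_mul_of_nonneg_left h (by positivity)
    _ = y * (2 ^ n * q2 n) := by ring
    _ = y := by rw [h1, mul_one]

theorem Gcell (C : Pth Ω τ) {S : Ω → Prop} {f j b : ℕ} (fj : f ≤ j) {dr : Ω → Ω} (hdr : Rep S (C.cell j b) dr) {ω ω' : Ω}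
    (h : C.cell j b ω' = C.cell j b ω) (t : ℝ) : G0 C f dr t ω' = G0 C f dr t ω := by
  have hT : C.T j ω' = C.T j ω := congrArg Prod.fst h
  unfold G0
  rw [hdr.eq _ _ h, (same_T C (T_mono C fj hT)).1]

theorem vcell (C : Pth Ω τ) {j b : ℕ} {ω ω' : Ω} (h : C.cell j b ω' = C.cell j b ω) : vb C b ω' = vb C b ω := by
  have hv : fl1 b (C.l ω').v = fl1 b (C.l ω).v := congrArg (fun q => q.2.1) h
  unfold vb rd
  rw [hv]

theorem wcell (C : Pth Ω τ) {j b : ℕ} {ω ω' : Ω} (h : C.cell j b ω' = C.cell j b ω) : wb C b ω' = wb C b ω := by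
  have hw : fl1 (b - C.μ) ((C.l ω').w + C.o 1) = fl1 (b - C.μ) ((C.l ω).w + C.o 1) := congrArg (fun q => q.2.2 1) h
  unfold wb Pth.ro rd
  rw [hw]

theorem cccell (C : Pth Ω τ) {j b : ℕ} {ω ω' : Ω} (h : C.cell j b ω' = C.cell j b ω) : cc C b ω' = cc C b ω := by
  unfold cc
  rw [vcell C h, wcell C h]

namespace Ctx

variable {C : Pth Ω τ} {S : Ω → Prop} {K : ℝ} {f j js i b bb p : ℕ} (X : Ctx C S K f j js i b bb p)
include X

/-- bounds of the numbers of a point -/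
theorem bd {dr : Ω → Ω} (hdr : Rep S (C.cell j b) dr) (t : ℝ) {ω : Ω} (hω : S ω) :
    Bd (13 * K ^ 3 * (2 ^ C.μ) ^ 3) (2 ^ C.μ) (pt C f j b dr t ω) := by
  refine ⟨?_, ?_, ?_, ?_⟩
  · show 0 ≤ 2 ^ b * ((C.l ω).v - rd b (C.l ω).v)
    have := rd_le b (C.l ω).v
    have h : 0 ≤ (C.l ω).v - rd b (C.l ω).v := by linarith
    positivity
  · show 2 ^ b * ((C.l ω).v - rd b (C.l ω).v) ≤ 1
    have h1 := lt_rd b (C.l ω).v
    have h2 := q2_mul_pow b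
    have h3 : (0:ℝ) < 2 ^ b := by positivity
    nlinarith
  · show |2 ^ b * ((C.l ω).w - C.ro 1 (b - C.μ) (C.l ω).w)| ≤ 2 ^ C.μ
    refine scl ?_
    rw [abs_sub_comm, mul_comm]
    exact (ro_err C 1 _ _).trans (q2_sub _ _)
  · show |2 ^ (C.rk j + b) * (C.p ω * (G0 C f dr t ω).cN (C.l ω) t - (G0 C f dr t ω).cV (C.l ω) t)| ≤ _
    refine scl ?_
    rw [G0_cN, G0_cV, q2_add]
    refine (X.br_le hdr hω).trans (le_of_eq ?_)
    ring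

/-- **same late cell** -/
theorem estep {dr tr : Ω → Ω} (hdr : Rep S (C.cell j b) dr) (htr : Rep S (fun ω => (C.cell j b ω, C.T i ω)) tr)
    {ω ω' : Ω} (hω : S ω) (hω' : S ω') (hD : C.cell j b ω' = C.cell j b ω) (hE : C.cell i b ω' = C.cell i b ω) :
    EStep (2 ^ C.rk j * TT C f i (tr ω)) (600 * K ^ 7 * q2 C.μ) (2 * q2 C.μ ^ 7) (20 * K ^ 2 * q2 C.μ ^ 2)
      (pt C f j b dr (C.s i ω) ω) (pt C f j b dr (C.s i ω) ω') := by
  have h := X.es hdr hω hω' hE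
  have nr := near C (n := i) (d := b) X.ki hE
  have hG := Gcell C X.fj hdr hD (C.s i ω)
  have hv := vcell C hD
  have hw := wcell C hD
  have hK := X.K1
  have hη := q2_pos C.μ
  have hη1 := q2_one C.μ
  have hB := q2_pos b
  have hk := q2_pos (C.rk j)
  have hA := q2_pos (C.a j)
  have hpη := pη C.μ
  have hTn : |TT C f i (tr ω) - TT C f i ω| ≤ 12 * K ^ 5 * (q2 (C.rk j) * q2 C.μ ^ 7) := by
    have e1 := htr.val ω hω
    exact X.TT_near hω (htr.mem ω hω) (congrArg Prod.fst e1) (congrArg Prod.snd e1)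
  have qm : ∀ {m n : ℕ}, m ≤ n → q2 C.μ ^ n ≤ q2 C.μ ^ m := fun hmn => pow_le_pow_of_le_one hη.le hη1 hmn
  have q1' : ∀ {n : ℕ}, 1 ≤ n → q2 C.μ ^ n ≤ q2 C.μ := fun hn => by simpa using qm hn
  have Km : ∀ {m n : ℕ}, m ≤ n → K ^ m ≤ K ^ n := fun hmn => pow_le_pow_right₀ hK hmn
  have K17 : 1 ≤ K ^ 7 := one_le_pow₀ hK
  refine ⟨?_, ?_, ?_, ?_, ?_, ?_⟩
  · show |2 ^ (C.a j + b) * (C.l ω').X (C.s i ω) - 2 ^ (C.a j + b) * (C.l ω).X (C.s i ω)| ≤ _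
    rw [← mul_sub]
    refine scl (nr.X.trans ?_)
    rw [q2_add]
    calc q2 (C.a i) * q2 b * 2 ^ C.μ ≤ (q2 (C.a j) * q2 C.μ ^ 8) * q2 b * 2 ^ C.μ := by
          have := X.AA
          gcongr
      _ = (q2 C.μ ^ 7 * (q2 (C.a j) * q2 b)) * (q2 C.μ * 2 ^ C.μ) := by ring
      _ = q2 C.μ ^ 7 * (q2 (C.a j) * q2 b) := by rw [hpη, mul_one]
      _ ≤ 2 * q2 C.μ ^ 7 * (q2 (C.a j) * q2 b) := by
        have : 0 < q2 C.μ ^ 7 * (q2 (C.a j) * q2 b) := by positivity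
        linarith
  · show |2 ^ (C.a j + 2 * b) * C.Zs b (C.s i ω) ω' - 2 ^ (C.a j + 2 * b) * C.Zs b (C.s i ω) ω| ≤ _
    rw [← mul_sub]
    refine scl (nr.Z.trans ?_)
    rw [q2_add, q2_mul]
    calc q2 (C.a i) * q2 b ^ 2 * (2 ^ C.μ) ^ 3 ≤ (q2 (C.a j) * q2 C.μ ^ 8) * q2 b ^ 2 * (2 ^ C.μ) ^ 3 := by
          have := X.AA
          gcongr
      _ = (q2 C.μ ^ 5 * (q2 (C.a j) * q2 b ^ 2)) * (q2 C.μ * 2 ^ C.μ) ^ 3 := by ring
      _ = 1 * q2 C.μ ^ 5 * (q2 (C.a j) * q2 b ^ 2) := by rw [hpη]; ring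
      _ ≤ 600 * K ^ 7 * q2 C.μ * (q2 (C.a j) * q2 b ^ 2) := by
        have := q1' (n := 5) (by norm_num)
        gcongr
        linarith
  · show |2 ^ (C.a j + C.rk j + 2 * b) * (G0 C f dr (C.s i ω) ω').g (C.l ω') (C.s i ω) -
      2 ^ (C.a j + C.rk j + 2 * b) * (G0 C f dr (C.s i ω) ω).g (C.l ω) (C.s i ω)| ≤ _
    rw [← mul_sub, hG]
    refine scl (h.g.trans ?_)
    rw [q2_add, q2_add, q2_mul]
    calc 40 * K ^ 3 * (q2 (C.a j) * q2 b ^ 2 * q2 (C.rk j) * q2 C.μ ^ 2) =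
          40 * K ^ 3 * q2 C.μ ^ 2 * (q2 (C.a j) * q2 (C.rk j) * q2 b ^ 2) := by ring
      _ ≤ 600 * K ^ 7 * q2 C.μ * (q2 (C.a j) * q2 (C.rk j) * q2 b ^ 2) := by
        have := q1' (n := 2) (by norm_num)
        have := Km (m := 3) (n := 7) (by norm_num)
        gcongr
        norm_num
  · show |2 ^ (C.rk j + b) * (C.p ω' * (G0 C f dr (C.s i ω) ω').cN (C.l ω') (C.s i ω) -
        (G0 C f dr (C.s i ω) ω').cV (C.l ω') (C.s i ω)) -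
      2 ^ (C.rk j + b) * (C.p ω * (G0 C f dr (C.s i ω) ω).cN (C.l ω) (C.s i ω) -
        (G0 C f dr (C.s i ω) ω).cV (C.l ω) (C.s i ω)) -
      2 ^ C.rk j * TT C f i (tr ω) * (2 ^ b * ((C.l ω').v - vb C b ω') - 2 ^ b * ((C.l ω).v - vb C b ω))| ≤ _
    rw [hG, hv]
    have h1 := h.brd
    have hT0 : rho C f i ω * (GD C i b ω).ka - (G0 C f dr (C.s i ω) ω).ka = TT C f i ω := by
      obtain ⟨-, -, e2, e3⟩ := same_T C (X.dTf hdr hω)
      show rho C f i ω * (C.F i ω).ka - ((C.F f (dr ω)).ka - (C.s i ω - C.s f ω) * (C.F f (dr ω)).al) = _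
      rw [e2, e3]
      rfl
    rw [hT0] at h1
    set G := G0 C f dr (C.s i ω) ω with hGd
    have e1 : 2 ^ (C.rk j + b) * (C.p ω' * G.cN (C.l ω') (C.s i ω) - G.cV (C.l ω') (C.s i ω)) -
      2 ^ (C.rk j + b) * (C.p ω * G.cN (C.l ω) (C.s i ω) - G.cV (C.l ω) (C.s i ω)) -
      2 ^ C.rk j * TT C f i (tr ω) * (2 ^ b * ((C.l ω').v - vb C b ω) - 2 ^ b * ((C.l ω).v - vb C b ω)) =
      2 ^ (C.rk j + b) * ((C.p ω' * G.cN (C.l ω') (C.s i ω) - G.cV (C.l ω') (C.s i ω)) -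
        (C.p ω * G.cN (C.l ω) (C.s i ω) - G.cV (C.l ω) (C.s i ω)) - TT C f i ω * ((C.l ω').v - (C.l ω).v) -
        (TT C f i (tr ω) - TT C f i ω) * ((C.l ω').v - (C.l ω).v)) := by
      rw [pow_add]
      ring
    rw [e1]
    refine scl ?_
    have h2 : |(TT C f i (tr ω) - TT C f i ω) * ((C.l ω').v - (C.l ω).v)| ≤
        12 * K ^ 5 * (q2 (C.rk j) * q2 C.μ ^ 7) * q2 b := amul hTn nr.v
    have h3 := abs_sub ((C.p ω' * G.cN (C.l ω') (C.s i ω) - G.cV (C.l ω') (C.s i ω)) -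
        (C.p ω * G.cN (C.l ω) (C.s i ω) - G.cV (C.l ω) (C.s i ω)) - TT C f i ω * ((C.l ω').v - (C.l ω).v))
        ((TT C f i (tr ω) - TT C f i ω) * ((C.l ω').v - (C.l ω).v))
    refine h3.trans ((add_le_add h1 h2).trans ?_)
    rw [q2_add]
    have k57 := Km (m := 5) (n := 7) (by norm_num)
    have u1 : 60 * K ^ 5 * (q2 (C.rk j) * q2 b * q2 C.μ ^ 2) ≤ 60 * (K ^ 7 * q2 C.μ * (q2 (C.rk j) * q2 b)) := by
      calc _ = 60 * (K ^ 5 * q2 C.μ ^ 2 * (q2 (C.rk j) * q2 b)) := by ring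
        _ ≤ _ := by
          have := q1' (n := 2) (by norm_num)
          gcongr
    have u2 : 12 * K ^ 5 * (q2 (C.rk j) * q2 C.μ ^ 7) * q2 b ≤ 12 * (K ^ 7 * q2 C.μ * (q2 (C.rk j) * q2 b)) := by
      calc _ = 12 * (K ^ 5 * q2 C.μ ^ 7 * (q2 (C.rk j) * q2 b)) := by ring
        _ ≤ _ := by
          have := q1' (n := 7) (by norm_num)
          gcongr
    have : 0 < K ^ 7 * q2 C.μ * (q2 (C.rk j) * q2 b) := by positivity
    linarith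
  · show |2 ^ (C.rk j + 2 * b) * (G0 C f dr (C.s i ω) ω').gd (C.l ω') (C.s i ω) -
      2 ^ (C.rk j + 2 * b) * (G0 C f dr (C.s i ω) ω).gd (C.l ω) (C.s i ω) -
      2 ^ (C.rk j + b) * (C.p ω * (G0 C f dr (C.s i ω) ω).cN (C.l ω) (C.s i ω) -
        (G0 C f dr (C.s i ω) ω).cV (C.l ω) (C.s i ω)) *
        (2 ^ b * ((C.l ω').v - vb C b ω') - 2 ^ b * ((C.l ω).v - vb C b ω)) -
      2 ^ C.rk j * TT C f i (tr ω) * (2 ^ b * ((C.l ω').v - vb C b ω') - 2 ^ b * ((C.l ω).v - vb C b ω)) ^ 2 / 2| ≤ _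
    rw [hG, hv]
    have h1 := h.gdd
    have hT0 : rho C f i ω * (GD C i b ω).ka - (G0 C f dr (C.s i ω) ω).ka = TT C f i ω := by
      obtain ⟨-, -, e2, e3⟩ := same_T C (X.dTf hdr hω)
      show rho C f i ω * (C.F i ω).ka - ((C.F f (dr ω)).ka - (C.s i ω - C.s f ω) * (C.F f (dr ω)).al) = _
      rw [e2, e3]
      rfl
    rw [hT0] at h1
    set G := G0 C f dr (C.s i ω) ω with hGd
    have e1 : 2 ^ (C.rk j + 2 * b) * G.gd (C.l ω') (C.s i ω) - 2 ^ (C.rk j + 2 * b) * G.gd (C.l ω) (C.s i ω) -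
      2 ^ (C.rk j + b) * (C.p ω * G.cN (C.l ω) (C.s i ω) - G.cV (C.l ω) (C.s i ω)) *
        (2 ^ b * ((C.l ω').v - vb C b ω) - 2 ^ b * ((C.l ω).v - vb C b ω)) -
      2 ^ C.rk j * TT C f i (tr ω) * (2 ^ b * ((C.l ω').v - vb C b ω) - 2 ^ b * ((C.l ω).v - vb C b ω)) ^ 2 / 2 =
      2 ^ (C.rk j + 2 * b) * (G.gd (C.l ω') (C.s i ω) - G.gd (C.l ω) (C.s i ω) -
        (C.p ω * G.cN (C.l ω) (C.s i ω) - G.cV (C.l ω) (C.s i ω)) * ((C.l ω').v - (C.l ω).v) -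
        TT C f i ω * (((C.l ω').v - (C.l ω).v) ^ 2 / 2) -
        (TT C f i (tr ω) - TT C f i ω) * (((C.l ω').v - (C.l ω).v) * ((C.l ω').v - (C.l ω).v) / 2)) := by
      ring
    rw [e1]
    refine scl ?_
    have h2 : |(TT C f i (tr ω) - TT C f i ω) * (((C.l ω').v - (C.l ω).v) * ((C.l ω').v - (C.l ω).v) / 2)| ≤
        12 * K ^ 5 * (q2 (C.rk j) * q2 C.μ ^ 7) * (q2 b * q2 b / 2) := by
      refine amul hTn ?_
      rw [abs_div, abs_of_pos (by norm_num : (0:ℝ) < 2)]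
      have := amul nr.v nr.v
      linarith
    have h3 := abs_sub (G.gd (C.l ω') (C.s i ω) - G.gd (C.l ω) (C.s i ω) -
        (C.p ω * G.cN (C.l ω) (C.s i ω) - G.cV (C.l ω) (C.s i ω)) * ((C.l ω').v - (C.l ω).v) -
        TT C f i ω * (((C.l ω').v - (C.l ω).v) ^ 2 / 2))
        ((TT C f i (tr ω) - TT C f i ω) * (((C.l ω').v - (C.l ω).v) * ((C.l ω').v - (C.l ω).v) / 2))
    refine h3.trans ((add_le_add h1 h2).trans ?_)
    rw [q2_add, q2_mul]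
    have k57 := Km (m := 5) (n := 7) (by norm_num)
    have u1 : 500 * K ^ 7 * (q2 (C.rk j) * q2 b ^ 2 * q2 C.μ ^ 2) ≤ 500 * (K ^ 7 * q2 C.μ * (q2 (C.rk j) * q2 b ^ 2)) := by
      calc _ = 500 * (K ^ 7 * q2 C.μ ^ 2 * (q2 (C.rk j) * q2 b ^ 2)) := by ring
        _ ≤ _ := by
          have := q1' (n := 2) (by norm_num)
          gcongr
    have u2 : 12 * K ^ 5 * (q2 (C.rk j) * q2 C.μ ^ 7) * (q2 b * q2 b / 2) ≤
        6 * (K ^ 7 * q2 C.μ * (q2 (C.rk j) * q2 b ^ 2)) := by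
      calc _ = 6 * (K ^ 5 * q2 C.μ ^ 7 * (q2 (C.rk j) * q2 b ^ 2)) := by ring
        _ ≤ _ := by
          have := q1' (n := 7) (by norm_num)
          gcongr
    have : 0 < K ^ 7 * q2 C.μ * (q2 (C.rk j) * q2 b ^ 2) := by positivity
    linarith
  · show |2 ^ b * ((C.l ω').w - wb C b ω') - 2 ^ b * ((C.l ω).w - wb C b ω)| ≤ _
    rw [hw]
    have e1 : 2 ^ b * ((C.l ω').w - wb C b ω) - 2 ^ b * ((C.l ω).w - wb C b ω) =
      2 ^ b * ((C.l ω').w - (C.l ω).w) := by ring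
    rw [e1]
    refine scl (h.dw.trans (le_of_eq ?_))
    ring

/-- **same fine cell**, at a time `t` of the early step -/
theorem wstep {dr : Ω → Ω} (hdr : Rep S (C.cell j b) dr) {ω ω' : Ω} (hω : S ω) (hω' : S ω')
    (hD : C.cell j b ω' = C.cell j b ω) (hW : C.cell j bb ω' = C.cell j bb ω) {t : ℝ} (ht : |t - C.s j ω| ≤ q2 (C.a j)) :
    WStep (600 * K ^ 7 * q2 C.μ) (2 * q2 C.μ ^ 7) (q2 C.μ ^ 8) (20 * K ^ 2 * q2 C.μ ^ 2)
      (pt C f j b dr t ω) (pt C f j b dr t ω') := by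
  have h := X.ws hdr hω hω' hW
  have nr := near C (n := j) (d := bb) X.kj hW
  have hG := Gcell C X.fj hdr hD (C.s j ω)
  have hv := vcell C hD
  have hw := wcell C hD
  have hcc := cccell C hD
  have hK := X.K1
  have hη := q2_pos C.μ
  have hη1 := q2_one C.μ
  have hB := q2_pos b
  have hβ := q2_pos bb
  have hk := q2_pos (C.rk j)
  have hA := q2_pos (C.a j)
  have hpη := pη C.μ
  have hβB := X.BB
  have qm : ∀ {m n : ℕ}, m ≤ n → q2 C.μ ^ n ≤ q2 C.μ ^ m := fun hmn => pow_le_pow_of_le_one hη.le hη1 hmn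
  have q1' : ∀ {n : ℕ}, 1 ≤ n → q2 C.μ ^ n ≤ q2 C.μ := fun hn => by simpa using qm hn
  have Km : ∀ {m n : ℕ}, m ≤ n → K ^ m ≤ K ^ n := fun hmn => pow_le_pow_right₀ hK hmn
  have K1 : ∀ {n : ℕ}, 1 ≤ K ^ n := fun {n} => one_le_pow₀ hK
  have M1 : (1:ℝ) ≤ 2 ^ C.μ := one_le_pow₀ (by norm_num)
  have p1 := X.bd hdr (C.s j ω) hω
  have p2 := X.bd hdr (C.s j ω) hω'
  -- the velocity
  have Y : |(pt C f j b dr (C.s j ω) ω').y - (pt C f j b dr (C.s j ω) ω).y| ≤ q2 C.μ ^ 8 := by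
    show |2 ^ b * ((C.l ω').v - vb C b ω') - 2 ^ b * ((C.l ω).v - vb C b ω)| ≤ _
    rw [hv, show 2 ^ b * ((C.l ω').v - vb C b ω) - 2 ^ b * ((C.l ω).v - vb C b ω) =
      2 ^ b * ((C.l ω').v - (C.l ω).v) by ring]
    exact scl (nr.v.trans (by rw [mul_comm]; exact hβB))
  have Uu : |(pt C f j b dr (C.s j ω) ω').u - (pt C f j b dr (C.s j ω) ω).u| ≤ q2 C.μ ^ 7 := by
    show |2 ^ b * ((C.l ω').w - wb C b ω') - 2 ^ b * ((C.l ω).w - wb C b ω)| ≤ _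
    rw [hw, show 2 ^ b * ((C.l ω').w - wb C b ω) - 2 ^ b * ((C.l ω).w - wb C b ω) =
      2 ^ b * ((C.l ω').w - (C.l ω).w) by ring]
    refine scl (nr.w.trans ?_)
    calc q2 bb * 2 ^ C.μ ≤ (q2 b * q2 C.μ ^ 8) * 2 ^ C.μ := by gcongr
      _ = q2 C.μ ^ 7 * q2 b * (q2 C.μ * 2 ^ C.μ) := by ring
      _ = _ := by rw [hpη, mul_one]
  -- position at the time of the step
  have V0 : |(pt C f j b dr (C.s j ω) ω').V - (pt C f j b dr (C.s j ω) ω).V| ≤ q2 C.μ ^ 7 := by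
    show |2 ^ (C.a j + b) * (C.l ω').X (C.s j ω) - 2 ^ (C.a j + b) * (C.l ω).X (C.s j ω)| ≤ _
    rw [← mul_sub]
    refine scl (nr.X.trans ?_)
    rw [q2_add]
    calc q2 (C.a j) * q2 bb * 2 ^ C.μ ≤ q2 (C.a j) * (q2 b * q2 C.μ ^ 8) * 2 ^ C.μ := by gcongr
      _ = (q2 C.μ ^ 7 * (q2 (C.a j) * q2 b)) * (q2 C.μ * 2 ^ C.μ) := by ring
      _ = _ := by rw [hpη, mul_one]
  have Z0 : |(pt C f j b dr (C.s j ω) ω').Z - (pt C f j b dr (C.s j ω) ω).Z| ≤ 5 * q2 C.μ ^ 6 := by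
    show |2 ^ (C.a j + 2 * b) * C.Zs b (C.s j ω) ω' - 2 ^ (C.a j + 2 * b) * C.Zs b (C.s j ω) ω| ≤ _
    rw [← mul_sub]
    refine scl ?_
    have e : C.Zs b (C.s j ω) ω' - C.Zs b (C.s j ω) ω = (C.l ω).dz (C.l ω') (C.s j ω) +
        ((C.l ω).v - vb C b ω) * ((C.l ω').X (C.s j ω) - (C.l ω).X (C.s j ω)) +
        ((C.l ω).w - wb C b ω) * ((C.l ω').N (C.s j ω) - (C.l ω).N (C.s j ω)) := by
      have e1 : C.Zs b (C.s j ω) ω' = (C.l ω').Z (C.s j ω) - vb C b ω' * (C.l ω').X (C.s j ω) -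
        wb C b ω' * (C.l ω').N (C.s j ω) := rfl
      have e2 : C.Zs b (C.s j ω) ω = (C.l ω).Z (C.s j ω) - vb C b ω * (C.l ω).X (C.s j ω) -
        wb C b ω * (C.l ω).N (C.s j ω) := rfl
      rw [e1, e2, hv, hw]
      unfold Ray.dz
      ring
    have v1 : |(C.l ω).v - vb C b ω| ≤ q2 b := by
      rw [abs_sub_comm]
      exact rd_err _ _
    have w1 : |(C.l ω).w - wb C b ω| ≤ q2 b * 2 ^ C.μ := by
      rw [abs_sub_comm]
      exact (ro_err C 1 _ _).trans (q2_sub _ _)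
    have t1 := amul v1 nr.X
    have t2 := amul w1 nr.N
    have x1 := abs_add_le ((C.l ω).dz (C.l ω') (C.s j ω) +
        ((C.l ω).v - vb C b ω) * ((C.l ω').X (C.s j ω) - (C.l ω).X (C.s j ω)))
        (((C.l ω).w - wb C b ω) * ((C.l ω').N (C.s j ω) - (C.l ω).N (C.s j ω)))
    have x2 := abs_add_le ((C.l ω).dz (C.l ω') (C.s j ω))
        (((C.l ω).v - vb C b ω) * ((C.l ω').X (C.s j ω) - (C.l ω).X (C.s j ω)))
    rw [e]
    rw [q2_add, q2_mul]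
    have u0 : 3 * q2 (C.a j) * q2 bb ^ 2 * (2 ^ C.μ) ^ 3 ≤ 3 * (q2 C.μ ^ 6 * (q2 (C.a j) * q2 b ^ 2)) := by
      calc 3 * q2 (C.a j) * q2 bb ^ 2 * (2 ^ C.μ) ^ 3 ≤
            3 * q2 (C.a j) * (q2 b * q2 C.μ ^ 8) ^ 2 * (2 ^ C.μ) ^ 3 := by gcongr
        _ = 3 * (q2 C.μ ^ 13 * (q2 (C.a j) * q2 b ^ 2)) * (q2 C.μ * 2 ^ C.μ) ^ 3 := by ring
        _ = 3 * (q2 C.μ ^ 13 * (q2 (C.a j) * q2 b ^ 2)) := by rw [hpη]; ring
        _ ≤ _ := by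
          have := qm (m := 6) (n := 13) (by norm_num)
          gcongr
    have u1 : q2 b * (q2 (C.a j) * q2 bb * 2 ^ C.μ) ≤ q2 C.μ ^ 6 * (q2 (C.a j) * q2 b ^ 2) := by
      calc q2 b * (q2 (C.a j) * q2 bb * 2 ^ C.μ) ≤ q2 b * (q2 (C.a j) * (q2 b * q2 C.μ ^ 8) * 2 ^ C.μ) := by gcongr
        _ = (q2 C.μ ^ 7 * (q2 (C.a j) * q2 b ^ 2)) * (q2 C.μ * 2 ^ C.μ) := by ring
        _ = q2 C.μ ^ 7 * (q2 (C.a j) * q2 b ^ 2) := by rw [hpη, mul_one]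
        _ ≤ _ := by
          have := qm (m := 6) (n := 7) (by norm_num)
          gcongr
    have u2 : q2 b * 2 ^ C.μ * (q2 (C.a j) * q2 bb * 2 ^ C.μ) ≤ q2 C.μ ^ 6 * (q2 (C.a j) * q2 b ^ 2) := by
      calc q2 b * 2 ^ C.μ * (q2 (C.a j) * q2 bb * 2 ^ C.μ) ≤
            q2 b * 2 ^ C.μ * (q2 (C.a j) * (q2 b * q2 C.μ ^ 8) * 2 ^ C.μ) := by gcongr
        _ = (q2 C.μ ^ 6 * (q2 (C.a j) * q2 b ^ 2)) * (q2 C.μ * 2 ^ C.μ) ^ 2 := by ring
        _ = _ := by rw [hpη]; ring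
    have u3 := nr.z
    linarith
  have g0 : |(pt C f j b dr (C.s j ω) ω').g - (pt C f j b dr (C.s j ω) ω).g| ≤ 24 * K ^ 3 * q2 C.μ ^ 2 := by
    show |2 ^ (C.a j + C.rk j + 2 * b) * (G0 C f dr (C.s j ω) ω').g (C.l ω') (C.s j ω) -
      2 ^ (C.a j + C.rk j + 2 * b) * (G0 C f dr (C.s j ω) ω).g (C.l ω) (C.s j ω)| ≤ _
    rw [← mul_sub, hG]
    refine scl (h.g.trans (le_of_eq ?_))
    rw [q2_add, q2_add, q2_mul]
    ring
  have d0 : |(pt C f j b dr (C.s j ω) ω').d - (pt C f j b dr (C.s j ω) ω).d| ≤ 30 * K ^ 3 * q2 C.μ ^ 2 := by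
    show |2 ^ (C.rk j + 2 * b) * (G0 C f dr (C.s j ω) ω').gd (C.l ω') (C.s j ω) -
      2 ^ (C.rk j + 2 * b) * (G0 C f dr (C.s j ω) ω).gd (C.l ω) (C.s j ω)| ≤ _
    rw [← mul_sub, hG]
    refine scl (h.gdd.trans (le_of_eq ?_))
    rw [q2_add, q2_mul]
    ring
  have r0 : |(pt C f j b dr (C.s j ω) ω').r - (pt C f j b dr (C.s j ω) ω).r| ≤ 12 * K ^ 3 * q2 C.μ ^ 5 := by
    show |2 ^ (C.rk j + b) * (C.p ω' * (G0 C f dr (C.s j ω) ω').cN (C.l ω') (C.s j ω) -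
        (G0 C f dr (C.s j ω) ω').cV (C.l ω') (C.s j ω)) -
      2 ^ (C.rk j + b) * (C.p ω * (G0 C f dr (C.s j ω) ω).cN (C.l ω) (C.s j ω) -
        (G0 C f dr (C.s j ω) ω).cV (C.l ω) (C.s j ω))| ≤ _
    rw [← mul_sub, hG]
    refine scl (h.brd.trans (le_of_eq ?_))
    rw [q2_add]
    ring
  -- at the time `t`
  have e1 := pt_mv C f j b dr (C.s j ω) t ω
  have e2 := pt_mv C f j b dr (C.s j ω) t ω'
  rw [hv, hcc] at e2
  rw [e1, e2]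
  have hS : |2 ^ C.a j * (t - C.s j ω)| ≤ 1 := scl (by rw [one_mul]; exact ht)
  set P := pt C f j b dr (C.s j ω) ω with hP
  set P' := pt C f j b dr (C.s j ω) ω' with hP'
  set s := 2 ^ C.a j * (t - C.s j ω) with hs
  have k1 : q2 C.μ ≤ K ^ 7 * q2 C.μ := le_mul_of_one_le_left hη.le K1
  have k3 : K ^ 3 * q2 C.μ ^ 2 ≤ K ^ 7 * q2 C.μ := by
    have := Km (m := 3) (n := 7) (by norm_num)
    have := q1' (n := 2) (by norm_num)
    gcongr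
  refine ⟨?_, ?_, ?_, ?_, ?_, ?_, ?_⟩
  · show |(P'.V + s * (2 ^ b * vb C b ω + P'.y)) - (P.V + s * (2 ^ b * vb C b ω + P.y))| ≤ _
    rw [show (P'.V + s * (2 ^ b * vb C b ω + P'.y)) - (P.V + s * (2 ^ b * vb C b ω + P.y)) =
      (P'.V - P.V) + s * (P'.y - P.y) by ring]
    have a1 := amul hS Y
    have a2 := abs_add_le (P'.V - P.V) (s * (P'.y - P.y))
    have a3 := qm (m := 7) (n := 8) (by norm_num)
    linarith
  · show |(P'.Z + s * ((P'.y ^ 2 + P'.u ^ 2) / 2 - cc C b ω)) - (P.Z + s * ((P.y ^ 2 + P.u ^ 2) / 2 - cc C b ω))| ≤ _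
    rw [show (P'.Z + s * ((P'.y ^ 2 + P'.u ^ 2) / 2 - cc C b ω)) - (P.Z + s * ((P.y ^ 2 + P.u ^ 2) / 2 - cc C b ω)) =
      (P'.Z - P.Z) + s * ((P'.y + P.y) / 2 * (P'.y - P.y)) + s * ((P'.u + P.u) / 2 * (P'.u - P.u)) by ring]
    have b1 : |(P'.y + P.y) / 2| ≤ 1 := by
      rw [abs_le]
      constructor <;> linarith [p1.y0, p1.y1, p2.y0, p2.y1]
    have b2 : |(P'.u + P.u) / 2| ≤ 2 ^ C.μ := by
      have := ab p1.u
      have := ab p2.u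
      rw [abs_le]
      constructor <;> linarith
    have a1 := amul hS (amul b1 Y)
    have a2 := amul hS (amul b2 Uu)
    have a3 : 1 * (2 ^ C.μ * q2 C.μ ^ 7) = q2 C.μ ^ 6 := by
      calc _ = q2 C.μ ^ 6 * (q2 C.μ * 2 ^ C.μ) := by ring
        _ = _ := by rw [hpη, mul_one]
    rw [a3] at a2
    have a4 := abs_add_le ((P'.Z - P.Z) + s * ((P'.y + P.y) / 2 * (P'.y - P.y))) (s * ((P'.u + P.u) / 2 * (P'.u - P.u)))
    have a5 := abs_add_le (P'.Z - P.Z) (s * ((P'.y + P.y) / 2 * (P'.y - P.y)))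
    have a6 := q1' (n := 8) (by norm_num)
    have a7 := q1' (n := 6) (by norm_num)
    linarith
  · show |(P'.g + s * P'.d) - (P.g + s * P.d)| ≤ _
    rw [show (P'.g + s * P'.d) - (P.g + s * P.d) = (P'.g - P.g) + s * (P'.d - P.d) by ring]
    have a1 := amul hS d0
    have a2 := abs_add_le (P'.g - P.g) (s * (P'.d - P.d))
    linarith
  · refine r0.trans ?_
    have : K ^ 3 * q2 C.μ ^ 5 ≤ K ^ 7 * q2 C.μ := by
      have := Km (m := 3) (n := 7) (by norm_num)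
      have := q1' (n := 5) (by norm_num)
      gcongr
    have : 0 < K ^ 7 * q2 C.μ := by positivity
    linarith
  · refine d0.trans ?_
    linarith
  · exact Y
  · refine Uu.trans ?_
    have a1 := qm (m := 2) (n := 7) (by norm_num)
    have a2 : q2 C.μ ^ 2 ≤ K ^ 2 * q2 C.μ ^ 2 := le_mul_of_one_le_left (by positivity) K1
    have : 0 < K ^ 2 * q2 C.μ ^ 2 := by positivity
    linarith

end Ctx

end Vale.Agent.P106.U.H466
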