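import Vale.Agent.P106.U.H466.GeoA

/-!
# P106 / U / H466 : algebra of a chain of the M-step with the curvature in the velocity (HEIS) (helper466)

A point has the numbers `Pt`, the relative kappa `k` (at the time considered) and the relative curvature `al`; change of
time : `k - S al`.  `HEStep` : same late cell; `HWStep` : same fine cell.
`phi = r - k y`, `c = d - r y + k y² / 2`.
* `HChain.V`, `Z`, `K`, `Phi`, `G` : the relations of a chain.
-/

set_option autoImplicit false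

namespace Vale.Agent.P106.U.H466

/-- slope at the base velocity -/
noncomputable def phi (q : Pt) (k : ℝ) : ℝ := q.r - k * q.y

/-- derivative at the base velocity -/
noncomputable def cH (q : Pt) (k : ℝ) : ℝ := q.d - q.r * q.y + k * q.y ^ 2 / 2

/-- same late cell -/
structure HEStep (e eV eu : ℝ) (q q' : Pt) (k k' : ℝ) : Prop where
  E : EStep k e eV eu q q'
  k : |k' - k| ≤ e

/-- same fine cell -/
structure HWStep (e eV ey eu : ℝ) (q q' : Pt) (k k' al al' : ℝ) : Prop where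
  W : WStep e eV ey eu q q'
  k : |k' - k| ≤ e
  al : |al' - al| ≤ e

/-- a chain -/
structure HChain (S c1 c0 e eV ey eu ex R U L x x' al al' : ℝ) (qa q1 q2 q3 q4 qb : Pt)
    (ka k1 k2 k3 k4 kb a1 a2 a3 a4 : ℝ) : Prop where
  E1 : HEStep e eV eu qa q1 ka k1
  W1 : HWStep e eV ey eu q1 q2 k1 k2 a1 a2
  E2 : HEStep e eV eu (q2.mv S c1 c0) (q3.mv S c1 c0) (k2 - S * a2) (k3 - S * a3)
  W2 : HWStep e eV ey eu q3 q4 k3 k4 a3 a4
  E3 : HEStep e eV eu q4 qb k4 kb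
  ba : Bd R U qa
  b1 : Bd R U q1
  b2 : Bd R U q2
  b3 : Bd R U q3
  b4 : Bd R U q4
  bb : Bd R U qb
  S1 : |S| ≤ 1
  t1 : |ka| ≤ L
  t1' : |k1| ≤ L
  t2 : |k2| ≤ L
  t3 : |k3| ≤ L
  tb : |kb| ≤ L
  l2 : |a2| ≤ L
  l3 : |a3| ≤ L
  la : |al| ≤ L
  la' : |al'| ≤ L
  L1 : 1 ≤ L
  R1 : 1 ≤ R
  U1 : 1 ≤ U
  RV : R * eV ≤ e
  Ry : R * ey ≤ e
  Uu : U * eu ≤ e
  eV2 : eV ≤ 2
  x0 : 0 ≤ x ∧ x ≤ 1
  x1 : 0 ≤ x' ∧ x' ≤ 1
  x : |q2.y - x| ≤ ex
  x' : |q3.y - x'| ≤ ex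
  al : |a2 - al| ≤ ex
  al' : |a3 - al'| ≤ ex

/-- slope, same late cell -/
theorem phiE {e eV eu : ℝ} {q q' : Pt} {k k' : ℝ} (h : HEStep e eV eu q q' k k') (h0 : 0 ≤ q'.y) (h1 : q'.y ≤ 1) :
    |phi q' k' - phi q k| ≤ 2 * e := by
  have e1 : phi q' k' - phi q k = (q'.r - q.r - k * (q'.y - q.y)) - (k' - k) * q'.y := by unfold phi; ring
  rw [e1]
  have h2 : |(k' - k) * q'.y| ≤ e * 1 := amul h.k (by rw [abs_le]; constructor <;> linarith)
  have := abs_sub (q'.r - q.r - k * (q'.y - q.y)) ((k' - k) * q'.y)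
  have := h.E.r
  linarith

/-- slope, same fine cell -/
theorem phiW {e eV ey eu L : ℝ} {q q' : Pt} {k k' a a' : ℝ} (h : HWStep e eV ey eu q q' k k' a a') (h0 : 0 ≤ q'.y)
    (h1 : q'.y ≤ 1) (hk : |k| ≤ L) (hL : L * ey ≤ L * e) : |phi q' k' - phi q k| ≤ 2 * e + L * e := by
  have e1 : phi q' k' - phi q k = (q'.r - q.r) - k * (q'.y - q.y) - (k' - k) * q'.y := by unfold phi; ring
  rw [e1]
  have h2 := ab (amul h.k (b := q'.y) (B := 1) (by rw [abs_le]; constructor <;> linarith))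
  have h3 := ab (amul hk h.W.y)
  have h4 := ab h.W.r
  rw [abs_le]
  constructor <;> nlinarith

/-- derivative, same late cell -/
theorem cE {e eV eu : ℝ} {q q' : Pt} {k k' : ℝ} (h : HEStep e eV eu q q' k k') (h0 : 0 ≤ q'.y) (h1 : q'.y ≤ 1) :
    |cH q' k' - cH q k| ≤ 3 * e := by
  have e1 : cH q' k' - cH q k = (q'.d - q.d - q.r * (q'.y - q.y) - k * (q'.y - q.y) ^ 2 / 2) -
      (q'.r - q.r - k * (q'.y - q.y)) * q'.y + (k' - k) * (q'.y * q'.y / 2) := by unfold cH; ring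
  rw [e1]
  have hy : |q'.y| ≤ 1 := by rw [abs_le]; constructor <;> linarith
  have h2 := ab (amul h.E.r hy)
  have h3 := ab (amul h.k (b := q'.y * q'.y / 2) (B := 1) (by
    rw [abs_le]
    constructor <;> nlinarith))
  have h4 := ab h.E.d
  rw [abs_le]
  constructor <;> linarith

/-- derivative, same fine cell -/
theorem cW {e eV ey eu R L : ℝ} {q q' : Pt} {k k' a a' : ℝ} (h : HWStep e eV ey eu q q' k k' a a') (h0 : 0 ≤ q'.y)
    (h1 : q'.y ≤ 1) (k0 : 0 ≤ q.y) (k1 : q.y ≤ 1) (hr : |q.r| ≤ R) (hk : |k| ≤ L) (hR : R * ey ≤ e)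
    (hL : L * ey ≤ L * e) : |cH q' k' - cH q k| ≤ 4 * e + L * e := by
  have e1 : cH q' k' - cH q k = (q'.d - q.d) - (q'.r - q.r) * q'.y - q.r * (q'.y - q.y) +
      k * ((q'.y - q.y) * ((q'.y + q.y) / 2)) + (k' - k) * (q'.y * q'.y / 2) := by unfold cH; ring
  rw [e1]
  have h2 := ab (amul h.W.r (b := q'.y) (B := 1) (by rw [abs_le]; constructor <;> linarith))
  have h3 := ab (amul hr h.W.y)
  have h4 := ab (amul hk (amul h.W.y (b := (q'.y + q.y) / 2) (B := 1) (by rw [abs_le]; constructor <;> linarith)))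
  have h5 := ab h.W.d
  have h6 := ab (amul h.k (b := q'.y * q'.y / 2) (B := 1) (by
    rw [abs_le]
    constructor <;> nlinarith))
  rw [abs_le]
  constructor <;> nlinarith

/-- the derivative of the value -/
theorem d_eq (q : Pt) (k : ℝ) : q.d = cH q k + phi q k * q.y + k * q.y ^ 2 / 2 := by
  unfold cH phi
  ring

namespace HChain

variable {S c1 c0 e eV ey eu ex R U L x x' al al' : ℝ} {qa q1 q2 q3 q4 qb : Pt}
  {ka k1 k2 k3 k4 kb a1 a2 a3 a4 : ℝ}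
  (h : HChain S c1 c0 e eV ey eu ex R U L x x' al al' qa q1 q2 q3 q4 qb ka k1 k2 k3 k4 kb a1 a2 a3 a4)
include h

theorem eV0 : 0 ≤ eV := (abs_nonneg _).trans h.E1.E.V
theorem ey0 : 0 ≤ ey := (abs_nonneg _).trans h.W1.W.y
theorem eu0 : 0 ≤ eu := (abs_nonneg _).trans h.E1.E.u
theorem e0 : 0 ≤ e := (abs_nonneg _).trans h.E1.E.g
theorem ex0 : 0 ≤ ex := (abs_nonneg _).trans h.x

theorem eVe : eV ≤ e := (le_mul_of_one_le_left h.eV0 h.R1).trans h.RV
theorem eye : ey ≤ e := (le_mul_of_one_le_left h.ey0 h.R1).trans h.Ry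

theorem Le : e ≤ L * e := le_mul_of_one_le_left h.e0 h.L1

theorem Lex : ex ≤ L * ex := le_mul_of_one_le_left h.ex0 h.L1

theorem Ley : L * ey ≤ L * e := mul_le_mul_of_nonneg_left h.eye (by linarith [h.L1])

theorem y2 : |q2.y| ≤ 1 := by rw [abs_le]; constructor <;> linarith [h.b2.y0, h.b2.y1]

theorem y3 : |q3.y| ≤ 1 := by rw [abs_le]; constructor <;> linarith [h.b3.y0, h.b3.y1]

theorem y23 : |q2.y - q3.y| ≤ 1 := by
  rw [abs_le]
  constructor <;> linarith [h.b2.y0, h.b2.y1, h.b3.y0, h.b3.y1]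

theorem Vy : |qb.V - qa.V - S * (q2.y - q3.y)| ≤ 5 * eV := by
  have h1 := ab h.E1.E.V
  have h2 := ab h.W1.W.V
  have h3 : |(q3.V + S * (c1 + q3.y)) - (q2.V + S * (c1 + q2.y))| ≤ eV := h.E2.E.V
  have h3 := ab h3
  have h4 := ab h.W2.W.V
  have h5 := ab h.E3.E.V
  rw [abs_le]
  constructor <;> nlinarith

theorem Zy : |qb.Z - qa.Z - S * ((q2.y ^ 2 - q3.y ^ 2) / 2)| ≤ 6 * e := by
  have h1 := ab h.E1.E.Z
  have h2 := ab h.W1.W.Z
  have h3 : |(q3.Z + S * ((q3.y ^ 2 + q3.u ^ 2) / 2 - c0)) - (q2.Z + S * ((q2.y ^ 2 + q2.u ^ 2) / 2 - c0))| ≤ e :=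
    h.E2.E.Z
  have h3 := ab h3
  have h4 := ab h.W2.W.Z
  have h5 := ab h.E3.E.Z
  have h6 : |q3.u - q2.u| ≤ eu := h.E2.E.u
  have h7 : |(q3.u + q2.u) / 2| ≤ U := by
    have := ab h.b2.u
    have := ab h.b3.u
    rw [abs_le]
    constructor <;> linarith
  have h8 : |S * ((q3.u ^ 2 - q2.u ^ 2) / 2)| ≤ e := by
    have e1 : S * ((q3.u ^ 2 - q2.u ^ 2) / 2) = S * ((q3.u + q2.u) / 2 * (q3.u - q2.u)) := by ring
    rw [e1]
    calc _ ≤ 1 * (U * eu) := amul h.S1 (amul h7 h6)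
      _ ≤ e := by rw [one_mul]; exact h.Uu
  have h8 := ab h8
  rw [abs_le]
  constructor <;> nlinarith

theorem sx : |(q2.y - q3.y) - (x - x')| ≤ 2 * ex := by
  have h1 := ab h.x
  have h2 := ab h.x'
  rw [abs_le]
  constructor <;> linarith

theorem sq {y z : ℝ} (hy0 : 0 ≤ y) (hy1 : y ≤ 1) (hz0 : 0 ≤ z) (hz1 : z ≤ 1) (hd : |y - z| ≤ ex) :
    |y ^ 2 / 2 - z ^ 2 / 2| ≤ ex := by
  have e1 : y ^ 2 / 2 - z ^ 2 / 2 = (y + z) / 2 * (y - z) := by ring
  have h1 : |(y + z) / 2| ≤ 1 := by rw [abs_le]; constructor <;> linarith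
  rw [e1]
  have := amul h1 hd
  linarith

theorem sx2 : |(q2.y ^ 2 - q3.y ^ 2) / 2 - (x ^ 2 - x' ^ 2) / 2| ≤ 2 * ex := by
  have h1 := ab (h.sq h.b2.y0 h.b2.y1 h.x0.1 h.x0.2 h.x)
  have h2 := ab (h.sq h.b3.y0 h.b3.y1 h.x1.1 h.x1.2 h.x')
  rw [abs_le]
  constructor <;> linarith

/-- **position** -/
theorem V : |qb.V - qa.V - S * (x - x')| ≤ 5 * e + 2 * ex := by
  have h1 := ab h.Vy
  have h2 := ab (amul h.S1 h.sx)
  have h3 := h.eVe
  rw [abs_le]
  constructor <;> nlinarith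

/-- **null coordinate** -/
theorem Z : |qb.Z - qa.Z - S * (x ^ 2 - x' ^ 2) / 2| ≤ 6 * e + 2 * ex := by
  have h1 := ab h.Zy
  have h2 := ab (amul h.S1 h.sx2)
  rw [abs_le]
  constructor <;> nlinarith

/-- kappa, with the curvatures of the points 2, 3 -/
theorem Ky : |kb - ka + S * (a2 - a3)| ≤ 5 * e := by
  have h1 := ab h.E1.k
  have h2 := ab h.W1.k
  have h3 := ab h.E2.k
  have h4 := ab h.W2.k
  have h5 := ab h.E3.k
  rw [abs_le]
  constructor <;> nlinarith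

/-- **kappa** -/
theorem K : |kb - ka - -(S * (al - al'))| ≤ 5 * e + 2 * ex := by
  have h1 := ab h.Ky
  have h2 : |(a2 - a3) - (al - al')| ≤ 2 * ex := by
    have := ab h.al
    have := ab h.al'
    rw [abs_le]
    constructor <;> linarith
  have h2 := ab (amul h.S1 h2)
  rw [abs_le]
  constructor <;> nlinarith

/-- slope, with the numbers of the points 2, 3 -/
theorem Phiy : |phi qb kb - phi qa ka - S * (a2 * q2.y - a3 * q3.y)| ≤ 12 * (L * e) := by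
  have h1 := ab (phiE h.E1 h.b1.y0 h.b1.y1)
  have h2 := ab (phiW h.W1 h.b2.y0 h.b2.y1 h.t1' h.Ley)
  have h3 := phiE (q := q2.mv S c1 c0) (q' := q3.mv S c1 c0) h.E2 h.b3.y0 h.b3.y1
  have e2 : phi (q2.mv S c1 c0) (k2 - S * a2) = phi q2 k2 + S * (a2 * q2.y) := by unfold phi Pt.mv; ring
  have e3 : phi (q3.mv S c1 c0) (k3 - S * a3) = phi q3 k3 + S * (a3 * q3.y) := by unfold phi Pt.mv; ring
  rw [e2, e3] at h3
  have h3 := ab h3
  have h4 := ab (phiW h.W2 h.b4.y0 h.b4.y1 h.t3 h.Ley)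
  have h5 := ab (phiE h.E3 h.bb.y0 h.bb.y1)
  have h6 := h.Le
  have key : phi qb kb - phi qa ka - S * (a2 * q2.y - a3 * q3.y) = (phi qb kb - phi q4 k4) + (phi q4 k4 - phi q3 k3) +
      (phi q3 k3 + S * (a3 * q3.y) - (phi q2 k2 + S * (a2 * q2.y))) + (phi q2 k2 - phi q1 k1) +
      (phi q1 k1 - phi qa ka) := by ring
  rw [key, abs_le]
  constructor <;> linarith

/-- **slope** -/
theorem Phi : |phi qb kb - phi qa ka - S * (al * x - al' * x')| ≤ 12 * (L * e) + 4 * (L * ex) := by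
  have h1 := ab h.Phiy
  have h2 : |(a2 * q2.y - a3 * q3.y) - (al * x - al' * x')| ≤ 4 * (L * ex) := by
    have e1 : (a2 * q2.y - a3 * q3.y) - (al * x - al' * x') = (a2 - al) * q2.y + al * (q2.y - x) -
        (a3 - al') * q3.y - al' * (q3.y - x') := by ring
    have u1 := ab (amul h.al h.y2)
    have u2 := ab (amul h.la h.x)
    have u3 := ab (amul h.al' h.y3)
    have u4 := ab (amul h.la' h.x')
    have u5 := h.Lex
    rw [e1, abs_le]
    constructor <;> linarith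
  have h2 := ab (amul h.S1 h2)
  rw [abs_le]
  constructor <;> nlinarith

/-- derivative, with the numbers of the points 2, 3 -/
theorem Cy : |cH qb kb - cH qa ka + S * ((a2 * q2.y ^ 2 - a3 * q3.y ^ 2) / 2)| ≤ 19 * (L * e) := by
  have h1 := ab (cE h.E1 h.b1.y0 h.b1.y1)
  have h2 := ab (cW h.W1 h.b2.y0 h.b2.y1 h.b1.y0 h.b1.y1 h.b1.r h.t1' h.Ry h.Ley)
  have h3 := cE (q := q2.mv S c1 c0) (q' := q3.mv S c1 c0) h.E2 h.b3.y0 h.b3.y1
  have e2 : cH (q2.mv S c1 c0) (k2 - S * a2) = cH q2 k2 - S * (a2 * q2.y ^ 2 / 2) := by unfold cH Pt.mv; ring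
  have e3 : cH (q3.mv S c1 c0) (k3 - S * a3) = cH q3 k3 - S * (a3 * q3.y ^ 2 / 2) := by unfold cH Pt.mv; ring
  rw [e2, e3] at h3
  have h3 := ab h3
  have h4 := ab (cW h.W2 h.b4.y0 h.b4.y1 h.b3.y0 h.b3.y1 h.b3.r h.t3 h.Ry h.Ley)
  have h5 := ab (cE h.E3 h.bb.y0 h.bb.y1)
  have h6 := h.Le
  have key : cH qb kb - cH qa ka + S * ((a2 * q2.y ^ 2 - a3 * q3.y ^ 2) / 2) = (cH qb kb - cH q4 k4) +
      (cH q4 k4 - cH q3 k3) + (cH q3 k3 - S * (a3 * q3.y ^ 2 / 2) - (cH q2 k2 - S * (a2 * q2.y ^ 2 / 2))) +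
      (cH q2 k2 - cH q1 k1) + (cH q1 k1 - cH qa ka) := by ring
  rw [key, abs_le]
  constructor <;> linarith

/-- the derivative of the point 2, from the numbers of `qa` -/
theorem D2 : |q2.d - (cH qa ka + phi qa ka * q2.y + ka * q2.y ^ 2 / 2)| ≤ 16 * (L * e) := by
  have h1 := ab (cE h.E1 h.b1.y0 h.b1.y1)
  have h2 := ab (cW h.W1 h.b2.y0 h.b2.y1 h.b1.y0 h.b1.y1 h.b1.r h.t1' h.Ry h.Ley)
  have f1 := ab (phiE h.E1 h.b1.y0 h.b1.y1)
  have f2 := ab (phiW h.W1 h.b2.y0 h.b2.y1 h.t1' h.Ley)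
  have f3 : |(phi q2 k2 - phi qa ka) * q2.y| ≤ (4 * e + L * e) * 1 :=
    amul (by rw [abs_le]; constructor <;> linarith) h.y2
  have g1 := ab h.E1.k
  have g2 := ab h.W1.k
  have g3 : |(k2 - ka) * (q2.y * q2.y / 2)| ≤ (2 * e) * 1 := by
    refine amul (by rw [abs_le]; constructor <;> linarith) ?_
    have := h.b2.y0
    have := h.b2.y1
    rw [abs_le]
    constructor <;> nlinarith
  have e1 := d_eq q2 k2
  have f3 := ab f3
  have g3 := ab g3
  have h6 := h.Le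
  have key : q2.d - (cH qa ka + phi qa ka * q2.y + ka * q2.y ^ 2 / 2) = (cH q2 k2 - cH q1 k1) + (cH q1 k1 - cH qa ka) +
      (phi q2 k2 - phi qa ka) * q2.y + (k2 - ka) * (q2.y * q2.y / 2) := by rw [e1]; ring
  rw [key, abs_le]
  constructor <;> linarith

/-- the derivative of the point 3, from the numbers of `qb` -/
theorem D3 : |q3.d - (cH qb kb + phi qb kb * q3.y + kb * q3.y ^ 2 / 2)| ≤ 16 * (L * e) := by
  have h1 := ab (cE h.E3 h.bb.y0 h.bb.y1)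
  have h2 := ab (cW h.W2 h.b4.y0 h.b4.y1 h.b3.y0 h.b3.y1 h.b3.r h.t3 h.Ry h.Ley)
  have f1 := ab (phiE h.E3 h.bb.y0 h.bb.y1)
  have f2 := ab (phiW h.W2 h.b4.y0 h.b4.y1 h.t3 h.Ley)
  have f3 : |(phi q3 k3 - phi qb kb) * q3.y| ≤ (4 * e + L * e) * 1 :=
    amul (by rw [abs_le]; constructor <;> linarith) h.y3
  have g1 := ab h.E3.k
  have g2 := ab h.W2.k
  have g3 : |(k3 - kb) * (q3.y * q3.y / 2)| ≤ (2 * e) * 1 := by
    refine amul (by rw [abs_le]; constructor <;> linarith) ?_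
    have := h.b3.y0
    have := h.b3.y1
    rw [abs_le]
    constructor <;> nlinarith
  have e1 := d_eq q3 k3
  have f3 := ab f3
  have g3 := ab g3
  have h6 := h.Le
  have key : q3.d - (cH qb kb + phi qb kb * q3.y + kb * q3.y ^ 2 / 2) = -(cH q4 k4 - cH q3 k3) - (cH qb kb - cH q4 k4) +
      (phi q3 k3 - phi qb kb) * q3.y + (k3 - kb) * (q3.y * q3.y / 2) := by rw [e1]; ring
  rw [key, abs_le]
  constructor <;> linarith

/-- the value -/
theorem Gy : |qb.g - qa.g - phi qa ka * (S * (q2.y - q3.y)) - ka * (S * ((q2.y ^ 2 - q3.y ^ 2) / 2)) -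
    S ^ 2 * a2 * (q2.y - q3.y) ^ 2 / 2| ≤ 75 * (L * e) := by
  have g1 := ab h.E1.E.g
  have g2 := ab h.W1.W.g
  have g3 : |(q3.g + S * q3.d) - (q2.g + S * q2.d)| ≤ e := h.E2.E.g
  have g3 := ab g3
  have g4 := ab h.W2.W.g
  have g5 := ab h.E3.E.g
  have d2 := ab (amul h.S1 h.D2)
  have d3 := ab (amul h.S1 h.D3)
  have cc := ab (amul h.S1 h.Cy)
  have pp := ab (amul (amul h.S1 h.Phiy) h.y3)
  have kk : |S * (kb - ka + S * (a2 - a3)) * (q3.y * q3.y / 2)| ≤ 1 * (5 * e) * 1 := by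
    refine amul (amul h.S1 h.Ky) ?_
    have := h.b3.y0
    have := h.b3.y1
    rw [abs_le]
    constructor <;> nlinarith
  have kk := ab kk
  have h6 := h.Le
  have key : qb.g - qa.g - phi qa ka * (S * (q2.y - q3.y)) - ka * (S * ((q2.y ^ 2 - q3.y ^ 2) / 2)) -
      S ^ 2 * a2 * (q2.y - q3.y) ^ 2 / 2 =
      (qb.g - q4.g) + (q4.g - q3.g) + ((q3.g + S * q3.d) - (q2.g + S * q2.d)) + (q2.g - q1.g) + (q1.g - qa.g) +
      S * (q2.d - (cH qa ka + phi qa ka * q2.y + ka * q2.y ^ 2 / 2)) -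
      S * (q3.d - (cH qb kb + phi qb kb * q3.y + kb * q3.y ^ 2 / 2)) -
      S * (cH qb kb - cH qa ka + S * ((a2 * q2.y ^ 2 - a3 * q3.y ^ 2) / 2)) -
      S * (phi qb kb - phi qa ka - S * (a2 * q2.y - a3 * q3.y)) * q3.y -
      S * (kb - ka + S * (a2 - a3)) * (q3.y * q3.y / 2) := by ring
  rw [key, abs_le]
  constructor <;> linarith

/-- **value** : `phia` = the slope of the state, up to `e` -/
theorem G {f : ℝ} (hf : |f - phi qa ka| ≤ e) :
    |qb.g - qa.g - f * (qb.V - qa.V) - ka * (qb.Z - qa.Z) - S ^ 2 * al * (x - x') ^ 2 / 2| ≤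
      110 * (L * e) + 4 * (L * ex) := by
  have hL0 : 0 ≤ L := by linarith [h.L1]
  have he := h.e0
  have h1 := ab h.Gy
  have hphi : |phi qa ka| ≤ R + L := by
    unfold phi
    have a1 := ab h.ba.r
    have a2 := ab (amul h.t1 (b := qa.y) (B := 1) (by rw [abs_le]; constructor <;> linarith [h.ba.y0, h.ba.y1]))
    rw [abs_le]
    constructor <;> linarith
  have h2 : |phi qa ka * (qb.V - qa.V - S * (q2.y - q3.y))| ≤ 5 * e + 5 * (L * e) := by
    calc _ ≤ (R + L) * (5 * eV) := amul hphi h.Vy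
      _ = 5 * (R * eV) + 5 * (L * eV) := by ring
      _ ≤ 5 * e + 5 * (L * e) := by
        have a1 := h.RV
        have a2 := mul_le_mul_of_nonneg_left h.eVe hL0
        linarith
  have h2 := ab h2
  have h3 := ab (amul h.t1 h.Zy)
  have h4 : |(f - phi qa ka) * (qb.V - qa.V)| ≤ e * 11 := by
    refine amul hf ?_
    have := ab h.Vy
    have := ab (amul h.S1 h.y23)
    have := h.eV2
    rw [abs_le]
    constructor <;> linarith
  have h4 := ab h4
  have h5 : |S ^ 2 * (a2 * (q2.y - q3.y) ^ 2 / 2 - al * (x - x') ^ 2 / 2)| ≤ 4 * (L * ex) := by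
    have s2 : |S ^ 2| ≤ 1 := by
      rw [abs_pow]
      exact pow_le_one₀ (abs_nonneg _) h.S1
    have q : |(q2.y - q3.y) ^ 2 / 2| ≤ 1 := by
      have := ab h.y23
      rw [abs_le]
      constructor <;> nlinarith
    have q' : |((q2.y - q3.y) + (x - x')) / 2| ≤ 1 := by
      have := ab h.y23
      rw [abs_le]
      constructor <;> linarith [h.x0.1, h.x0.2, h.x1.1, h.x1.2]
    have e1 : a2 * (q2.y - q3.y) ^ 2 / 2 - al * (x - x') ^ 2 / 2 = (a2 - al) * ((q2.y - q3.y) ^ 2 / 2) +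
        al * (((q2.y - q3.y) + (x - x')) / 2 * ((q2.y - q3.y) - (x - x'))) := by ring
    have u1 := ab (amul h.al q)
    have u2 := ab (amul h.la (amul q' h.sx))
    have u3 := h.Lex
    have : |a2 * (q2.y - q3.y) ^ 2 / 2 - al * (x - x') ^ 2 / 2| ≤ 4 * (L * ex) := by
      rw [e1, abs_le]
      constructor <;> linarith
    have := amul s2 this
    linarith
  have h5 := ab h5
  have h6 := h.Le
  have key : qb.g - qa.g - f * (qb.V - qa.V) - ka * (qb.Z - qa.Z) - S ^ 2 * al * (x - x') ^ 2 / 2 =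
      (qb.g - qa.g - phi qa ka * (S * (q2.y - q3.y)) - ka * (S * ((q2.y ^ 2 - q3.y ^ 2) / 2)) -
        S ^ 2 * a2 * (q2.y - q3.y) ^ 2 / 2) -
      phi qa ka * (qb.V - qa.V - S * (q2.y - q3.y)) - ka * (qb.Z - qa.Z - S * ((q2.y ^ 2 - q3.y ^ 2) / 2)) -
      (f - phi qa ka) * (qb.V - qa.V) + S ^ 2 * (a2 * (q2.y - q3.y) ^ 2 / 2 - al * (x - x') ^ 2 / 2) := by ring
  rw [key, abs_le]
  constructor <;> linarith

end HChain

end Vale.Agent.P106.U.H466
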