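import Vale.Agent.P106.U.H466.Lay
import Vale.Agent.P106.U.H466.HeiA
import Vale.Agent.P106.U.H466.GeoL
import Vale.Agent.P106.U.H572.HeisN

/-!
# P106 / U / H466 : THE ADAPTER for the steps with hidden curvature: cells of three layers -> 572's `GeoR .. (RH ..)` (helper466)

State at the own time `s i` : `hV, hZ` (position), `hP` (slope of `PhiH`), `hK` (kappa of `E` relative to `D`), `hG` (value
of the functional of `D`).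
* `LCtx.estep`, `LCtx.wstep`, `LCtx.chain` ; `LCtx.stpH` : the five relations of a chain.
* **`LCtx.geoH`** : `GeoR P D Θ W E e (RH XH MH Sf 0 ρ)` for arbitrary letters.
-/

set_option autoImplicit false

namespace Vale.Agent.P106.U.H466

open Vale.Agent.P127 Vale.Agent.P127.Stk Vale.Agent.P106.U.Cell
open Vale.Agent.P127.U.CellD (q2 rd Nb q2_pos q2_add q2_le rd_err rd_le lt_rd rd_mono q2_mul_pow fl1_fl1)

section state

variable {Ω τ₁ τ₂ : Type} (C1 : Pth Ω τ₁) (C2 : Pth Ω τ₂) (un κW αW : Ω → ℝ) (j i b : ℕ) (dr : Ω → Ω)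

/-- functional of `D` with the kappa of `E` -/
noncomputable def PhiH (ω : Ω) : Fu :=
  ⟨(G0 C1 j dr (C2.s i ω) ω).ga + TE C1 C2 j i ω * wb C1 b ω,
    (G0 C1 j dr (C2.s i ω) ω).ph - TE C1 C2 j i ω * vb C1 b ω,
    (G0 C1 j dr (C2.s i ω) ω).ka + TE C1 C2 j i ω, (G0 C1 j dr (C2.s i ω) ω).al⟩

/-- position -/
noncomputable def hV (ω : Ω) : ℝ := 2 ^ (C1.a j + b) * (C1.l ω).X (C2.s i ω)

/-- null coordinate -/
noncomputable def hZ (ω : Ω) : ℝ := 2 ^ (C1.a j + 2 * b) * C1.Zs b (C2.s i ω) ω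

/-- kappa -/
noncomputable def hK (ω : Ω) : ℝ := 2 ^ C1.rk j * TE C1 C2 j i ω

/-- slope -/
noncomputable def hP (ω : Ω) : ℝ :=
  2 ^ (C1.rk j + b) * (C1.p ω * (PhiH C1 C2 j i b dr ω).cN (C1.l ω) (C2.s i ω) -
    (PhiH C1 C2 j i b dr ω).cV (C1.l ω) (C2.s i ω))

/-- value -/
noncomputable def hG (ω : Ω) : ℝ :=
  2 ^ (C1.a j + C1.rk j + 2 * b) * (G0 C1 j dr (C2.s i ω) ω).g (C1.l ω) (C2.s i ω)

theorem hP_eq (ω : Ω) : hP C1 C2 j i b dr ω = phi (pt C1 j j b dr (C2.s i ω) ω) (hK C1 C2 j i ω) -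
    C1.p ω * hK C1 C2 j i ω * (pt C1 j j b dr (C2.s i ω) ω).u := by
  unfold hP PhiH phi pt hK Fu.cN Fu.cV
  dsimp only
  ring

/-- value of `PhiH` -/
theorem PhiH_g (ω : Ω) : 2 ^ (C1.a j + C1.rk j + 2 * b) * (PhiH C1 C2 j i b dr ω).g (C1.l ω) (C2.s i ω) =
    hG C1 C2 j i b dr ω - hK C1 C2 j i ω * hZ C1 C2 j i b ω := by
  unfold PhiH hG hK hZ Fu.g Pth.Zs
  dsimp only
  have e1 : C1.ro 1 (b - C1.μ) (C1.l ω).w = wb C1 b ω := rfl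
  have e2 : rd b (C1.l ω).v = vb C1 b ω := rfl
  rw [e1, e2]
  ring

/-- germ at the time `t` -/
noncomputable def gk (t : ℝ) (ω : Ω) : ℝ := 2 ^ C1.rk j * (kap C1 un κW j ω - (t - C1.s j ω) * alp C1 un αW j ω)

/-- curvature -/
noncomputable def gal (ω : Ω) : ℝ := 2 ^ C1.rk j * (q2 (C1.a j) * alp C1 un αW j ω)

theorem gk_mv (t t' : ℝ) (ω : Ω) :
    gk C1 un κW αW j t' ω = gk C1 un κW αW j t ω - 2 ^ C1.a j * (t' - t) * gal C1 un αW j ω := by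
  unfold gk gal
  have h := q2_mul_pow (C1.a j)
  linear_combination (2 ^ C1.rk j * (t' - t) * alp C1 un αW j ω) * h

end state

variable {Ω τ₁ τ₂ : Type}

theorem EStep.chg {τ τ' e eV eu δ : ℝ} {q q' : Pt} (h : EStep τ e eV eu q q') (hτ : |τ - τ'| ≤ δ) (hδ : 0 ≤ δ)
    (hy : |q'.y - q.y| ≤ 1) : EStep τ' (e + δ) eV eu q q' := by
  have h1 := ab (amul hτ hy)
  have h2 : |(τ - τ') * ((q'.y - q.y) * (q'.y - q.y) / 2)| ≤ δ * 1 := by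
    refine amul hτ ?_
    have := ab hy
    rw [abs_le]
    constructor <;> nlinarith
  have h2 := ab h2
  refine ⟨h.V, by linarith [h.Z], by linarith [h.g], ?_, ?_, h.u⟩
  · have h3 := ab h.r
    rw [abs_le]
    constructor <;> nlinarith
  · have h3 := ab h.d
    rw [abs_le]
    constructor <;> nlinarith

namespace LCtx

variable {C1 : Pth Ω τ₁} {C2 : Pth Ω τ₂} {un κW αW : Ω → ℝ} {S : Ω → Prop} {K : ℝ} {j i b bb bV ν : ℕ}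
  (X : LCtx C1 C2 un κW αW S K j i b bb bV ν)
include X

/-- bounds of the numbers of a point -/
theorem bd {dr : Ω → Ω} (hdr : Rep S (C1.cell j b) dr) (t : ℝ) {ω : Ω} (hω : S ω) :
    Bd (13 * K ^ 3 * (2 ^ C1.μ) ^ 3) (2 ^ C1.μ) (pt C1 j j b dr t ω) := by
  refine ⟨?_, ?_, ?_, ?_⟩
  · show 0 ≤ 2 ^ b * ((C1.l ω).v - rd b (C1.l ω).v)
    have := rd_le b (C1.l ω).v
    have h : 0 ≤ (C1.l ω).v - rd b (C1.l ω).v := by linarith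
    positivity
  · show 2 ^ b * ((C1.l ω).v - rd b (C1.l ω).v) ≤ 1
    have h1 := lt_rd b (C1.l ω).v
    have h2 := q2_mul_pow b
    have h3 : (0:ℝ) < 2 ^ b := by positivity
    nlinarith
  · show |2 ^ b * ((C1.l ω).w - C1.ro 1 (b - C1.μ) (C1.l ω).w)| ≤ 2 ^ C1.μ
    refine scl ?_
    rw [abs_sub_comm, mul_comm]
    exact (ro_err C1 1 _ _).trans (q2_sub _ _)
  · show |2 ^ (C1.rk j + b) * (C1.p ω * (G0 C1 j dr t ω).cN (C1.l ω) t - (G0 C1 j dr t ω).cV (C1.l ω) t)| ≤ _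
    refine scl ?_
    rw [G0_cN, G0_cV, q2_add]
    refine (X.br_le hdr hω).trans (le_of_eq ?_)
    ring

theorem dy {dr : Ω → Ω} (hdr : Rep S (C1.cell j b) dr) (t : ℝ) {ω ω' : Ω} (hω : S ω) (hω' : S ω') :
    |(pt C1 j j b dr t ω').y - (pt C1 j j b dr t ω).y| ≤ 1 := by
  have h1 := X.bd hdr t hω
  have h2 := X.bd hdr t hω'
  rw [abs_le]
  constructor <;> linarith [h1.y0, h1.y1, h2.y0, h2.y1]

/-- **same late cell** -/
theorem estep {dr : Ω → Ω} (hdr : Rep S (C1.cell j b) dr)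
    {ω ω' : Ω} (hω : S ω) (hω' : S ω') (hD : C1.cell j b ω' = C1.cell j b ω) (hE : C2.cell i b ω' = C2.cell i b ω) :
    EStep (hK C1 C2 j i ω) (600 * K ^ 7 * q2 C1.μ ^ 2) (2 * q2 C1.μ ^ 7) (20 * K ^ 2 * q2 C1.μ ^ 4)
      (pt C1 j j b dr (C2.s i ω) ω) (pt C1 j j b dr (C2.s i ω) ω') := by
  have h := X.es hdr hω hω' hE
  have ok := X.ok ω hω
  have hG := Gcell C1 (le_refl j) hdr hD (C2.s i ω)
  have hv := vcell C1 hD
  have hw := wcell C1 hD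
  have hK := X.K1
  have hη := q2_pos C1.μ
  have hη1 := q2_one C1.μ
  have hB := q2_pos b
  have hk := q2_pos (C1.rk j)
  have hk1 := q2_one (C1.rk j)
  have hA := q2_pos (C1.a j)
  have hA' := q2_pos (C2.a i)
  have hpη := pη C1.μ
  have qm : ∀ {m n : ℕ}, m ≤ n → q2 C1.μ ^ n ≤ q2 C1.μ ^ m := fun hmn => pow_le_pow_of_le_one hη.le hη1 hmn
  have Km : ∀ {m n : ℕ}, m ≤ n → K ^ m ≤ K ^ n := fun hmn => pow_le_pow_right₀ hK hmn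
  have K17 : 1 ≤ K ^ 7 := one_le_pow₀ hK
  have hM1 : (1:ℝ) ≤ 2 ^ C1.μ := one_le_pow₀ (by norm_num)
  refine ⟨?_, ?_, ?_, ?_, ?_, ?_⟩
  · show |2 ^ (C1.a j + b) * (C1.l ω').X (C2.s i ω) - 2 ^ (C1.a j + b) * (C1.l ω).X (C2.s i ω)| ≤ _
    rw [← mul_sub]
    refine scl (h.hX.trans ?_)
    rw [q2_add]
    calc q2 (C2.a i) * q2 b * 2 ^ C1.μ ≤ (q2 (C1.a j) * q2 C1.μ ^ 8) * q2 b * 2 ^ C1.μ := by
          have := X.AA
          gcongr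
      _ = (q2 C1.μ ^ 7 * (q2 (C1.a j) * q2 b)) * (q2 C1.μ * 2 ^ C1.μ) := by ring
      _ = q2 C1.μ ^ 7 * (q2 (C1.a j) * q2 b) := by rw [hpη, mul_one]
      _ ≤ 2 * q2 C1.μ ^ 7 * (q2 (C1.a j) * q2 b) := by
        have : 0 < q2 C1.μ ^ 7 * (q2 (C1.a j) * q2 b) := by positivity
        linarith
  · show |2 ^ (C1.a j + 2 * b) * C1.Zs b (C2.s i ω) ω' - 2 ^ (C1.a j + 2 * b) * C1.Zs b (C2.s i ω) ω| ≤ _
    rw [← mul_sub]
    refine scl ?_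
    have e : C1.Zs b (C2.s i ω) ω' - C1.Zs b (C2.s i ω) ω = (C1.l ω).dz (C1.l ω') (C2.s i ω) +
        ((C1.l ω).v - vb C1 b ω) * ((C1.l ω').X (C2.s i ω) - (C1.l ω).X (C2.s i ω)) +
        ((C1.l ω).w - wb C1 b ω) * ((C1.l ω').N (C2.s i ω) - (C1.l ω).N (C2.s i ω)) := by
      have e1 : C1.Zs b (C2.s i ω) ω' = (C1.l ω').Z (C2.s i ω) - vb C1 b ω' * (C1.l ω').X (C2.s i ω) -
        wb C1 b ω' * (C1.l ω').N (C2.s i ω) := rfl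
      have e2 : C1.Zs b (C2.s i ω) ω = (C1.l ω).Z (C2.s i ω) - vb C1 b ω * (C1.l ω).X (C2.s i ω) -
        wb C1 b ω * (C1.l ω).N (C2.s i ω) := rfl
      rw [e1, e2, hv, hw]
      unfold Ray.dz
      ring
    have v1 : |(C1.l ω).v - vb C1 b ω| ≤ q2 b := by
      rw [abs_sub_comm]
      exact rd_err _ _
    have w1 : |(C1.l ω).w - wb C1 b ω| ≤ q2 b * 2 ^ C1.μ := by
      rw [abs_sub_comm]
      exact (ro_err C1 1 _ _).trans (q2_sub _ _)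
    have t1 := amul v1 h.hX
    have t2 := amul w1 h.hN
    have t0 := h.hz
    have x1 := abs_add_le ((C1.l ω).dz (C1.l ω') (C2.s i ω) +
        ((C1.l ω).v - vb C1 b ω) * ((C1.l ω').X (C2.s i ω) - (C1.l ω).X (C2.s i ω)))
        (((C1.l ω).w - wb C1 b ω) * ((C1.l ω').N (C2.s i ω) - (C1.l ω).N (C2.s i ω)))
    have x2 := abs_add_le ((C1.l ω).dz (C1.l ω') (C2.s i ω))
        (((C1.l ω).v - vb C1 b ω) * ((C1.l ω').X (C2.s i ω) - (C1.l ω).X (C2.s i ω)))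
    rw [e, q2_add, q2_mul]
    have m1 : (2 ^ C1.μ : ℝ) ^ 1 ≤ (2 ^ C1.μ) ^ 3 := pow_le_pow_right₀ hM1 (by norm_num)
    have m2 : (2 ^ C1.μ : ℝ) ^ 2 ≤ (2 ^ C1.μ) ^ 3 := pow_le_pow_right₀ hM1 (by norm_num)
    have u1 : q2 b * (q2 (C2.a i) * q2 b * 2 ^ C1.μ) ≤ q2 (C2.a i) * q2 b ^ 2 * (2 ^ C1.μ) ^ 3 := by
      calc _ = q2 (C2.a i) * q2 b ^ 2 * (2 ^ C1.μ) ^ 1 := by ring
        _ ≤ _ := by gcongr
    have u2 : q2 b * 2 ^ C1.μ * (q2 (C2.a i) * q2 b * 2 ^ C1.μ) ≤ q2 (C2.a i) * q2 b ^ 2 * (2 ^ C1.μ) ^ 3 := by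
      calc _ = q2 (C2.a i) * q2 b ^ 2 * (2 ^ C1.μ) ^ 2 := by ring
        _ ≤ _ := by gcongr
    have u3 : q2 (C2.a i) * q2 b ^ 2 * (2 ^ C1.μ) ^ 3 ≤ q2 C1.μ ^ 5 * (q2 (C1.a j) * q2 b ^ 2) := by
      calc q2 (C2.a i) * q2 b ^ 2 * (2 ^ C1.μ) ^ 3 ≤ (q2 (C1.a j) * q2 C1.μ ^ 8) * q2 b ^ 2 * (2 ^ C1.μ) ^ 3 := by
            have := X.AA
            gcongr
        _ = (q2 C1.μ ^ 5 * (q2 (C1.a j) * q2 b ^ 2)) * (q2 C1.μ * 2 ^ C1.μ) ^ 3 := by ring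
        _ = _ := by rw [hpη]; ring
    have u4 : 5 * (q2 C1.μ ^ 5 * (q2 (C1.a j) * q2 b ^ 2)) ≤ 600 * K ^ 7 * q2 C1.μ ^ 2 * (q2 (C1.a j) * q2 b ^ 2) := by
      calc _ = 5 * 1 * q2 C1.μ ^ 5 * (q2 (C1.a j) * q2 b ^ 2) := by ring
        _ ≤ _ := by
          have := qm (m := 2) (n := 5) (by norm_num)
          gcongr
          norm_num
    linarith
  · show |2 ^ (C1.a j + C1.rk j + 2 * b) * (G0 C1 j dr (C2.s i ω) ω').g (C1.l ω') (C2.s i ω) -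
      2 ^ (C1.a j + C1.rk j + 2 * b) * (G0 C1 j dr (C2.s i ω) ω).g (C1.l ω) (C2.s i ω)| ≤ _
    rw [← mul_sub, hG]
    refine scl (h.g.trans ?_)
    rw [q2_add, q2_add, q2_mul]
    calc 40 * K ^ 3 * (q2 (C1.a j) * q2 b ^ 2 * q2 (C1.rk j) * q2 C1.μ ^ 2) =
          40 * K ^ 3 * q2 C1.μ ^ 2 * (q2 (C1.a j) * q2 (C1.rk j) * q2 b ^ 2) := by ring
      _ ≤ 600 * K ^ 7 * q2 C1.μ ^ 2 * (q2 (C1.a j) * q2 (C1.rk j) * q2 b ^ 2) := by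
        have := Km (m := 3) (n := 7) (by norm_num)
        gcongr
        norm_num
  · show |2 ^ (C1.rk j + b) * (C1.p ω' * (G0 C1 j dr (C2.s i ω) ω').cN (C1.l ω') (C2.s i ω) -
        (G0 C1 j dr (C2.s i ω) ω').cV (C1.l ω') (C2.s i ω)) -
      2 ^ (C1.rk j + b) * (C1.p ω * (G0 C1 j dr (C2.s i ω) ω).cN (C1.l ω) (C2.s i ω) -
        (G0 C1 j dr (C2.s i ω) ω).cV (C1.l ω) (C2.s i ω)) -
      2 ^ C1.rk j * TE C1 C2 j i ω * (2 ^ b * ((C1.l ω').v - vb C1 b ω') - 2 ^ b * ((C1.l ω).v - vb C1 b ω))| ≤ _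
    rw [hG, hv]
    have h1 := h.brd
    have hT0 : rE C1 C2 j i ω * (GD C2 i b ω).ka - (G0 C1 j dr (C2.s i ω) ω).ka = TE C1 C2 j i ω := by
      obtain ⟨-, -, e2, e3⟩ := X.sameD (hdr.val ω hω)
      show rE C1 C2 j i ω * (C2.F i ω).ka - ((C1.F j (dr ω)).ka - (C2.s i ω - C1.s j ω) * (C1.F j (dr ω)).al) = _
      rw [e2, e3]
      rfl
    rw [hT0] at h1
    set G := G0 C1 j dr (C2.s i ω) ω with hGd
    have e1 : 2 ^ (C1.rk j + b) * (C1.p ω' * G.cN (C1.l ω') (C2.s i ω) - G.cV (C1.l ω') (C2.s i ω)) -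
      2 ^ (C1.rk j + b) * (C1.p ω * G.cN (C1.l ω) (C2.s i ω) - G.cV (C1.l ω) (C2.s i ω)) -
      2 ^ C1.rk j * TE C1 C2 j i ω * (2 ^ b * ((C1.l ω').v - vb C1 b ω) - 2 ^ b * ((C1.l ω).v - vb C1 b ω)) =
      2 ^ (C1.rk j + b) * ((C1.p ω' * G.cN (C1.l ω') (C2.s i ω) - G.cV (C1.l ω') (C2.s i ω)) -
        (C1.p ω * G.cN (C1.l ω) (C2.s i ω) - G.cV (C1.l ω) (C2.s i ω)) -
        TE C1 C2 j i ω * ((C1.l ω').v - (C1.l ω).v)) := by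
      rw [pow_add]
      ring
    rw [e1]
    refine scl (h1.trans ?_)
    rw [q2_add]
    calc 60 * K ^ 5 * (q2 (C1.rk j) * q2 b * q2 C1.μ ^ 2) = 60 * K ^ 5 * q2 C1.μ ^ 2 * (q2 (C1.rk j) * q2 b) := by ring
      _ ≤ _ := by
        have := Km (m := 5) (n := 7) (by norm_num)
        gcongr
        norm_num
  · show |2 ^ (C1.rk j + 2 * b) * (G0 C1 j dr (C2.s i ω) ω').gd (C1.l ω') (C2.s i ω) -
      2 ^ (C1.rk j + 2 * b) * (G0 C1 j dr (C2.s i ω) ω).gd (C1.l ω) (C2.s i ω) -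
      2 ^ (C1.rk j + b) * (C1.p ω * (G0 C1 j dr (C2.s i ω) ω).cN (C1.l ω) (C2.s i ω) -
        (G0 C1 j dr (C2.s i ω) ω).cV (C1.l ω) (C2.s i ω)) *
        (2 ^ b * ((C1.l ω').v - vb C1 b ω') - 2 ^ b * ((C1.l ω).v - vb C1 b ω)) -
      2 ^ C1.rk j * TE C1 C2 j i ω *
        (2 ^ b * ((C1.l ω').v - vb C1 b ω') - 2 ^ b * ((C1.l ω).v - vb C1 b ω)) ^ 2 / 2| ≤ _
    rw [hG, hv]
    have h1 := h.gdd
    have hT0 : rE C1 C2 j i ω * (GD C2 i b ω).ka - (G0 C1 j dr (C2.s i ω) ω).ka = TE C1 C2 j i ω := by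
      obtain ⟨-, -, e2, e3⟩ := X.sameD (hdr.val ω hω)
      show rE C1 C2 j i ω * (C2.F i ω).ka - ((C1.F j (dr ω)).ka - (C2.s i ω - C1.s j ω) * (C1.F j (dr ω)).al) = _
      rw [e2, e3]
      rfl
    rw [hT0] at h1
    set G := G0 C1 j dr (C2.s i ω) ω with hGd
    have e1 : 2 ^ (C1.rk j + 2 * b) * G.gd (C1.l ω') (C2.s i ω) - 2 ^ (C1.rk j + 2 * b) * G.gd (C1.l ω) (C2.s i ω) -
      2 ^ (C1.rk j + b) * (C1.p ω * G.cN (C1.l ω) (C2.s i ω) - G.cV (C1.l ω) (C2.s i ω)) *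
        (2 ^ b * ((C1.l ω').v - vb C1 b ω) - 2 ^ b * ((C1.l ω).v - vb C1 b ω)) -
      2 ^ C1.rk j * TE C1 C2 j i ω *
        (2 ^ b * ((C1.l ω').v - vb C1 b ω) - 2 ^ b * ((C1.l ω).v - vb C1 b ω)) ^ 2 / 2 =
      2 ^ (C1.rk j + 2 * b) * (G.gd (C1.l ω') (C2.s i ω) - G.gd (C1.l ω) (C2.s i ω) -
        (C1.p ω * G.cN (C1.l ω) (C2.s i ω) - G.cV (C1.l ω) (C2.s i ω)) * ((C1.l ω').v - (C1.l ω).v) -
        TE C1 C2 j i ω * (((C1.l ω').v - (C1.l ω).v) ^ 2 / 2)) := by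
      ring
    rw [e1]
    refine scl (h1.trans ?_)
    rw [q2_add, q2_mul]
    calc 500 * K ^ 7 * (q2 (C1.rk j) * q2 b ^ 2 * q2 C1.μ ^ 2) =
          500 * (K ^ 7 * q2 C1.μ ^ 2 * (q2 (C1.rk j) * q2 b ^ 2)) := by ring
      _ ≤ 600 * (K ^ 7 * q2 C1.μ ^ 2 * (q2 (C1.rk j) * q2 b ^ 2)) := by
        have : 0 < K ^ 7 * q2 C1.μ ^ 2 * (q2 (C1.rk j) * q2 b ^ 2) := by positivity
        linarith
      _ = _ := by ring
  · show |2 ^ b * ((C1.l ω').w - wb C1 b ω') - 2 ^ b * ((C1.l ω).w - wb C1 b ω)| ≤ _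
    rw [hw]
    have e1 : 2 ^ b * ((C1.l ω').w - wb C1 b ω) - 2 ^ b * ((C1.l ω).w - wb C1 b ω) =
      2 ^ b * ((C1.l ω').w - (C1.l ω).w) := by ring
    rw [e1]
    have hp4 : |C1.p ω| ≤ q2 C1.μ ^ 4 := by
      have := ok.p1
      rwa [q2_mul] at this
    have hkB : q2 (C2.rk i) * q2 b ≤ q2 C1.μ ^ 9 := by
      calc q2 (C2.rk i) * q2 b ≤ (q2 (C1.rk j) * q2 C1.μ ^ 8) * q2 C1.μ ^ 8 :=
            mul_le_mul X.kk X.Bη hB.le (by positivity)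
        _ ≤ (1 * q2 C1.μ ^ 8) * q2 C1.μ ^ 8 := by gcongr
        _ = q2 C1.μ ^ 16 := by ring
        _ ≤ _ := qm (by norm_num)
    refine scl ((h.dw4 hp4 hkB).trans (le_of_eq ?_))
    ring

/-- **same fine cell**, at a time `t` of the early step -/
theorem wstep {dr : Ω → Ω} (hdr : Rep S (C1.cell j b) dr) {ω ω' : Ω} (hω : S ω) (hω' : S ω')
    (hD : C1.cell j b ω' = C1.cell j b ω) (hW : C1.cell j bV ω' = C1.cell j bV ω) {t : ℝ}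
    (ht : |t - C1.s j ω| ≤ q2 (C1.a j)) :
    WStep (600 * K ^ 7 * q2 C1.μ ^ 2) (2 * q2 C1.μ ^ 7) (q2 C1.μ ^ 8) (20 * K ^ 2 * q2 C1.μ ^ 4)
      (pt C1 j j b dr t ω) (pt C1 j j b dr t ω') := by
  have h := X.ws hdr hω hω' hW
  have hG := Gcell C1 (le_refl j) hdr hD (C1.s j ω)
  have hv := vcell C1 hD
  have hw := wcell C1 hD
  have hcc := cccell C1 hD
  have hK := X.K1
  have hη := q2_pos C1.μ
  have hη1 := q2_one C1.μ
  have hB := q2_pos b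
  have hβ := q2_pos bb
  have hk := q2_pos (C1.rk j)
  have hA := q2_pos (C1.a j)
  have hpη := pη C1.μ
  have hβB := X.BB
  have qm : ∀ {m n : ℕ}, m ≤ n → q2 C1.μ ^ n ≤ q2 C1.μ ^ m := fun hmn => pow_le_pow_of_le_one hη.le hη1 hmn
  have Km : ∀ {m n : ℕ}, m ≤ n → K ^ m ≤ K ^ n := fun hmn => pow_le_pow_right₀ hK hmn
  have K1 : ∀ {n : ℕ}, 1 ≤ K ^ n := fun {n} => one_le_pow₀ hK
  have M1 : (1:ℝ) ≤ 2 ^ C1.μ := one_le_pow₀ (by norm_num)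
  have p1 := X.bd hdr (C1.s j ω) hω
  have p2 := X.bd hdr (C1.s j ω) hω'
  -- the velocity
  have Y : |(pt C1 j j b dr (C1.s j ω) ω').y - (pt C1 j j b dr (C1.s j ω) ω).y| ≤ q2 C1.μ ^ 8 := by
    show |2 ^ b * ((C1.l ω').v - vb C1 b ω') - 2 ^ b * ((C1.l ω).v - vb C1 b ω)| ≤ _
    rw [hv, show 2 ^ b * ((C1.l ω').v - vb C1 b ω) - 2 ^ b * ((C1.l ω).v - vb C1 b ω) =
      2 ^ b * ((C1.l ω').v - (C1.l ω).v) by ring]
    exact scl (h.hv.trans (by rw [mul_comm]; exact hβB))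
  have Uu : |(pt C1 j j b dr (C1.s j ω) ω').u - (pt C1 j j b dr (C1.s j ω) ω).u| ≤ q2 C1.μ ^ 7 := by
    show |2 ^ b * ((C1.l ω').w - wb C1 b ω') - 2 ^ b * ((C1.l ω).w - wb C1 b ω)| ≤ _
    rw [hw, show 2 ^ b * ((C1.l ω').w - wb C1 b ω) - 2 ^ b * ((C1.l ω).w - wb C1 b ω) =
      2 ^ b * ((C1.l ω').w - (C1.l ω).w) by ring]
    refine scl (h.hw.trans ?_)
    calc q2 bb * 2 ^ C1.μ ≤ (q2 b * q2 C1.μ ^ 8) * 2 ^ C1.μ := by gcongr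
      _ = q2 C1.μ ^ 7 * q2 b * (q2 C1.μ * 2 ^ C1.μ) := by ring
      _ = _ := by rw [hpη, mul_one]
  -- position at the time of the step
  have V0 : |(pt C1 j j b dr (C1.s j ω) ω').V - (pt C1 j j b dr (C1.s j ω) ω).V| ≤ q2 C1.μ ^ 7 := by
    show |2 ^ (C1.a j + b) * (C1.l ω').X (C1.s j ω) - 2 ^ (C1.a j + b) * (C1.l ω).X (C1.s j ω)| ≤ _
    rw [← mul_sub]
    refine scl (h.hX.trans ?_)
    rw [q2_add]
    calc q2 (C1.a j) * q2 bb * 2 ^ C1.μ ≤ q2 (C1.a j) * (q2 b * q2 C1.μ ^ 8) * 2 ^ C1.μ := by gcongr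
      _ = (q2 C1.μ ^ 7 * (q2 (C1.a j) * q2 b)) * (q2 C1.μ * 2 ^ C1.μ) := by ring
      _ = _ := by rw [hpη, mul_one]
  have Z0 : |(pt C1 j j b dr (C1.s j ω) ω').Z - (pt C1 j j b dr (C1.s j ω) ω).Z| ≤ 5 * q2 C1.μ ^ 6 := by
    show |2 ^ (C1.a j + 2 * b) * C1.Zs b (C1.s j ω) ω' - 2 ^ (C1.a j + 2 * b) * C1.Zs b (C1.s j ω) ω| ≤ _
    rw [← mul_sub]
    refine scl ?_
    have e : C1.Zs b (C1.s j ω) ω' - C1.Zs b (C1.s j ω) ω = (C1.l ω).dz (C1.l ω') (C1.s j ω) +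
        ((C1.l ω).v - vb C1 b ω) * ((C1.l ω').X (C1.s j ω) - (C1.l ω).X (C1.s j ω)) +
        ((C1.l ω).w - wb C1 b ω) * ((C1.l ω').N (C1.s j ω) - (C1.l ω).N (C1.s j ω)) := by
      have e1 : C1.Zs b (C1.s j ω) ω' = (C1.l ω').Z (C1.s j ω) - vb C1 b ω' * (C1.l ω').X (C1.s j ω) -
        wb C1 b ω' * (C1.l ω').N (C1.s j ω) := rfl
      have e2 : C1.Zs b (C1.s j ω) ω = (C1.l ω).Z (C1.s j ω) - vb C1 b ω * (C1.l ω).X (C1.s j ω) -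
        wb C1 b ω * (C1.l ω).N (C1.s j ω) := rfl
      rw [e1, e2, hv, hw]
      unfold Ray.dz
      ring
    have v1 : |(C1.l ω).v - vb C1 b ω| ≤ q2 b := by
      rw [abs_sub_comm]
      exact rd_err _ _
    have w1 : |(C1.l ω).w - wb C1 b ω| ≤ q2 b * 2 ^ C1.μ := by
      rw [abs_sub_comm]
      exact (ro_err C1 1 _ _).trans (q2_sub _ _)
    have t1 := amul v1 h.hX
    have t2 := amul w1 h.hN
    have x1 := abs_add_le ((C1.l ω).dz (C1.l ω') (C1.s j ω) +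
        ((C1.l ω).v - vb C1 b ω) * ((C1.l ω').X (C1.s j ω) - (C1.l ω).X (C1.s j ω)))
        (((C1.l ω).w - wb C1 b ω) * ((C1.l ω').N (C1.s j ω) - (C1.l ω).N (C1.s j ω)))
    have x2 := abs_add_le ((C1.l ω).dz (C1.l ω') (C1.s j ω))
        (((C1.l ω).v - vb C1 b ω) * ((C1.l ω').X (C1.s j ω) - (C1.l ω).X (C1.s j ω)))
    rw [e]
    rw [q2_add, q2_mul]
    have u0 : 3 * q2 (C1.a j) * q2 bb ^ 2 * (2 ^ C1.μ) ^ 3 ≤ 3 * (q2 C1.μ ^ 6 * (q2 (C1.a j) * q2 b ^ 2)) := by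
      calc 3 * q2 (C1.a j) * q2 bb ^ 2 * (2 ^ C1.μ) ^ 3 ≤
            3 * q2 (C1.a j) * (q2 b * q2 C1.μ ^ 8) ^ 2 * (2 ^ C1.μ) ^ 3 := by gcongr
        _ = 3 * (q2 C1.μ ^ 13 * (q2 (C1.a j) * q2 b ^ 2)) * (q2 C1.μ * 2 ^ C1.μ) ^ 3 := by ring
        _ = 3 * (q2 C1.μ ^ 13 * (q2 (C1.a j) * q2 b ^ 2)) := by rw [hpη]; ring
        _ ≤ _ := by
          have := qm (m := 6) (n := 13) (by norm_num)
          gcongr
    have u1 : q2 b * (q2 (C1.a j) * q2 bb * 2 ^ C1.μ) ≤ q2 C1.μ ^ 6 * (q2 (C1.a j) * q2 b ^ 2) := by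
      calc q2 b * (q2 (C1.a j) * q2 bb * 2 ^ C1.μ) ≤ q2 b * (q2 (C1.a j) * (q2 b * q2 C1.μ ^ 8) * 2 ^ C1.μ) := by gcongr
        _ = (q2 C1.μ ^ 7 * (q2 (C1.a j) * q2 b ^ 2)) * (q2 C1.μ * 2 ^ C1.μ) := by ring
        _ = q2 C1.μ ^ 7 * (q2 (C1.a j) * q2 b ^ 2) := by rw [hpη, mul_one]
        _ ≤ _ := by
          have := qm (m := 6) (n := 7) (by norm_num)
          gcongr
    have u2 : q2 b * 2 ^ C1.μ * (q2 (C1.a j) * q2 bb * 2 ^ C1.μ) ≤ q2 C1.μ ^ 6 * (q2 (C1.a j) * q2 b ^ 2) := by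
      calc q2 b * 2 ^ C1.μ * (q2 (C1.a j) * q2 bb * 2 ^ C1.μ) ≤
            q2 b * 2 ^ C1.μ * (q2 (C1.a j) * (q2 b * q2 C1.μ ^ 8) * 2 ^ C1.μ) := by gcongr
        _ = (q2 C1.μ ^ 6 * (q2 (C1.a j) * q2 b ^ 2)) * (q2 C1.μ * 2 ^ C1.μ) ^ 2 := by ring
        _ = _ := by rw [hpη]; ring
    have u3 := h.hz
    linarith
  have g0 : |(pt C1 j j b dr (C1.s j ω) ω').g - (pt C1 j j b dr (C1.s j ω) ω).g| ≤ 24 * K ^ 3 * q2 C1.μ ^ 2 := by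
    show |2 ^ (C1.a j + C1.rk j + 2 * b) * (G0 C1 j dr (C1.s j ω) ω').g (C1.l ω') (C1.s j ω) -
      2 ^ (C1.a j + C1.rk j + 2 * b) * (G0 C1 j dr (C1.s j ω) ω).g (C1.l ω) (C1.s j ω)| ≤ _
    rw [← mul_sub, hG]
    refine scl (h.g.trans (le_of_eq ?_))
    rw [q2_add, q2_add, q2_mul]
    ring
  have d0 : |(pt C1 j j b dr (C1.s j ω) ω').d - (pt C1 j j b dr (C1.s j ω) ω).d| ≤ 30 * K ^ 3 * q2 C1.μ ^ 2 := by
    show |2 ^ (C1.rk j + 2 * b) * (G0 C1 j dr (C1.s j ω) ω').gd (C1.l ω') (C1.s j ω) -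
      2 ^ (C1.rk j + 2 * b) * (G0 C1 j dr (C1.s j ω) ω).gd (C1.l ω) (C1.s j ω)| ≤ _
    rw [← mul_sub, hG]
    refine scl (h.gdd.trans (le_of_eq ?_))
    rw [q2_add, q2_mul]
    ring
  have r0 : |(pt C1 j j b dr (C1.s j ω) ω').r - (pt C1 j j b dr (C1.s j ω) ω).r| ≤ 12 * K ^ 3 * q2 C1.μ ^ 5 := by
    show |2 ^ (C1.rk j + b) * (C1.p ω' * (G0 C1 j dr (C1.s j ω) ω').cN (C1.l ω') (C1.s j ω) -
        (G0 C1 j dr (C1.s j ω) ω').cV (C1.l ω') (C1.s j ω)) -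
      2 ^ (C1.rk j + b) * (C1.p ω * (G0 C1 j dr (C1.s j ω) ω).cN (C1.l ω) (C1.s j ω) -
        (G0 C1 j dr (C1.s j ω) ω).cV (C1.l ω) (C1.s j ω))| ≤ _
    rw [← mul_sub, hG]
    refine scl (h.brd.trans (le_of_eq ?_))
    rw [q2_add]
    ring
  -- at the time `t`
  have e1 := pt_mv C1 j j b dr (C1.s j ω) t ω
  have e2 := pt_mv C1 j j b dr (C1.s j ω) t ω'
  rw [hv, hcc] at e2
  rw [e1, e2]
  have hS : |2 ^ C1.a j * (t - C1.s j ω)| ≤ 1 := scl (by rw [one_mul]; exact ht)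
  set P := pt C1 j j b dr (C1.s j ω) ω with hP
  set P' := pt C1 j j b dr (C1.s j ω) ω' with hP'
  set s := 2 ^ C1.a j * (t - C1.s j ω) with hs
  have k3 : K ^ 3 * q2 C1.μ ^ 2 ≤ K ^ 7 * q2 C1.μ ^ 2 := by
    have := Km (m := 3) (n := 7) (by norm_num)
    gcongr
  have k0 : q2 C1.μ ^ 2 ≤ K ^ 7 * q2 C1.μ ^ 2 := le_mul_of_one_le_left (by positivity) K1
  refine ⟨?_, ?_, ?_, ?_, ?_, ?_, ?_⟩
  · show |(P'.V + s * (2 ^ b * vb C1 b ω + P'.y)) - (P.V + s * (2 ^ b * vb C1 b ω + P.y))| ≤ _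
    rw [show (P'.V + s * (2 ^ b * vb C1 b ω + P'.y)) - (P.V + s * (2 ^ b * vb C1 b ω + P.y)) =
      (P'.V - P.V) + s * (P'.y - P.y) by ring]
    have a1 := amul hS Y
    have a2 := abs_add_le (P'.V - P.V) (s * (P'.y - P.y))
    have a3 := qm (m := 7) (n := 8) (by norm_num)
    linarith
  · show |(P'.Z + s * ((P'.y ^ 2 + P'.u ^ 2) / 2 - cc C1 b ω)) - (P.Z + s * ((P.y ^ 2 + P.u ^ 2) / 2 - cc C1 b ω))| ≤ _
    rw [show (P'.Z + s * ((P'.y ^ 2 + P'.u ^ 2) / 2 - cc C1 b ω)) - (P.Z + s * ((P.y ^ 2 + P.u ^ 2) / 2 - cc C1 b ω)) =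
      (P'.Z - P.Z) + s * ((P'.y + P.y) / 2 * (P'.y - P.y)) + s * ((P'.u + P.u) / 2 * (P'.u - P.u)) by ring]
    have b1 : |(P'.y + P.y) / 2| ≤ 1 := by
      rw [abs_le]
      constructor <;> linarith [p1.y0, p1.y1, p2.y0, p2.y1]
    have b2 : |(P'.u + P.u) / 2| ≤ 2 ^ C1.μ := by
      have := ab p1.u
      have := ab p2.u
      rw [abs_le]
      constructor <;> linarith
    have a1 := amul hS (amul b1 Y)
    have a2 := amul hS (amul b2 Uu)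
    have a3 : 1 * (2 ^ C1.μ * q2 C1.μ ^ 7) = q2 C1.μ ^ 6 := by
      calc _ = q2 C1.μ ^ 6 * (q2 C1.μ * 2 ^ C1.μ) := by ring
        _ = _ := by rw [hpη, mul_one]
    rw [a3] at a2
    have a4 := abs_add_le ((P'.Z - P.Z) + s * ((P'.y + P.y) / 2 * (P'.y - P.y))) (s * ((P'.u + P.u) / 2 * (P'.u - P.u)))
    have a5 := abs_add_le (P'.Z - P.Z) (s * ((P'.y + P.y) / 2 * (P'.y - P.y)))
    have a6 := qm (m := 2) (n := 8) (by norm_num)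
    have a7 := qm (m := 2) (n := 6) (by norm_num)
    have a8 : 0 < K ^ 7 * q2 C1.μ ^ 2 := by positivity
    linarith
  · show |(P'.g + s * P'.d) - (P.g + s * P.d)| ≤ _
    rw [show (P'.g + s * P'.d) - (P.g + s * P.d) = (P'.g - P.g) + s * (P'.d - P.d) by ring]
    have a1 := amul hS d0
    have a2 := abs_add_le (P'.g - P.g) (s * (P'.d - P.d))
    have a8 : 0 < K ^ 7 * q2 C1.μ ^ 2 := by positivity
    linarith
  · refine r0.trans ?_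
    have : K ^ 3 * q2 C1.μ ^ 5 ≤ K ^ 7 * q2 C1.μ ^ 2 := by
      have := Km (m := 3) (n := 7) (by norm_num)
      have := qm (m := 2) (n := 5) (by norm_num)
      gcongr
    have : 0 < K ^ 7 * q2 C1.μ ^ 2 := by positivity
    linarith
  · refine d0.trans ?_
    have a8 : 0 < K ^ 7 * q2 C1.μ ^ 2 := by positivity
    linarith
  · exact Y
  · refine Uu.trans ?_
    have a1 := qm (m := 4) (n := 7) (by norm_num)
    have a2 : q2 C1.μ ^ 4 ≤ K ^ 2 * q2 C1.μ ^ 4 := le_mul_of_one_le_left (by positivity) K1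
    have : 0 < K ^ 2 * q2 C1.μ ^ 4 := by positivity
    linarith

/-- kappa of `E` against the germ -/
theorem own_gk {ω : Ω} (hω : S ω) : |hK C1 C2 j i ω - gk C1 un κW αW j (C2.s i ω) ω| ≤ 2 * K ^ 5 * q2 C1.μ ^ 5 := by
  have h := X.link hω
  unfold hK gk
  rw [← mul_sub]
  refine scl (h.trans (le_of_eq ?_))
  ring

theorem own_near {ω ω' : Ω} (hω : S ω) (hω' : S ω') (hD : C1.cell j b ω' = C1.cell j b ω)
    (hE : C2.cell i b ω' = C2.cell i b ω) : |hK C1 C2 j i ω' - hK C1 C2 j i ω| ≤ 7 * K ^ 5 * q2 C1.μ ^ 5 := by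
  have h := X.TE_near hω hω' hD hE
  unfold hK
  rw [← mul_sub]
  refine scl (h.trans (le_of_eq ?_))
  ring

theorem gk_near {ω ω' : Ω} (hω : S ω) (hω' : S ω') (hD : C1.cell j b ω' = C1.cell j b ω)
    (hk : |κW ω' - κW ω| ≤ K * (q2 (C1.rk j) * q2 C1.μ ^ 5))
    (ha : |αW ω' - αW ω| * q2 (C1.a j) ≤ K * (q2 (C1.rk j) * q2 C1.μ ^ 5)) {t : ℝ}
    (ht : |t - C1.s j ω| ≤ q2 (C1.a j)) :
    |gk C1 un κW αW j t ω' - gk C1 un κW αW j t ω| ≤ 26 * K ^ 8 * q2 C1.μ ^ 5 ∧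
    |gal C1 un αW j ω' - gal C1 un αW j ω| ≤ 13 * K ^ 8 * q2 C1.μ ^ 5 := by
  obtain ⟨h1, h2⟩ := X.W_near hω hω' hD hk ha
  have hA := q2_pos (C1.a j)
  have hs : C1.s j ω' = C1.s j ω := (X.sameD hD).1
  constructor
  · unfold gk
    rw [hs, ← mul_sub]
    refine scl ?_
    have e : kap C1 un κW j ω' - (t - C1.s j ω) * alp C1 un αW j ω' - (kap C1 un κW j ω - (t - C1.s j ω) * alp C1 un αW j ω) =
      (kap C1 un κW j ω' - kap C1 un κW j ω) - (t - C1.s j ω) * (alp C1 un αW j ω' - alp C1 un αW j ω) := by ring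
    rw [e]
    have x1 := abs_sub (kap C1 un κW j ω' - kap C1 un κW j ω) ((t - C1.s j ω) * (alp C1 un αW j ω' - alp C1 un αW j ω))
    have x2 : |(t - C1.s j ω) * (alp C1 un αW j ω' - alp C1 un αW j ω)| ≤ 13 * K ^ 8 * (q2 (C1.rk j) * q2 C1.μ ^ 5) := by
      rw [abs_mul]
      calc _ ≤ q2 (C1.a j) * |alp C1 un αW j ω' - alp C1 un αW j ω| := mul_le_mul_of_nonneg_right ht (abs_nonneg _)
        _ = |alp C1 un αW j ω' - alp C1 un αW j ω| * q2 (C1.a j) := by ring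
        _ ≤ _ := h2
    linarith
  · unfold gal
    rw [← mul_sub]
    refine scl ?_
    rw [← mul_sub, abs_mul, abs_of_pos hA, mul_comm]
    refine h2.trans (le_of_eq ?_)
    ring

/-- bounds of the numbers -/
theorem k_le {ω : Ω} (hω : S ω) : |hK C1 C2 j i ω| ≤ 2 * K ^ 3 * 2 ^ ν ∧ |gal C1 un αW j ω| ≤ 2 * K ^ 3 := by
  have hA := q2_pos (C1.a j)
  constructor
  · unfold hK
    refine scl ((X.E_bd hω).2.2.trans (le_of_eq ?_))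
    ring
  · unfold gal
    refine scl ?_
    rw [abs_mul, abs_of_pos hA, mul_comm]
    exact (X.aW hω).1

theorem gk_le {ω : Ω} (hω : S ω) {t : ℝ} (ht : |t - C1.s j ω| ≤ q2 (C1.a j)) :
    |gk C1 un κW αW j t ω| ≤ 4 * K ^ 3 * 2 ^ ν := by
  have hA := q2_pos (C1.a j)
  have hk := q2_pos (C1.rk j)
  have hK := X.K1
  have hN : (1:ℝ) ≤ 2 ^ ν := one_le_pow₀ (by norm_num)
  unfold gk
  refine scl ?_
  have x1 := abs_sub (kap C1 un κW j ω) ((t - C1.s j ω) * alp C1 un αW j ω)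
  have x2 : |(t - C1.s j ω) * alp C1 un αW j ω| ≤ 2 * K ^ 3 * q2 (C1.rk j) := by
    rw [abs_mul]
    calc _ ≤ q2 (C1.a j) * |alp C1 un αW j ω| := mul_le_mul_of_nonneg_right ht (abs_nonneg _)
      _ = |alp C1 un αW j ω| * q2 (C1.a j) := by ring
      _ ≤ _ := (X.aW hω).1
  have x3 := (X.W_bd hω).2.2
  have x4 : 2 * K ^ 3 * q2 (C1.rk j) ≤ 2 * K ^ 3 * (q2 (C1.rk j) * 2 ^ ν) := by
    have := le_mul_of_one_le_right hk.le hN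
    gcongr
  have x5 : 4 * K ^ 3 * 2 ^ ν * q2 (C1.rk j) = 2 * (2 * K ^ 3 * (q2 (C1.rk j) * 2 ^ ν)) := by ring
  rw [x5]
  linarith

/-- two points in the same cell `D`: the times -/
theorem tt {ω ω' : Ω} (h : C1.cell j b ω' = C1.cell j b ω) : |C2.s i ω' - C2.s i ω| ≤ q2 (C1.a j) ∧
    |C2.s i ω' - C1.s j ω| ≤ q2 (C1.a j) := by
  have hs : C1.s j ω' = C1.s j ω := (X.sameD h).1
  have ha : C1.a j ≤ C2.a i := by have := X.aij; omega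
  have h1 : ∀ ω, C1.s j ω ≤ C2.s i ω ∧ C2.s i ω < C1.s j ω + q2 (C1.a j) := fun ω => by
    unfold Pth.s
    rw [X.t2]
    exact ⟨rd_mono ha _, (rd_le _ _).trans_lt (lt_rd _ _)⟩
  have h2 := h1 ω
  have h3 := h1 ω'
  rw [hs] at h3
  constructor
  · rw [abs_le]
    constructor <;> linarith
  · rw [abs_le]
    constructor <;> linarith

end LCtx

end Vale.Agent.P106.U.H466
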