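import Vale.Agent.P106.U.H466.Hei

/-!
# P106 / U / H466 : the chain of the type (ii) step and 572's `GeoR .. (RH ..)` (helper466)

* `StpH`, `tolH`, `LCtx.stpH` : the five relations of a chain.
* **`LCtx.geoH`** : `GeoR P D Θ W E e (RH XH MH Sf Tf ρ)` for arbitrary letters.
-/

set_option autoImplicit false

namespace Vale.Agent.P106.U.H466

open Vale.Agent.P127 Vale.Agent.P127.Stk Vale.Agent.P106.U.Cell
open Vale.Agent.P127.U.CellD (q2 rd Nb q2_pos q2_add q2_le rd_err rd_le lt_rd rd_mono q2_mul_pow fl1_fl1)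

variable {Ω τ₁ τ₂ : Type}

/-- error of a chain -/
noncomputable def eH (K : ℝ) (μ : ℕ) : ℝ := 620 * (K ^ 8 * q2 μ ^ 2)

/-- error of the letters -/
noncomputable def xH (K : ℝ) (μ ν : ℕ) (px : ℝ) : ℝ := px + K ^ 3 * (2 ^ ν * q2 μ ^ 2)

/-- bound of the numbers -/
noncomputable def LH (K : ℝ) (ν : ℕ) : ℝ := 4 * K ^ 3 * 2 ^ ν

/-- tolerance: `px` = precision of the letters -/
noncomputable def tolH (K : ℝ) (μ ν : ℕ) (px : ℝ) : ℝ := 400000 * K ^ 11 * (2 ^ ν) ^ 2 * (q2 (2 * μ) + px)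

theorem eH_pos {K : ℝ} (hK : 1 ≤ K) (μ : ℕ) : 0 < eH K μ := by
  have := q2_pos μ
  unfold eH
  positivity

theorem LH_one {K : ℝ} (hK : 1 ≤ K) (ν : ℕ) : 1 ≤ LH K ν := by
  have h1 : (1:ℝ) ≤ K ^ 3 := one_le_pow₀ hK
  have h2 : (1:ℝ) ≤ 2 ^ ν := one_le_pow₀ (by norm_num)
  unfold LH
  nlinarith

theorem LH_K3 {K : ℝ} (hK : 1 ≤ K) (ν : ℕ) : 4 * K ^ 3 ≤ LH K ν := by
  have h1 : (1:ℝ) ≤ K ^ 3 := one_le_pow₀ hK
  have h2 : (1:ℝ) ≤ 2 ^ ν := one_le_pow₀ (by norm_num)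
  unfold LH
  nlinarith

theorem small (K : ℝ) (hK : 1 ≤ K) (μ : ℕ) {c : ℝ} {m n : ℕ} (hc0 : 0 ≤ c) (hc : c ≤ 620) (hm : m ≤ 8) (hn : 2 ≤ n) :
    c * (K ^ m * q2 μ ^ n) ≤ eH K μ := by
  have hη := q2_pos μ
  have hη1 := q2_one μ
  have h1 : q2 μ ^ n ≤ q2 μ ^ 2 := pow_le_pow_of_le_one hη.le hη1 hn
  have h2 : K ^ m ≤ K ^ 8 := pow_le_pow_right₀ hK hm
  unfold eH
  gcongr

/-- the tolerance -/
theorem tol_le {K : ℝ} (hK : 1 ≤ K) (μ ν : ℕ) {px : ℝ} (hp : 0 ≤ px) :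
    114 * (LH K ν * eH K μ) + 4 * (LH K ν * xH K μ ν px) ≤ tolH K μ ν px := by
  have hη := q2_pos μ
  have hN : (1:ℝ) ≤ 2 ^ ν := one_le_pow₀ (by norm_num)
  have k3 : K ^ 3 ≤ K ^ 11 := pow_le_pow_right₀ hK (by norm_num)
  have k6 : K ^ 6 ≤ K ^ 11 := pow_le_pow_right₀ hK (by norm_num)
  have n2 : (2:ℝ) ^ ν ≤ (2 ^ ν) ^ 2 := by
    rw [sq]
    exact le_mul_of_one_le_left (by positivity) hN
  have v1 : LH K ν * eH K μ = 2480 * (K ^ 11 * 2 ^ ν * q2 μ ^ 2) := by unfold LH eH; ring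
  have v1' : K ^ 11 * 2 ^ ν * q2 μ ^ 2 ≤ K ^ 11 * (2 ^ ν) ^ 2 * q2 μ ^ 2 := by gcongr
  have v2 : LH K ν * xH K μ ν px = 4 * (K ^ 3 * 2 ^ ν * px) + 4 * (K ^ 6 * (2 ^ ν) ^ 2 * q2 μ ^ 2) := by
    unfold LH xH
    ring
  have v3 : K ^ 3 * 2 ^ ν * px ≤ K ^ 11 * (2 ^ ν) ^ 2 * px := by gcongr
  have v4 : K ^ 6 * (2 ^ ν) ^ 2 * q2 μ ^ 2 ≤ K ^ 11 * (2 ^ ν) ^ 2 * q2 μ ^ 2 := by gcongr
  have v5 : tolH K μ ν px = 400000 * (K ^ 11 * (2 ^ ν) ^ 2 * q2 μ ^ 2) + 400000 * (K ^ 11 * (2 ^ ν) ^ 2 * px) := by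
    unfold tolH
    rw [q2_mul]
    ring
  have v6 : 0 ≤ K ^ 11 * (2 ^ ν) ^ 2 * px := by positivity
  have v7 : 0 ≤ K ^ 11 * (2 ^ ν) ^ 2 * q2 μ ^ 2 := by positivity
  rw [v1, v2, v5]
  linarith

theorem EStep.mono {k k' eV eu e δ : ℝ} {q q' : Pt} (h : EStep k e eV eu q q') (hk : |k - k'| ≤ δ) (hδ : 0 ≤ δ)
    (hy : |q'.y - q.y| ≤ 1) {e' : ℝ} (he : e + δ ≤ e') : EStep k' e' eV eu q q' := by
  have := h.chg hk hδ hy
  exact ⟨this.V, this.Z.trans he, this.g.trans he, this.r.trans he, this.d.trans he, this.u⟩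

theorem WStep.mono {eV ey eu e : ℝ} {q q' : Pt} (h : WStep e eV ey eu q q') {e' : ℝ} (he : e ≤ e') :
    WStep e' eV ey eu q q' :=
  ⟨h.V, h.Z.trans he, h.g.trans he, h.r.trans he, h.d.trans he, h.y, h.u⟩

/-- the same fine letter -/
structure WR (C1 : Pth Ω τ₁) (κW αW : Ω → ℝ) (K : ℝ) (j bV : ℕ) (ω ω' : Ω) : Prop where
  c : C1.cell j bV ω' = C1.cell j bV ω
  k : |κW ω' - κW ω| ≤ K * (q2 (C1.rk j) * q2 C1.μ ^ 5)
  a : |αW ω' - αW ω| * q2 (C1.a j) ≤ K * (q2 (C1.rk j) * q2 C1.μ ^ 5)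

namespace LCtx

variable {C1 : Pth Ω τ₁} {C2 : Pth Ω τ₂} {un κW αW : Ω → ℝ} {S : Ω → Prop} {K : ℝ} {j i b bb bV ν : ℕ}
  (X : LCtx C1 C2 un κW αW S K j i b bb bV ν)
include X

theorem e1' : 2 * K ^ 5 * q2 C1.μ ^ 5 + 600 * K ^ 7 * q2 C1.μ ^ 2 ≤ eH K C1.μ := by
  have h := small K X.K1 C1.μ (c := 2) (m := 5) (n := 5) (by norm_num) (by norm_num) (by norm_num) (by norm_num)
  have hη := q2_pos C1.μ
  have hη1 := q2_one C1.μ
  have hK := X.K1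
  have h1 : q2 C1.μ ^ 5 ≤ q2 C1.μ ^ 2 := pow_le_pow_of_le_one hη.le hη1 (by norm_num)
  have h2 : K ^ 5 ≤ K ^ 8 := pow_le_pow_right₀ hK (by norm_num)
  have h3 : K ^ 5 * q2 C1.μ ^ 5 ≤ K ^ 8 * q2 C1.μ ^ 2 := by gcongr
  have h4 : 0 < K ^ 8 * q2 C1.μ ^ 2 := by positivity
  have h5 : K ^ 7 * q2 C1.μ ^ 2 ≤ K ^ 8 * q2 C1.μ ^ 2 := by
    have : K ^ 7 ≤ K ^ 8 := pow_le_pow_right₀ hK (by norm_num)
    gcongr
  unfold eH
  linarith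

theorem e5 {c : ℝ} (hc0 : 0 ≤ c) (hc : c ≤ 620) : c * K ^ 5 * q2 C1.μ ^ 5 ≤ eH K C1.μ := by
  have := small K X.K1 C1.μ (c := c) (m := 5) (n := 5) hc0 hc (by norm_num) (by norm_num)
  rwa [← mul_assoc] at this

/-- first late step -/
theorem hE1 {dr : Ω → Ω} (hdr : Rep S (C1.cell j b) dr) {ω ω' : Ω} (hω : S ω) (hω' : S ω')
    (hD : C1.cell j b ω' = C1.cell j b ω) (hE : C2.cell i b ω' = C2.cell i b ω) :
    HEStep (eH K C1.μ) (2 * q2 C1.μ ^ 7) (20 * K ^ 2 * q2 C1.μ ^ 4) (pt C1 j j b dr (C2.s i ω) ω)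
      (pt C1 j j b dr (C2.s i ω) ω') (H466.hK C1 C2 j i ω) (gk C1 un κW αW j (C2.s i ω) ω') := by
  have hs : C2.s i ω' = C2.s i ω := (same_T C2 (congrArg Prod.fst hE)).1
  have hp : 0 < K ^ 5 * q2 C1.μ ^ 5 := by
    have := q2_pos C1.μ
    have := X.K1
    positivity
  refine ⟨(X.estep hdr hω hω' hD hE).mono (k' := H466.hK C1 C2 j i ω) (δ := 2 * K ^ 5 * q2 C1.μ ^ 5)
    (by rw [sub_self, abs_zero]; linarith) (by linarith) (X.dy hdr _ hω hω') (by linarith [X.e1']), ?_⟩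
  have o := X.own_gk hω'
  have nr := X.own_near hω hω' hD hE
  rw [hs, abs_sub_comm] at o
  have h9 := X.e5 (c := 9) (by norm_num) (by norm_num)
  have := abs_sub_le (gk C1 un κW αW j (C2.s i ω) ω') (H466.hK C1 C2 j i ω') (H466.hK C1 C2 j i ω)
  linarith

/-- second late step -/
theorem hE2 {dr : Ω → Ω} (hdr : Rep S (C1.cell j b) dr) {ω ω' : Ω} (hω : S ω) (hω' : S ω')
    (hD : C1.cell j b ω' = C1.cell j b ω) (hE : C2.cell i b ω' = C2.cell i b ω) :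
    HEStep (eH K C1.μ) (2 * q2 C1.μ ^ 7) (20 * K ^ 2 * q2 C1.μ ^ 4) (pt C1 j j b dr (C2.s i ω) ω)
      (pt C1 j j b dr (C2.s i ω) ω') (gk C1 un κW αW j (C2.s i ω) ω) (gk C1 un κW αW j (C2.s i ω) ω') := by
  have hs : C2.s i ω' = C2.s i ω := (same_T C2 (congrArg Prod.fst hE)).1
  have o := X.own_gk hω
  have o' := X.own_gk hω'
  have hp : 0 < K ^ 5 * q2 C1.μ ^ 5 := by
    have := q2_pos C1.μ
    have := X.K1
    positivity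
  refine ⟨(X.estep hdr hω hω' hD hE).mono o (by linarith) (X.dy hdr _ hω hω') (by linarith [X.e1']), ?_⟩
  have nr := X.own_near hω hω' hD hE
  rw [hs, abs_sub_comm] at o'
  have h9 := X.e5 (c := 11) (by norm_num) (by norm_num)
  have := abs_sub_le (gk C1 un κW αW j (C2.s i ω) ω') (H466.hK C1 C2 j i ω') (gk C1 un κW αW j (C2.s i ω) ω)
  have := abs_sub_le (H466.hK C1 C2 j i ω') (H466.hK C1 C2 j i ω) (gk C1 un κW αW j (C2.s i ω) ω)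
  linarith

/-- third late step -/
theorem hE3 {dr : Ω → Ω} (hdr : Rep S (C1.cell j b) dr) {ω ω' : Ω} (hω : S ω) (hω' : S ω')
    (hD : C1.cell j b ω' = C1.cell j b ω) (hE : C2.cell i b ω' = C2.cell i b ω) :
    HEStep (eH K C1.μ) (2 * q2 C1.μ ^ 7) (20 * K ^ 2 * q2 C1.μ ^ 4) (pt C1 j j b dr (C2.s i ω) ω)
      (pt C1 j j b dr (C2.s i ω) ω') (gk C1 un κW αW j (C2.s i ω) ω) (H466.hK C1 C2 j i ω') := by
  have o := X.own_gk hω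
  have hp : 0 < K ^ 5 * q2 C1.μ ^ 5 := by
    have := q2_pos C1.μ
    have := X.K1
    positivity
  refine ⟨(X.estep hdr hω hω' hD hE).mono o (by linarith) (X.dy hdr _ hω hω') (by linarith [X.e1']), ?_⟩
  have nr := X.own_near hω hω' hD hE
  have h9 := X.e5 (c := 9) (by norm_num) (by norm_num)
  have := abs_sub_le (H466.hK C1 C2 j i ω') (H466.hK C1 C2 j i ω) (gk C1 un κW αW j (C2.s i ω) ω)
  linarith

/-- fine step -/
theorem hW {dr : Ω → Ω} (hdr : Rep S (C1.cell j b) dr) {ω ω' : Ω} (hω : S ω) (hω' : S ω')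
    (hD : C1.cell j b ω' = C1.cell j b ω) (hW : C1.cell j bV ω' = C1.cell j bV ω)
    (hk : |κW ω' - κW ω| ≤ K * (q2 (C1.rk j) * q2 C1.μ ^ 5))
    (ha : |αW ω' - αW ω| * q2 (C1.a j) ≤ K * (q2 (C1.rk j) * q2 C1.μ ^ 5)) {t : ℝ}
    (ht : |t - C1.s j ω| ≤ q2 (C1.a j)) :
    HWStep (eH K C1.μ) (2 * q2 C1.μ ^ 7) (q2 C1.μ ^ 8) (20 * K ^ 2 * q2 C1.μ ^ 4)
      (pt C1 j j b dr t ω) (pt C1 j j b dr t ω') (gk C1 un κW αW j t ω) (gk C1 un κW αW j t ω') (gal C1 un αW j ω)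
      (gal C1 un αW j ω') := by
  obtain ⟨g1, g2⟩ := X.gk_near hω hω' hD hk ha ht
  have h8 := small K X.K1 C1.μ (c := 26) (m := 8) (n := 5) (by norm_num) (by norm_num) (by norm_num) (by norm_num)
  have h4 := small K X.K1 C1.μ (c := 13) (m := 8) (n := 5) (by norm_num) (by norm_num) (by norm_num) (by norm_num)
  rw [← mul_assoc] at h8 h4
  have h6 := X.e1'
  have hp : 0 < K ^ 5 * q2 C1.μ ^ 5 := by
    have := q2_pos C1.μ
    have := X.K1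
    positivity
  exact ⟨(X.wstep hdr hω hω' hD hW ht).mono (by linarith), g1.trans h8, g2.trans h4⟩

/-- curvature of a letter -/
theorem al_near {ω : Ω} (hω : S ω) {x px : ℝ} (px1 : px ≤ 1)
    (hy : |2 ^ C1.rk j * (q2 (C1.a j) * (αW ω - (C1.F j ω).al)) - x| ≤ px) :
    |gal C1 un αW j ω - x| ≤ xH K C1.μ ν px ∧ |x| ≤ LH K ν := by
  have ok := X.ok ω hω
  have hk := q2_pos (C1.rk j)
  have hA := q2_pos (C1.a j)
  have hK := X.K1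
  have hη := q2_pos C1.μ
  have hN : (1:ℝ) ≤ 2 ^ ν := one_le_pow₀ (by norm_num)
  set y := 2 ^ C1.rk j * (q2 (C1.a j) * (αW ω - (C1.F j ω).al)) with hydef
  constructor
  · have e' : gal C1 un αW j ω - y = 2 ^ C1.rk j * (-(((1 - rW C1 un j ω) * αW ω) * q2 (C1.a j))) := by
      rw [hydef]
      unfold gal alp
      ring
    have h1 : |gal C1 un αW j ω - y| ≤ K ^ 3 * (2 ^ ν * q2 C1.μ ^ 2) := by
      rw [e']
      refine scl ?_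
      rw [abs_neg, abs_mul, abs_of_pos hA, abs_mul, mul_assoc]
      calc _ ≤ (K ^ 2 * (q2 (C1.rk j) * 2 ^ ν)) * (K * q2 C1.μ ^ 2) :=
            mul_le_mul (X.W_bd hω).2.1 ok.w0 (by positivity) (by positivity)
        _ = _ := by ring
    have := abs_add_le (gal C1 un αW j ω - y) (y - x)
    rw [sub_add_sub_cancel] at this
    unfold xH
    linarith
  · have h1 : |y| ≤ K := by
      refine scl ?_
      rw [abs_mul, abs_of_pos hA, mul_comm]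
      exact ok.wa
    have h2 := abs_sub y (y - x)
    rw [sub_sub_cancel] at h2
    have h3 := LH_K3 hK ν
    have h4 : K ≤ K ^ 3 := by
      calc K = K ^ 1 := (pow_one K).symm
        _ ≤ K ^ 3 := pow_le_pow_right₀ hK (by norm_num)
    linarith

/-- the numbers `R eV`, `R ey`, `U eu` -/
theorem prods : 13 * K ^ 3 * (2 ^ C1.μ) ^ 3 * (2 * q2 C1.μ ^ 7) ≤ eH K C1.μ ∧
    13 * K ^ 3 * (2 ^ C1.μ) ^ 3 * q2 C1.μ ^ 8 ≤ eH K C1.μ ∧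
    2 ^ C1.μ * (20 * K ^ 2 * q2 C1.μ ^ 4) ≤ eH K C1.μ := by
  have hpη := pη C1.μ
  have hη := q2_pos C1.μ
  have hK := X.K1
  refine ⟨?_, ?_, ?_⟩
  · calc 13 * K ^ 3 * (2 ^ C1.μ) ^ 3 * (2 * q2 C1.μ ^ 7) = 26 * K ^ 3 * q2 C1.μ ^ 4 * (q2 C1.μ * 2 ^ C1.μ) ^ 3 := by
          ring
      _ = 26 * (K ^ 3 * q2 C1.μ ^ 4) := by rw [hpη]; ring
      _ ≤ _ := small K hK C1.μ (by norm_num) (by norm_num) (by norm_num) (by norm_num)
  · calc 13 * K ^ 3 * (2 ^ C1.μ) ^ 3 * q2 C1.μ ^ 8 = 13 * K ^ 3 * q2 C1.μ ^ 5 * (q2 C1.μ * 2 ^ C1.μ) ^ 3 := by ring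
      _ = 13 * (K ^ 3 * q2 C1.μ ^ 5) := by rw [hpη]; ring
      _ ≤ _ := small K hK C1.μ (by norm_num) (by norm_num) (by norm_num) (by norm_num)
  · calc 2 ^ C1.μ * (20 * K ^ 2 * q2 C1.μ ^ 4) = 20 * K ^ 2 * q2 C1.μ ^ 3 * (q2 C1.μ * 2 ^ C1.μ) := by ring
      _ = 20 * (K ^ 2 * q2 C1.μ ^ 3) := by rw [hpη]; ring
      _ ≤ _ := small K hK C1.μ (by norm_num) (by norm_num) (by norm_num) (by norm_num)

/-- **the chain** -/
theorem chn {dr : Ω → Ω} (hdr : Rep S (C1.cell j b) dr)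
    {a a₁ a₂ a₃ a₄ c : Ω} (pa : S a) (p1 : S a₁) (p2 : S a₂) (p3 : S a₃) (p4 : S a₄) (pc : S c)
    (d1 : C1.cell j b a₁ = C1.cell j b a) (d2 : C1.cell j b a₂ = C1.cell j b a) (d3 : C1.cell j b a₃ = C1.cell j b a)
    (d4 : C1.cell j b a₄ = C1.cell j b a) (dc : C1.cell j b c = C1.cell j b a) (t4 : C2.s i a₄ = C2.s i a)
    (e1 : C2.cell i b a = C2.cell i b a₁) (w1 : WR C1 κW αW K j bV a₁ a₂)
    (e2 : C2.cell i b a₂ = C2.cell i b a₃) (w2 : WR C1 κW αW K j bV a₃ a₄)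
    (e3 : C2.cell i b a₄ = C2.cell i b c) {x x' : ℝ × ℝ} {px : ℝ} (px1 : px ≤ 1)
    (x0 : 0 ≤ x.1 ∧ x.1 ≤ 1) (x0' : 0 ≤ x'.1 ∧ x'.1 ≤ 1)
    (hx : |2 ^ b * ((C1.l a₂).v - vb C1 b a₂) - x.1| ≤ px) (hx' : |2 ^ b * ((C1.l a₃).v - vb C1 b a₃) - x'.1| ≤ px)
    (hy : |2 ^ C1.rk j * (q2 (C1.a j) * (αW a₂ - (C1.F j a₂).al)) - x.2| ≤ px)
    (hy' : |2 ^ C1.rk j * (q2 (C1.a j) * (αW a₃ - (C1.F j a₃).al)) - x'.2| ≤ px) :
    HChain (2 ^ C1.a j * (C2.s i a₂ - C2.s i a)) (2 ^ b * vb C1 b a₂) (cc C1 b a₂) (eH K C1.μ) (2 * q2 C1.μ ^ 7)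
      (q2 C1.μ ^ 8) (20 * K ^ 2 * q2 C1.μ ^ 4) (xH K C1.μ ν px) (13 * K ^ 3 * (2 ^ C1.μ) ^ 3) (2 ^ C1.μ) (LH K ν)
      x.1 x'.1 x.2 x'.2
      (pt C1 j j b dr (C2.s i a) a) (pt C1 j j b dr (C2.s i a) a₁) (pt C1 j j b dr (C2.s i a) a₂)
      (pt C1 j j b dr (C2.s i a) a₃) (pt C1 j j b dr (C2.s i a) a₄) (pt C1 j j b dr (C2.s i a) c)
      (H466.hK C1 C2 j i a) (gk C1 un κW αW j (C2.s i a) a₁) (gk C1 un κW αW j (C2.s i a) a₂) (gk C1 un κW αW j (C2.s i a) a₃)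
      (gk C1 un κW αW j (C2.s i a) a₄) (H466.hK C1 C2 j i c) (gal C1 un αW j a₁) (gal C1 un αW j a₂) (gal C1 un αW j a₃)
      (gal C1 un αW j a₄) := by
  have hK := X.K1
  have hη := q2_pos C1.μ
  have hη1 := q2_one C1.μ
  have hN : (1:ℝ) ≤ 2 ^ ν := one_le_pow₀ (by norm_num)
  have M1 : (1:ℝ) ≤ 2 ^ C1.μ := one_le_pow₀ (by norm_num)
  have hpx0 : 0 ≤ px := (abs_nonneg _).trans hx
  have hxx : px ≤ xH K C1.μ ν px := by
    unfold xH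
    have : 0 < K ^ 3 * (2 ^ ν * q2 C1.μ ^ 2) := by positivity
    linarith
  have j1 : C1.s j a₁ = C1.s j a := (X.sameD d1).1
  have j2 : C1.s j a₂ = C1.s j a := (X.sameD d2).1
  have j3 : C1.s j a₃ = C1.s j a := (X.sameD d3).1
  have u1 := (X.tt (ω := a) (ω' := a) rfl).2
  have m2 := pt_mv C1 j j b dr (C2.s i a) (C2.s i a₂) a₂
  have m3 := pt_mv C1 j j b dr (C2.s i a) (C2.s i a₂) a₃
  rw [vcell C1 (d3.trans d2.symm), cccell C1 (d3.trans d2.symm)] at m3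
  have g2 := gk_mv C1 un κW αW j (C2.s i a) (C2.s i a₂) a₂
  have g3 := gk_mv C1 un κW αW j (C2.s i a) (C2.s i a₂) a₃
  have E2 := X.hE2 hdr p2 p3 (d3.trans d2.symm) e2.symm
  rw [m2, m3, g2, g3] at E2
  have E3 := X.hE3 hdr p4 pc (dc.trans d4.symm) e3.symm
  rw [t4] at E3
  obtain ⟨q1, q2', q3⟩ := X.prods
  obtain ⟨y2, y2'⟩ := X.al_near p2 px1 hy
  obtain ⟨y3, y3'⟩ := X.al_near p3 px1 hy'
  have L2 := LH_K3 hK ν
  have K3 : (1:ℝ) ≤ K ^ 3 := one_le_pow₀ hK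
  have L3 : 2 * K ^ 3 ≤ LH K ν := by linarith
  have L4 : 2 * K ^ 3 * 2 ^ ν ≤ LH K ν := by
    unfold LH
    have : 0 < K ^ 3 * 2 ^ ν := by positivity
    linarith
  have hR : 1 ≤ 13 * K ^ 3 * (2 ^ C1.μ) ^ 3 := by
    have h1 : (1:ℝ) ≤ (2 ^ C1.μ) ^ 3 := one_le_pow₀ M1
    have h2 : 1 ≤ K ^ 3 * (2 ^ C1.μ) ^ 3 := one_le_mul_of_one_le_of_one_le K3 h1
    linarith
  have hη7 : q2 C1.μ ^ 7 ≤ 1 := pow_le_one₀ hη.le hη1
  exact
    { E1 := X.hE1 hdr pa p1 d1 e1.symm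
      W1 := X.hW hdr p1 p2 (d2.trans d1.symm) w1.c w1.k w1.a (by rw [j1]; exact u1)
      E2 := E2
      W2 := X.hW hdr p3 p4 (d4.trans d3.symm) w2.c w2.k w2.a (by rw [j3]; exact u1)
      E3 := E3
      ba := X.bd hdr _ pa
      b1 := X.bd hdr _ p1
      b2 := X.bd hdr _ p2
      b3 := X.bd hdr _ p3
      b4 := X.bd hdr _ p4
      bb := X.bd hdr _ pc
      S1 := scl (by rw [one_mul]; exact (X.tt d2).1)
      t1 := (X.k_le pa).1.trans L4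
      t1' := X.gk_le p1 (by rw [j1]; exact u1)
      t2 := X.gk_le p2 (by rw [j2]; exact u1)
      t3 := X.gk_le p3 (by rw [j3]; exact u1)
      tb := (X.k_le pc).1.trans L4
      l2 := (X.k_le p2).2.trans L3
      l3 := (X.k_le p3).2.trans L3
      la := y2'
      la' := y3'
      L1 := LH_one hK ν
      R1 := hR
      U1 := M1
      RV := q1
      Ry := q2'
      Uu := q3
      eV2 := by linarith
      x0 := x0
      x1 := x0'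
      x := hx.trans hxx
      x' := hx'.trans hxx
      al := y2
      al' := y3 }

end LCtx

end Vale.Agent.P106.U.H466
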