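import Vale.Agent.P106.U.H466.HeiC

/-!
# P106 / U / H466 : THE ADAPTER for the steps with hidden curvature (helper466)

* `StpH`, `LCtx.stpH` : the five relations of a chain at the state `hV, hZ, hP, hK, hG`.
* `XH`, `MH` : the state in the units `σ`;  **`LCtx.geoH`** : `GeoR P D Θ W E e (RH XH MH Sf Tf ρ)` for arbitrary letters.
-/

set_option autoImplicit false

namespace Vale.Agent.P106.U.H466

open Vale.Agent.P127 Vale.Agent.P127.Stk Vale.Agent.P106.U.Cell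
open Vale.Agent.P127.U.CellD (q2 rd Nb q2_pos q2_add q2_le rd_err rd_le lt_rd rd_mono q2_mul_pow fl1_fl1)

variable {Ω τ₁ τ₂ : Type}

/-- the relations of a chain, letters `x = (direction, curvature)` -/
structure StpH (C1 : Pth Ω τ₁) (C2 : Pth Ω τ₂) (j i b : ℕ) (dr : Ω → Ω) (s : ℝ) (x x' : ℝ × ℝ) (ρ : ℝ)
    (a c : Ω) : Prop where
  V : |hV C1 C2 j i b c - hV C1 C2 j i b a - s * (x.1 - x'.1)| ≤ ρ
  Z : |hZ C1 C2 j i b c - hZ C1 C2 j i b a - s * (x.1 ^ 2 - x'.1 ^ 2) / 2| ≤ ρ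
  P : |hP C1 C2 j i b dr c - hP C1 C2 j i b dr a - s * (x.2 * x.1 - x'.2 * x'.1)| ≤ ρ
  K : |hK C1 C2 j i c - hK C1 C2 j i a - -(s * (x.2 - x'.2))| ≤ ρ
  G : |hG C1 C2 j i b dr c - hG C1 C2 j i b dr a - hP C1 C2 j i b dr a * (hV C1 C2 j i b c - hV C1 C2 j i b a) -
    hK C1 C2 j i a * (hZ C1 C2 j i b c - hZ C1 C2 j i b a) - s ^ 2 * x.2 * (x.1 - x'.1) ^ 2 / 2| ≤ ρ

namespace LCtx

variable {C1 : Pth Ω τ₁} {C2 : Pth Ω τ₂} {un κW αW : Ω → ℝ} {S : Ω → Prop} {K : ℝ} {j i b bb bV ν : ℕ}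
  (X : LCtx C1 C2 un κW αW S K j i b bb bV ν)
include X

/-- the slope of the state against the slope of the point -/
theorem hPP {dr : Ω → Ω} (hdr : Rep S (C1.cell j b) dr) {ω : Ω} (hω : S ω) :
    |hP C1 C2 j i b dr ω - phi (pt C1 j j b dr (C2.s i ω) ω) (H466.hK C1 C2 j i ω)| ≤ eH K C1.μ := by
  have hη := q2_pos C1.μ
  have hpη := pη C1.μ
  have hK := X.K1
  have h2 : |C1.p ω| ≤ q2 C1.μ ^ 4 := by
    have := (X.ok ω hω).p1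
    rwa [q2_mul] at this
  rw [hP_eq, sub_sub_cancel_left, abs_neg]
  have h3 : (2:ℝ) ^ ν ≤ 2 ^ C1.μ := X.NM
  refine (amul (amul h2 (X.k_le hω).1) (X.bd hdr _ hω).u).trans ?_
  calc q2 C1.μ ^ 4 * (2 * K ^ 3 * 2 ^ ν) * 2 ^ C1.μ ≤ q2 C1.μ ^ 4 * (2 * K ^ 3 * 2 ^ C1.μ) * 2 ^ C1.μ := by gcongr
    _ = 2 * (K ^ 3 * q2 C1.μ ^ 2) * (q2 C1.μ * 2 ^ C1.μ) ^ 2 := by ring
    _ = 2 * (K ^ 3 * q2 C1.μ ^ 2) := by rw [hpη]; ring
    _ ≤ _ := small K hK C1.μ (by norm_num) (by norm_num) (by norm_num) (by norm_num)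

/-- **one chain** -/
theorem stpH {dr : Ω → Ω} (hdr : Rep S (C1.cell j b) dr)
    {a a₁ a₂ a₃ a₄ c : Ω} (pa : S a) (p1 : S a₁) (p2 : S a₂) (p3 : S a₃) (p4 : S a₄) (pc : S c)
    (d1 : C1.cell j b a₁ = C1.cell j b a) (d2 : C1.cell j b a₂ = C1.cell j b a) (d3 : C1.cell j b a₃ = C1.cell j b a)
    (d4 : C1.cell j b a₄ = C1.cell j b a) (dc : C1.cell j b c = C1.cell j b a) (t4 : C2.s i a₄ = C2.s i a)
    (e1 : C2.cell i b a = C2.cell i b a₁) (w1 : WR C1 κW αW K j bV a₁ a₂)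
    (e2 : C2.cell i b a₂ = C2.cell i b a₃) (w2 : WR C1 κW αW K j bV a₃ a₄)
    (e3 : C2.cell i b a₄ = C2.cell i b c) {x x' : ℝ × ℝ} {px : ℝ} (px1 : px ≤ 1)
    (x0 : 0 ≤ x.1 ∧ x.1 ≤ 1) (x0' : 0 ≤ x'.1 ∧ x'.1 ≤ 1)
    (hx : |2 ^ b * ((C1.l a₂).v - vb C1 b a₂) - x.1| ≤ px) (hx' : |2 ^ b * ((C1.l a₃).v - vb C1 b a₃) - x'.1| ≤ px)
    (hy : |2 ^ C1.rk j * (q2 (C1.a j) * (αW a₂ - (C1.F j a₂).al)) - x.2| ≤ px)
    (hy' : |2 ^ C1.rk j * (q2 (C1.a j) * (αW a₃ - (C1.F j a₃).al)) - x'.2| ≤ px) :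
    StpH C1 C2 j i b dr (2 ^ C1.a j * (C2.s i a₂ - C2.s i a)) x x' (tolH K C1.μ ν px) a c := by
  have ch := X.chn hdr pa p1 p2 p3 p4 pc d1 d2 d3 d4 dc t4 e1 w1 e2 w2 e3 px1 x0 x0' hx hx' hy hy'
  have hpx0 : 0 ≤ px := (abs_nonneg _).trans hx
  have tol := tol_le X.K1 C1.μ ν hpx0
  have sc : C2.s i c = C2.s i a := by rw [(same_T C2 (congrArg Prod.fst e3.symm)).1, t4]
  have hfa := X.hPP hdr pa
  have hfc := X.hPP hdr pc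
  rw [sc] at hfc
  have Le := ch.Le
  have Lx := ch.Lex
  have he := ch.e0
  have hx0 := ch.ex0
  have cV := ch.V
  have cZ := ch.Z
  have cK := ch.K
  have cP := ch.Phi
  have cG := ch.G hfa
  refine ⟨?_, ?_, ?_, ?_, ?_⟩
  · show |2 ^ (C1.a j + b) * (C1.l c).X (C2.s i c) - 2 ^ (C1.a j + b) * (C1.l a).X (C2.s i a) - _| ≤ _
    rw [sc]
    refine cV.trans ?_
    linarith
  · show |2 ^ (C1.a j + 2 * b) * C1.Zs b (C2.s i c) c - 2 ^ (C1.a j + 2 * b) * C1.Zs b (C2.s i a) a - _| ≤ _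
    rw [sc]
    refine cZ.trans ?_
    linarith
  · have h1 := ab cP
    have h2 := ab hfa
    have h3 := ab hfc
    rw [abs_le]
    constructor <;> linarith
  · refine cK.trans ?_
    linarith
  · have e0 : hV C1 C2 j i b c - hV C1 C2 j i b a =
        (pt C1 j j b dr (C2.s i a) c).V - (pt C1 j j b dr (C2.s i a) a).V := by
      show 2 ^ (C1.a j + b) * (C1.l c).X (C2.s i c) - 2 ^ (C1.a j + b) * (C1.l a).X (C2.s i a) = _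
      rw [sc]
      rfl
    have e1 : hZ C1 C2 j i b c - hZ C1 C2 j i b a =
        (pt C1 j j b dr (C2.s i a) c).Z - (pt C1 j j b dr (C2.s i a) a).Z := by
      show 2 ^ (C1.a j + 2 * b) * C1.Zs b (C2.s i c) c - 2 ^ (C1.a j + 2 * b) * C1.Zs b (C2.s i a) a = _
      rw [sc]
      rfl
    have e2 : hG C1 C2 j i b dr c - hG C1 C2 j i b dr a =
        (pt C1 j j b dr (C2.s i a) c).g - (pt C1 j j b dr (C2.s i a) a).g := by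
      show 2 ^ (C1.a j + C1.rk j + 2 * b) * (G0 C1 j dr (C2.s i c) c).g (C1.l c) (C2.s i c) -
        2 ^ (C1.a j + C1.rk j + 2 * b) * (G0 C1 j dr (C2.s i a) a).g (C1.l a) (C2.s i a) = _
      rw [sc]
      rfl
    rw [e0, e1, e2]
    refine cG.trans ?_
    linarith

end LCtx

/-- the state in the units `σ` -/
noncomputable def XH (C1 : Pth Ω τ₁) (C2 : Pth Ω τ₂) (σ : ℝ) (j i b : ℕ) (dr : Ω → Ω) (ω : Ω) : Fin 4 → ℝ :=
  ![hV C1 C2 j i b ω, hZ C1 C2 j i b ω, σ * hP C1 C2 j i b dr ω, σ * hK C1 C2 j i ω]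

/-- the value in the units `σ` -/
noncomputable def MH (C1 : Pth Ω τ₁) (C2 : Pth Ω τ₂) (σ : ℝ) (j i b : ℕ) (dr : Ω → Ω) (ω : Ω) : ℝ :=
  σ * hG C1 C2 j i b dr ω

theorem scal {σ x ρ : ℝ} (hσ : 1 ≤ σ) (h : |x| ≤ ρ) : |σ * x| ≤ σ * ρ := by
  rw [abs_mul, abs_of_pos (by linarith)]
  exact mul_le_mul_of_nonneg_left h (by linarith)

/-- **THE ADAPTER**: arbitrary letters -/
theorem LCtx.geoH [Fintype Ω] {C1 : Pth Ω τ₁} {C2 : Pth Ω τ₂} {un κW αW : Ω → ℝ} {K : ℝ} {j i b bb bV ν : ℕ}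
    (P : Law Ω) (X : LCtx C1 C2 un κW αW (fun ω => 0 < P.w ω) K j i b bb bV ν)
    {dr : Ω → Ω} (hdr : Rep (fun ω => 0 < P.w ω) (C1.cell j b) dr)
    {A T B G : Type*} {D : Ω → A} {Θ : Ω → T} {W : Ω → B} {E : Ω → G}
    (hD : ∀ ω ω', 0 < P.w ω → 0 < P.w ω' → D ω' = D ω → C1.cell j b ω' = C1.cell j b ω)
    (hΘ : ∀ ω ω', 0 < P.w ω → 0 < P.w ω' → Θ ω' = Θ ω → C2.s i ω' = C2.s i ω)
    (hE : ∀ ω ω', 0 < P.w ω → 0 < P.w ω' → E ω' = E ω → C2.cell i b ω' = C2.cell i b ω)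
    (hW : ∀ ω ω', 0 < P.w ω → 0 < P.w ω' → W ω' = W ω → WR C1 κW αW K j bV ω ω')
    {e : A → B → ℝ × ℝ} {σ px : ℝ} (hσ : 1 ≤ σ) (px1 : px ≤ 1)
    (he : ∀ ω, 0 < P.w ω → 0 ≤ (e (D ω) (W ω)).1 ∧ (e (D ω) (W ω)).1 ≤ 1)
    (hx : ∀ ω, 0 < P.w ω → |2 ^ b * ((C1.l ω).v - vb C1 b ω) - (e (D ω) (W ω)).1| ≤ px)
    (hy : ∀ ω, 0 < P.w ω →
      |σ * (2 ^ C1.rk j * (q2 (C1.a j) * (αW ω - (C1.F j ω).al))) - (e (D ω) (W ω)).2| ≤ σ * px)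
    {Sf Tf : A → T → T → ℝ}
    (hS : ∀ ω ω', 0 < P.w ω → 0 < P.w ω' → D ω' = D ω →
      Sf (D ω) (Θ ω) (Θ ω') = 2 ^ C1.a j * (C2.s i ω' - C2.s i ω))
    (hT : ∀ ω ω', 0 < P.w ω → 0 < P.w ω' → D ω' = D ω → Tf (D ω) (Θ ω) (Θ ω') = 0) :
    Vale.Agent.P106.TV.GeoR P D Θ W E e
      (H572.RH (XH C1 C2 σ j i b dr) (MH C1 C2 σ j i b dr) Sf Tf (σ * tolH K C1.μ ν px)) := by
  intro a a₁ a₂ a₃ a₄ c pa p1 p2 p3 p4 pc d1 d2 d3 d4 dc t1 t3 t4 tc e1 w1 e2 w2 e3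
  have hσ0 : 0 < σ := by linarith
  have l1 : e (D a) (W a₁) = e (D a₂) (W a₂) := by rw [w1, d2]
  have l2 : e (D a) (W a₄) = e (D a₃) (W a₃) := by rw [← w2, d3]
  rw [l1, l2]
  have cy : ∀ ω, 0 < P.w ω →
      |2 ^ C1.rk j * (q2 (C1.a j) * (αW ω - (C1.F j ω).al)) - (e (D ω) (W ω)).2 / σ| ≤ px := by
    intro ω hω
    have h1 := hy ω hω
    have e9 : 2 ^ C1.rk j * (q2 (C1.a j) * (αW ω - (C1.F j ω).al)) - (e (D ω) (W ω)).2 / σ =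
        (σ * (2 ^ C1.rk j * (q2 (C1.a j) * (αW ω - (C1.F j ω).al))) - (e (D ω) (W ω)).2) / σ := by
      field_simp
    rw [e9, abs_div, abs_of_pos hσ0, div_le_iff₀ hσ0, mul_comm px]
    exact h1
  have h := X.stpH hdr pa p1 p2 p3 p4 pc (hD _ _ pa p1 d1) (hD _ _ pa p2 d2) (hD _ _ pa p3 d3) (hD _ _ pa p4 d4)
    (hD _ _ pa pc dc) (hΘ _ _ pa p4 t4) (hE _ _ p1 pa e1) (hW _ _ p1 p2 w1.symm) (hE _ _ p3 p2 e2) (hW _ _ p3 p4 w2.symm)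
    (hE _ _ pc p4 e3) (x := ((e (D a₂) (W a₂)).1, (e (D a₂) (W a₂)).2 / σ))
    (x' := ((e (D a₃) (W a₃)).1, (e (D a₃) (W a₃)).2 / σ)) px1 (he a₂ p2) (he a₃ p3) (hx a₂ p2) (hx a₃ p3)
    (cy a₂ p2) (cy a₃ p3)
  rw [← hS a a₂ pa p2 d2] at h
  have hT0 := hT a a₂ pa p2 d2
  set s := Sf (D a) (Θ a) (Θ a₂) with hs
  set x := e (D a₂) (W a₂) with hxd
  set x' := e (D a₃) (W a₃) with hxd'
  have tol0 : tolH K C1.μ ν px ≤ σ * tolH K C1.μ ν px :=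
    le_mul_of_one_le_left ((abs_nonneg _).trans h.V) hσ
  refine ⟨fun k => ?_, ?_⟩
  · rw [hT0]
    fin_cases k
    · exact h.V.trans tol0
    · exact h.Z.trans tol0
    · show |σ * hP C1 C2 j i b dr c - σ * hP C1 C2 j i b dr a -
        ((s * x.2 - 0) * x.1 - (s * x'.2 - 0) * x'.1)| ≤ _
      have e9 : σ * hP C1 C2 j i b dr c - σ * hP C1 C2 j i b dr a -
        ((s * x.2 - 0) * x.1 - (s * x'.2 - 0) * x'.1) =
          σ * (hP C1 C2 j i b dr c - hP C1 C2 j i b dr a - s * (x.2 / σ * x.1 - x'.2 / σ * x'.1)) := by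
        field_simp
        ring
      rw [e9]
      exact scal hσ h.P
    · show |σ * hK C1 C2 j i c - σ * hK C1 C2 j i a - -(s * (x.2 - x'.2))| ≤ _
      have e9 : σ * hK C1 C2 j i c - σ * hK C1 C2 j i a - -(s * (x.2 - x'.2)) =
          σ * (hK C1 C2 j i c - hK C1 C2 j i a - -(s * (x.2 / σ - x'.2 / σ))) := by
        field_simp
      rw [e9]
      exact scal hσ h.K
  · rw [hT0]
    show |σ * hG C1 C2 j i b dr c - σ * hG C1 C2 j i b dr a -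
      σ * hP C1 C2 j i b dr a * (hV C1 C2 j i b c - hV C1 C2 j i b a) -
      σ * hK C1 C2 j i a * (hZ C1 C2 j i b c - hZ C1 C2 j i b a) -
      s * (s * x.2 - 0) * (x.1 - x'.1) ^ 2 / 2| ≤ _
    have e9 : σ * hG C1 C2 j i b dr c - σ * hG C1 C2 j i b dr a -
        σ * hP C1 C2 j i b dr a * (hV C1 C2 j i b c - hV C1 C2 j i b a) -
        σ * hK C1 C2 j i a * (hZ C1 C2 j i b c - hZ C1 C2 j i b a) -
        s * (s * x.2 - 0) * (x.1 - x'.1) ^ 2 / 2 =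
        σ * (hG C1 C2 j i b dr c - hG C1 C2 j i b dr a - hP C1 C2 j i b dr a * (hV C1 C2 j i b c - hV C1 C2 j i b a) -
        hK C1 C2 j i a * (hZ C1 C2 j i b c - hZ C1 C2 j i b a) - s ^ 2 * (x.2 / σ) * (x.1 - x'.1) ^ 2 / 2) := by
      field_simp
      ring
    rw [e9]
    exact scal hσ h.G

end Vale.Agent.P106.U.H466
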