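import Vale.Agent.P106.U.H466.GeoK

/-!
# P106 / U / H466 : cells of two paths, true line (helper466)

`D = C1.cell j b`, `E = C2.cell i b`, two paths over the same rays, times, own slopes and margin; every path is used at ONE
step (no nesting of the letters).  `kappa` is known to `rk - ν` digits only.  `W` : the fine cell `C1.cell j bV` of the FROZEN
functional of `D` (any regime, used at the cap `bb`), together with digits of the true kappa `κW` (at the time of `D`) and of the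
true curvature `αW`.  `un` : true N-coefficient; it is NOT in `W`, it is determined by `D` (`nrm`: the true line is unit at the
ray, own slope `p`; `cN² + cV² = γ² + φ² - 2 κ gd - 2 α g` is constant on the cell).

* `LOk`, `LCtx` : hypotheses.  `rE`, `rW` : ratios of the normalisations; `TE` : kappa of `E` relative to `D` at the time
  of `E`; `kap`, `alp` : true kappa and curvature relative to `D`, at the time of `D`.
* `LCtx.es`, `LCtx.ws` : the data `Es`, `Ws`;  `LCtx.TE_near`, `LCtx.r_near`, `LCtx.W_near`, `LCtx.link`.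
-/

set_option autoImplicit false

namespace Vale.Agent.P106.U.H466

open Vale.Agent.P127 Vale.Agent.P127.Stk Vale.Agent.P106.U.Cell
open Vale.Agent.P127.U.CellD (q2 rd Nb q2_pos q2_add q2_le rd_err rd_le lt_rd rd_mono q2_mul_pow fl1_fl1)

variable {Ω τ₁ τ₂ : Type}

/-- hypotheses at a point -/
structure LOk (C1 : Pth Ω τ₁) (C2 : Pth Ω τ₂) (un κW αW : Ω → ℝ) (K : ℝ) (j i ν : ℕ) (ω : Ω) : Prop where
  p1 : |C1.p ω| ≤ q2 (4 * C1.μ)
  n1 : 1 ≤ K * (C1.F j ω).cN (C1.l ω) (C1.s j ω)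
  n1' : (C1.F j ω).cN (C1.l ω) (C1.s j ω) ≤ K
  n2 : 1 ≤ K * (C2.F i ω).cN (C1.l ω) (C2.s i ω)
  n2' : (C2.F i ω).cN (C1.l ω) (C2.s i ω) ≤ K
  n3 : 1 ≤ K * un ω
  n3' : un ω ≤ K
  kE : |(C2.F i ω).ka| ≤ K
  kD : |(C1.F j ω).ka| ≤ K
  kW : |κW ω| ≤ K
  aE : |(C2.F i ω).al| * q2 (C2.a i) ≤ K
  aD : |(C1.F j ω).al| * q2 (C1.a j) ≤ K
  dN : |(C2.F i ω).cN (C1.l ω) (C2.s i ω) - (C1.F j ω).cN (C1.l ω) (C1.s j ω)| ≤ K * (q2 (C1.rk j) * 2 ^ ν)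
  dk : |(C2.F i ω).ka - ((C1.F j ω).ka - (C2.s i ω - C1.s j ω) * (C1.F j ω).al)| ≤ K * (q2 (C1.rk j) * 2 ^ ν)
  da : |(C2.F i ω).al - (C1.F j ω).al| * q2 (C2.a i) ≤ K * (q2 (C1.rk j) * q2 C1.μ ^ 6)
  wN : |un ω - (C1.F j ω).cN (C1.l ω) (C1.s j ω)| ≤ K * (q2 (C1.rk j) * 2 ^ ν)
  wk : |κW ω - (C1.F j ω).ka| ≤ K * (q2 (C1.rk j) * 2 ^ ν)
  wa : |αW ω - (C1.F j ω).al| * q2 (C1.a j) ≤ K * q2 (C1.rk j)
  w0 : |αW ω| * q2 (C1.a j) ≤ K * q2 C1.μ ^ 2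
  eN : |(C2.F i ω).cN (C1.l ω) (C2.s i ω) - un ω| ≤ K * (q2 (C1.rk j) * q2 C1.μ ^ 5)
  ek : |(C2.F i ω).ka - (κW ω - (C2.s i ω - C1.s j ω) * αW ω)| ≤ K * (q2 (C1.rk j) * q2 C1.μ ^ 5)
  nm : |un ω ^ 2 * (1 + C1.p ω ^ 2) - 1| ≤ K * (q2 (C1.rk j) * q2 C1.μ ^ 5)

/-- the two paths and the true line -/
structure LCtx (C1 : Pth Ω τ₁) (C2 : Pth Ω τ₂) (un κW αW : Ω → ℝ) (S : Ω → Prop) (K : ℝ) (j i b bb bV ν : ℕ) :
    Prop where
  K1 : 1 ≤ K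
  l2 : C2.l = C1.l
  t2 : C2.t = C1.t
  p2 : C2.p = C1.p
  m2 : C2.μ = C1.μ
  aij : C1.a j + 8 * C1.μ ≤ C2.a i
  rij : C1.rk j + 8 * C1.μ ≤ C2.rk i
  b8 : 8 * C1.μ ≤ b
  bb8 : b + 8 * C1.μ ≤ bb
  bbV : bb ≤ bV
  nu : ν ≤ C1.μ
  k1 : C1.rk j + b ≤ C1.rf j
  k2 : C2.rk i + b ≤ C2.rf i
  k3 : C1.rk j + bb ≤ C1.R j bV
  ok : ∀ ω, S ω → LOk C1 C2 un κW αW K j i ν ω

/-- ratio of the normalisations of `D` and `E` -/
noncomputable def rE (C1 : Pth Ω τ₁) (C2 : Pth Ω τ₂) (j i : ℕ) (ω : Ω) : ℝ :=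
  (C1.F j ω).cN (C1.l ω) (C1.s j ω) / (C2.F i ω).cN (C1.l ω) (C2.s i ω)

/-- kappa of `E` relative to `D`, at the time of `E` -/
noncomputable def TE (C1 : Pth Ω τ₁) (C2 : Pth Ω τ₂) (j i : ℕ) (ω : Ω) : ℝ :=
  rE C1 C2 j i ω * (C2.F i ω).ka - ((C1.F j ω).ka - (C2.s i ω - C1.s j ω) * (C1.F j ω).al)

/-- ratio of the normalisations of `D` and of the true line -/
noncomputable def rW (C1 : Pth Ω τ₁) (un : Ω → ℝ) (j : ℕ) (ω : Ω) : ℝ :=
  (C1.F j ω).cN (C1.l ω) (C1.s j ω) / un ω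

/-- true kappa relative to `D`, at the time of `D` -/
noncomputable def kap (C1 : Pth Ω τ₁) (un κW : Ω → ℝ) (j : ℕ) (ω : Ω) : ℝ :=
  rW C1 un j ω * κW ω - (C1.F j ω).ka

/-- true curvature relative to `D` -/
noncomputable def alp (C1 : Pth Ω τ₁) (un αW : Ω → ℝ) (j : ℕ) (ω : Ω) : ℝ :=
  rW C1 un j ω * αW ω - (C1.F j ω).al

theorem pos_of_mul {K c : ℝ} (hK : 1 ≤ K) (h : 1 ≤ K * c) : 0 < c := by
  by_contra hn
  push Not at hn
  nlinarith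

theorem inv_le {K c : ℝ} (hK : 1 ≤ K) (h : 1 ≤ K * c) : 1 / c ≤ K := by
  have := pos_of_mul hK h
  rw [div_le_iff₀ this]
  exact h

/-- bounds of a ratio and of the relative kappa -/
theorem rat {K c d ka kd E : ℝ} (hK : 1 ≤ K) (hc : 1 ≤ K * c) (hd : 1 ≤ K * d) (hd' : d ≤ K) (hN : |c - d| ≤ K * E)
    (hk : |ka| ≤ K) (hdk : |ka - kd| ≤ K * E) :
    |d / c| ≤ K ^ 2 ∧ |1 - d / c| ≤ K ^ 2 * E ∧ |d / c * ka - kd| ≤ 2 * K ^ 3 * E := by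
  have c0 := pos_of_mul hK hc
  have d0 := pos_of_mul hK hd
  have hi := inv_le hK hc
  have hE : 0 ≤ E := by
    have : 0 ≤ K * E := (abs_nonneg _).trans hN
    by_contra hn
    push Not at hn
    nlinarith
  have e1 : |d / c| ≤ K ^ 2 := by
    rw [abs_div, abs_of_pos c0, abs_of_pos d0, div_eq_mul_one_div, sq]
    exact mul_le_mul hd' hi (by positivity) (by linarith)
  have e2 : |1 - d / c| ≤ K ^ 2 * E := by
    have e : 1 - d / c = (c - d) * (1 / c) := by field_simp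
    rw [e, abs_mul, abs_of_pos (by positivity : 0 < 1 / c)]
    calc _ ≤ (K * E) * K := mul_le_mul hN hi (by positivity) (by positivity)
      _ = _ := by ring
  refine ⟨e1, e2, ?_⟩
  have e : d / c * ka - kd = (ka - kd) - (1 - d / c) * ka := by ring
  rw [e]
  have x1 := abs_sub (ka - kd) ((1 - d / c) * ka)
  have x2 := amul e2 hk
  have x3 : K * E ≤ K ^ 3 * E := by
    refine mul_le_mul_of_nonneg_right ?_ hE
    calc K = K ^ 1 := (pow_one K).symm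
      _ ≤ K ^ 3 := pow_le_pow_right₀ hK (by norm_num)
  have x4 : K ^ 2 * E * K = K ^ 3 * E := by ring
  linarith

/-- the invariant of a functional at a ray -/
theorem inv_Fu (F : Fu) (l : Ray) (s : ℝ) : F.cN l s ^ 2 + F.cV l s ^ 2 =
    F.ga ^ 2 + F.ph ^ 2 - 2 * F.ka * F.gd l s - 2 * F.al * F.g l s := by
  unfold Fu.cN Fu.cV Fu.gd Fu.g
  ring

/-- closeness of two points in the same cell `(n, d)`, any regime -/
structure NearR (C : Pth Ω τ₁) (n d : ℕ) (ω ω' : Ω) : Prop where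
  s : C.s n ω' = C.s n ω
  G : GD C n d ω' = GD C n d ω
  v : |(C.l ω').v - (C.l ω).v| ≤ q2 d
  w : |(C.l ω').w - (C.l ω).w| ≤ q2 d * 2 ^ C.μ
  X : |(C.l ω').X (C.s n ω) - (C.l ω).X (C.s n ω)| ≤ q2 (C.a n) * q2 d * 2 ^ C.μ
  N : |(C.l ω').N (C.s n ω) - (C.l ω).N (C.s n ω)| ≤ q2 (C.a n) * q2 d * 2 ^ C.μ
  z : |(C.l ω).dz (C.l ω') (C.s n ω)| ≤ 3 * q2 (C.a n) * q2 d ^ 2 * (2 ^ C.μ) ^ 3
  g : |(GD C n d ω).g (C.l ω') (C.s n ω) - (GD C n d ω).g (C.l ω) (C.s n ω)| ≤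
    q2 (C.a n) * q2 d * q2 (C.R n d) * (2 ^ C.μ) ^ 7
  gd : |(GD C n d ω).gd (C.l ω') (C.s n ω) - (GD C n d ω).gd (C.l ω) (C.s n ω)| ≤
    q2 d * q2 (C.R n d) * (2 ^ C.μ) ^ 5

theorem nearR (C : Pth Ω τ₁) {n d : ℕ} {ω ω' : Ω} (hi : C.cell n d ω' = C.cell n d ω) : NearR C n d ω ω' := by
  have hTi : C.T n ω' = C.T n ω := congrArg Prod.fst hi
  have hv : fl1 d (C.l ω').v = fl1 d (C.l ω).v := congrArg (fun q => q.2.1) hi
  have hd : ∀ k, fl1 (C.lv n d k) (C.va n d ω' k + C.o k) = fl1 (C.lv n d k) (C.va n d ω k + C.o k) :=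
    fun k => congrArg (fun q => q.2.2 k) hi
  obtain ⟨hs, f1, f2, f3⟩ := same_T C hTi
  have hGD := GD_eq C hi
  have hw : fl1 (d - C.μ) ((C.l ω').w + C.o 1) = fl1 (d - C.μ) ((C.l ω).w + C.o 1) := hd 1
  have hX : |(C.l ω').X (C.s n ω) - (C.l ω).X (C.s n ω)| ≤ q2 (C.a n) * q2 d * 2 ^ C.μ := by
    have h0 : fl1 (C.a n + d - C.μ) ((C.l ω').X (C.s n ω') + C.o 0) = fl1 (C.a n + d - C.μ) ((C.l ω).X (C.s n ω) + C.o 0) := hd 0
    rw [hs] at h0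
    refine (fl1_near h0).trans ?_
    rw [← q2_add]
    exact q2_sub _ _
  have hN : |(C.l ω').N (C.s n ω) - (C.l ω).N (C.s n ω)| ≤ q2 (C.a n) * q2 d * 2 ^ C.μ := by
    have h0 : fl1 (C.a n + d - C.μ) ((C.l ω').N (C.s n ω') + C.o 2) = fl1 (C.a n + d - C.μ) ((C.l ω).N (C.s n ω) + C.o 2) := hd 2
    rw [hs] at h0
    refine (fl1_near h0).trans ?_
    rw [← q2_add]
    exact q2_sub _ _
  have hZ : |C.Zs d (C.s n ω) ω' - C.Zs d (C.s n ω) ω| ≤ q2 (C.a n) * q2 d ^ 2 * (2 ^ C.μ) ^ 3 := by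
    have h0 : fl1 (C.a n + 2 * d - 3 * C.μ) (C.Zs d (C.s n ω') ω' + C.o 3) =
      fl1 (C.a n + 2 * d - 3 * C.μ) (C.Zs d (C.s n ω) ω + C.o 3) := hd 3
    rw [hs] at h0
    refine (fl1_near h0).trans ((q2_sub _ _).trans (le_of_eq ?_))
    rw [q2_add, q2_mul, ← pow_mul, mul_comm 3 C.μ]
  refine ⟨hs, hGD, fl1_near' hv, (fl1_near hw).trans (q2_sub _ _), hX, hN, dz_le C (q2_pos _).le hv hw hX hN hZ, ?_, ?_⟩
  · have h0 : fl1 (C.a n + d + C.R n d - 7 * C.μ) ((GD C n d ω').g (C.l ω') (C.s n ω') + C.o 6) =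
      fl1 (C.a n + d + C.R n d - 7 * C.μ) ((GD C n d ω).g (C.l ω) (C.s n ω) + C.o 6) := hd 6
    rw [hs, hGD] at h0
    refine (fl1_near h0).trans ((q2_sub _ _).trans (le_of_eq ?_))
    rw [q2_add, q2_add, ← pow_mul, mul_comm 7 C.μ]
  · have h0 : fl1 (C.R n d + d - 5 * C.μ) ((GD C n d ω').gd (C.l ω') (C.s n ω') + C.o 5) =
      fl1 (C.R n d + d - 5 * C.μ) ((GD C n d ω).gd (C.l ω) (C.s n ω) + C.o 5) := hd 5
    rw [hs, hGD] at h0
    refine (fl1_near h0).trans ((q2_sub _ _).trans (le_of_eq ?_))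
    rw [q2_add, ← pow_mul, mul_comm 5 C.μ]
    ring

namespace LCtx

variable {C1 : Pth Ω τ₁} {C2 : Pth Ω τ₂} {un κW αW : Ω → ℝ} {S : Ω → Prop} {K : ℝ} {j i b bb bV ν : ℕ}
  (X : LCtx C1 C2 un κW αW S K j i b bb bV ν)
include X

theorem AA : q2 (C2.a i) ≤ q2 (C1.a j) * q2 C1.μ ^ 8 := by
  rw [← q2_mul, ← q2_add]
  exact q2_le X.aij

theorem kk : q2 (C2.rk i) ≤ q2 (C1.rk j) * q2 C1.μ ^ 8 := by
  rw [← q2_mul, ← q2_add]
  exact q2_le X.rij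

theorem Bη : q2 b ≤ q2 C1.μ ^ 8 := by
  rw [← q2_mul]
  exact q2_le X.b8

theorem BB : q2 bb ≤ q2 b * q2 C1.μ ^ 8 := by
  rw [← q2_mul, ← q2_add]
  exact q2_le X.bb8

theorem NM : (2:ℝ) ^ ν ≤ 2 ^ C1.μ := pow_le_pow_right₀ (by norm_num) X.nu

theorem ds {ω : Ω} : |C2.s i ω - C1.s j ω| ≤ q2 (C1.a j) := by
  unfold Pth.s
  rw [X.t2]
  have h : C1.a j ≤ C2.a i := by have := X.aij; omega
  exact Vale.Agent.P127.U.CellD.rd_sub h _

section pt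

variable {ω : Ω} (hω : S ω)
include hω

theorem E_bd : |rE C1 C2 j i ω| ≤ K ^ 2 ∧ |1 - rE C1 C2 j i ω| ≤ K ^ 2 * (q2 (C1.rk j) * 2 ^ ν) ∧
    |TE C1 C2 j i ω| ≤ 2 * K ^ 3 * (q2 (C1.rk j) * 2 ^ ν) := by
  have ok := X.ok ω hω
  exact rat X.K1 ok.n2 ok.n1 ok.n1' ok.dN ok.kE ok.dk

theorem W_bd : |rW C1 un j ω| ≤ K ^ 2 ∧ |1 - rW C1 un j ω| ≤ K ^ 2 * (q2 (C1.rk j) * 2 ^ ν) ∧
    |kap C1 un κW j ω| ≤ 2 * K ^ 3 * (q2 (C1.rk j) * 2 ^ ν) := by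
  have ok := X.ok ω hω
  exact rat X.K1 ok.n3 ok.n1 ok.n1' ok.wN ok.kW ok.wk

/-- curvature of `E` -/
theorem aH : |(C1.F j ω).al - rE C1 C2 j i ω * (C2.F i ω).al| * q2 (C2.a i) ≤
    5 * K ^ 3 * (q2 (C1.rk j) * q2 C1.μ ^ 5) := by
  have ok := X.ok ω hω
  have hK := X.K1
  have hk := q2_pos (C1.rk j)
  have hη := q2_pos C1.μ
  have hη1 := q2_one C1.μ
  have hk1 := q2_one (C1.rk j)
  have hA := q2_pos (C1.a j)
  have hA' := q2_pos (C2.a i)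
  have hNM := X.NM
  have hpη := pη C1.μ
  have h1 := ok.da
  have h2 := (X.E_bd hω).2.1
  have hj : |(C1.F j ω).al| * q2 (C2.a i) ≤ K * q2 C1.μ ^ 6 := by
    calc _ ≤ |(C1.F j ω).al| * (q2 (C1.a j) * q2 C1.μ ^ 8) := mul_le_mul_of_nonneg_left X.AA (abs_nonneg _)
      _ = (|(C1.F j ω).al| * q2 (C1.a j)) * q2 C1.μ ^ 8 := by ring
      _ ≤ K * q2 C1.μ ^ 6 := by
        have h86 : q2 C1.μ ^ 8 ≤ q2 C1.μ ^ 6 := pow_le_pow_of_le_one hη.le hη1 (by norm_num)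
        exact mul_le_mul ok.aD h86 (by positivity) (by linarith)
  have hi : |(C2.F i ω).al| * q2 (C2.a i) ≤ 2 * K * q2 C1.μ ^ 6 := by
    have x1 := abs_add_le ((C2.F i ω).al - (C1.F j ω).al) (C1.F j ω).al
    rw [sub_add_cancel] at x1
    have x2 := mul_le_mul_of_nonneg_right x1 hA'.le
    have x3 : K * (q2 (C1.rk j) * q2 C1.μ ^ 6) ≤ K * q2 C1.μ ^ 6 := by
      have : q2 (C1.rk j) * q2 C1.μ ^ 6 ≤ q2 C1.μ ^ 6 := mul_le_of_le_one_left (by positivity) hk1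
      exact mul_le_mul_of_nonneg_left this (by linarith)
    linarith
  have e : (C1.F j ω).al - rE C1 C2 j i ω * (C2.F i ω).al = -((C2.F i ω).al - (C1.F j ω).al) +
      (1 - rE C1 C2 j i ω) * (C2.F i ω).al := by ring
  rw [e]
  have x1 := abs_add_le (-((C2.F i ω).al - (C1.F j ω).al)) ((1 - rE C1 C2 j i ω) * (C2.F i ω).al)
  rw [abs_neg] at x1
  have x2 := mul_le_mul_of_nonneg_right x1 hA'.le
  have x3 : |(1 - rE C1 C2 j i ω) * (C2.F i ω).al| * q2 (C2.a i) ≤ 2 * K ^ 3 * (q2 (C1.rk j) * q2 C1.μ ^ 5) := by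
    rw [abs_mul]
    calc |1 - rE C1 C2 j i ω| * |(C2.F i ω).al| * q2 (C2.a i) =
          |1 - rE C1 C2 j i ω| * (|(C2.F i ω).al| * q2 (C2.a i)) := by ring
      _ ≤ (K ^ 2 * (q2 (C1.rk j) * 2 ^ ν)) * (2 * K * q2 C1.μ ^ 6) := mul_le_mul h2 hi (by positivity) (by positivity)
      _ ≤ (K ^ 2 * (q2 (C1.rk j) * 2 ^ C1.μ)) * (2 * K * q2 C1.μ ^ 6) := by gcongr
      _ = 2 * K ^ 3 * (q2 (C1.rk j) * q2 C1.μ ^ 5) * (q2 C1.μ * 2 ^ C1.μ) := by ring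
      _ = _ := by rw [hpη, mul_one]
  have x4 : K * (q2 (C1.rk j) * q2 C1.μ ^ 6) ≤ K ^ 3 * (q2 (C1.rk j) * q2 C1.μ ^ 5) := by
    have h1 : K ≤ K ^ 3 := by
      calc K = K ^ 1 := (pow_one K).symm
        _ ≤ K ^ 3 := pow_le_pow_right₀ hK (by norm_num)
    have h65 : q2 C1.μ ^ 6 ≤ q2 C1.μ ^ 5 := pow_le_pow_of_le_one hη.le hη1 (by norm_num)
    gcongr
  have x5 : 0 ≤ K ^ 3 * (q2 (C1.rk j) * q2 C1.μ ^ 5) := by positivity
  linarith

/-- curvature of `W` -/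
theorem aW : |alp C1 un αW j ω| * q2 (C1.a j) ≤ 2 * K ^ 3 * q2 (C1.rk j) ∧
    |(1 - rW C1 un j ω) * αW ω| * q2 (C1.a j) ≤ K ^ 3 * (q2 (C1.rk j) * q2 C1.μ) := by
  have ok := X.ok ω hω
  have hK := X.K1
  have hk := q2_pos (C1.rk j)
  have hη := q2_pos C1.μ
  have hη1 := q2_one C1.μ
  have hA := q2_pos (C1.a j)
  have hNM := X.NM
  have hpη := pη C1.μ
  have h2 := (X.W_bd hω).2.1
  have x3 : |(1 - rW C1 un j ω) * αW ω| * q2 (C1.a j) ≤ K ^ 3 * (q2 (C1.rk j) * q2 C1.μ) := by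
    rw [abs_mul]
    calc |1 - rW C1 un j ω| * |αW ω| * q2 (C1.a j) =
          |1 - rW C1 un j ω| * (|αW ω| * q2 (C1.a j)) := by ring
      _ ≤ (K ^ 2 * (q2 (C1.rk j) * 2 ^ ν)) * (K * q2 C1.μ ^ 2) := mul_le_mul h2 ok.w0 (by positivity) (by positivity)
      _ ≤ (K ^ 2 * (q2 (C1.rk j) * 2 ^ C1.μ)) * (K * q2 C1.μ ^ 2) := by gcongr
      _ = K ^ 3 * (q2 (C1.rk j) * q2 C1.μ) * (q2 C1.μ * 2 ^ C1.μ) := by ring
      _ = _ := by rw [hpη, mul_one]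
  refine ⟨?_, x3⟩
  have e : alp C1 un αW j ω = (αW ω - (C1.F j ω).al) - (1 - rW C1 un j ω) * αW ω := by
    unfold alp
    ring
  rw [e]
  have x1 := abs_sub (αW ω - (C1.F j ω).al) ((1 - rW C1 un j ω) * αW ω)
  have x2 := mul_le_mul_of_nonneg_right x1 hA.le
  have h1 := ok.wa
  have x4 : K * q2 (C1.rk j) ≤ K ^ 3 * q2 (C1.rk j) := by
    have h1 : K ≤ K ^ 3 := by
      calc K = K ^ 1 := (pow_one K).symm
        _ ≤ K ^ 3 := pow_le_pow_right₀ hK (by norm_num)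
    gcongr
  have x5 : K ^ 3 * (q2 (C1.rk j) * q2 C1.μ) ≤ K ^ 3 * q2 (C1.rk j) := by
    have : q2 (C1.rk j) * q2 C1.μ ≤ q2 (C1.rk j) := mul_le_of_le_one_right hk.le hη1
    gcongr
  linarith

/-- the germ of `W` gives kappa of `E` -/
theorem link : |TE C1 C2 j i ω - (kap C1 un κW j ω - (C2.s i ω - C1.s j ω) * alp C1 un αW j ω)| ≤
    2 * K ^ 5 * (q2 (C1.rk j) * q2 C1.μ ^ 5) := by
  have ok := X.ok ω hω
  have hK := X.K1
  have hk := q2_pos (C1.rk j)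
  have hη := q2_pos C1.μ
  have cE := pos_of_mul hK ok.n2
  have cW := pos_of_mul hK ok.n3
  have cD := pos_of_mul hK ok.n1
  have iE := inv_le hK ok.n2
  have iW := inv_le hK ok.n3
  have e : TE C1 C2 j i ω - (kap C1 un κW j ω - (C2.s i ω - C1.s j ω) * alp C1 un αW j ω) =
      (rE C1 C2 j i ω - rW C1 un j ω) * (C2.F i ω).ka +
      rW C1 un j ω * ((C2.F i ω).ka - (κW ω - (C2.s i ω - C1.s j ω) * αW ω)) := by
    unfold TE kap alp
    ring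
  have h1 : |rE C1 C2 j i ω - rW C1 un j ω| ≤ K ^ 4 * (q2 (C1.rk j) * q2 C1.μ ^ 5) := by
    have e1 : rE C1 C2 j i ω - rW C1 un j ω = -(((C1.F j ω).cN (C1.l ω) (C1.s j ω)) *
        ((C2.F i ω).cN (C1.l ω) (C2.s i ω) - un ω) *
        (1 / (C2.F i ω).cN (C1.l ω) (C2.s i ω)) * (1 / un ω)) := by
      unfold rE rW
      field_simp
      ring
    rw [e1, abs_neg]
    have a1 : |(C1.F j ω).cN (C1.l ω) (C1.s j ω)| ≤ K := by rw [abs_of_pos cD]; exact ok.n1'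
    have a2 : |1 / (C2.F i ω).cN (C1.l ω) (C2.s i ω)| ≤ K := by
      rw [abs_of_pos (by positivity)]
      exact iE
    have a3 : |1 / un ω| ≤ K := by
      rw [abs_of_pos (by positivity)]
      exact iW
    refine (amul (amul (amul a1 ok.eN) a2) a3).trans (le_of_eq ?_)
    ring
  have h2 := amul h1 ok.kE
  have h3 := amul (X.W_bd hω).1 ok.ek
  rw [e]
  have x1 := abs_add_le ((rE C1 C2 j i ω - rW C1 un j ω) * (C2.F i ω).ka)
    (rW C1 un j ω * ((C2.F i ω).ka - (κW ω - (C2.s i ω - C1.s j ω) * αW ω)))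
  have x2 : K ^ 4 * (q2 (C1.rk j) * q2 C1.μ ^ 5) * K = K ^ 5 * (q2 (C1.rk j) * q2 C1.μ ^ 5) := by ring
  have x3 : K ^ 2 * (K * (q2 (C1.rk j) * q2 C1.μ ^ 5)) ≤ K ^ 5 * (q2 (C1.rk j) * q2 C1.μ ^ 5) := by
    calc _ = K ^ 3 * (q2 (C1.rk j) * q2 C1.μ ^ 5) := by ring
      _ ≤ _ := by
        have : K ^ 3 ≤ K ^ 5 := pow_le_pow_right₀ hK (by norm_num)
        gcongr
  linarith

end pt

/-- slopes relative to the functional of the cell `D` -/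
theorem br_le {dr : Ω → Ω} (hdr : Rep S (C1.cell j b) dr) {ω : Ω} (hω : S ω) :
    |C1.p ω * (C1.F j (dr ω)).cN (C1.l ω) (C1.s j ω) - (C1.F j (dr ω)).cV (C1.l ω) (C1.s j ω)| ≤
      13 * K ^ 3 * (q2 (C1.rk j) * q2 b * (2 ^ C1.μ) ^ 3) := by
  have hK := X.K1
  have h0 := hdr.mem ω hω
  have ok := X.ok ω hω
  have nr := near C1 (n := j) (d := b) (ω := dr ω) (ω' := ω) X.k1 (hdr.val ω hω).symm
  have hs : C1.s j (dr ω) = C1.s j ω := nr.s.symm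
  have hB := q2_pos b
  have hk := q2_pos (C1.rk j)
  have hm : C1.R j b - 3 * C1.μ = C1.rk j + b - 3 * C1.μ := by unfold Pth.R Pth.bs; have := X.k1; omega
  -- the functional of the digits
  have eN : (C1.F j (dr ω)).cN (C1.l ω) (C1.s j ω) = (GD C1 j b ω).cN (C1.l ω) (C1.s j ω) := by
    rw [nr.G]
    rfl
  have eV : (C1.F j (dr ω)).cV (C1.l ω) (C1.s j ω) = (GD C1 j b ω).cV (C1.l ω) (C1.s j ω) -
      (C1.ro 4 (C1.R j b - 3 * C1.μ) (C1.sl j b (dr ω)) - C1.sl j b (dr ω)) := by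
    rw [nr.G]
    unfold GD
    rw [Fr_cV]
    ring
  rw [eN, eV]
  -- slope of the digits
  have c0' : 0 < (C1.F j ω).cN (C1.l ω) (C1.s j ω) := pos_of_mul hK ok.n1
  have s1 : |(GD C1 j b ω).cV (C1.l ω) (C1.s j ω) - C1.p ω * (GD C1 j b ω).cN (C1.l ω) (C1.s j ω)| ≤
      2 * K * (q2 (C1.rk j) * q2 b * (2 ^ C1.μ) ^ 3) := by
    unfold GD
    rw [Fr_cN, Fr_cV, F_cV]
    have h1 : |(rd (C1.rf j) (C1.p ω) - C1.p ω) * (C1.F j ω).cN (C1.l ω) (C1.s j ω)| ≤ q2 (C1.rk j + b) * K := by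
      rw [abs_mul, abs_of_pos c0']
      exact mul_le_mul ((rd_err _ _).trans (q2_le X.k1)) ok.n1' c0'.le (q2_pos _).le
    have h2 : |C1.ro 4 (C1.R j b - 3 * C1.μ) (C1.sl j b ω) - C1.sl j b ω| ≤ q2 (C1.rk j + b) * 2 ^ (3 * C1.μ) := by
      refine (ro_err C1 4 _ _).trans ?_
      rw [hm]
      exact q2_sub _ _
    have h3 : (1:ℝ) ≤ 2 ^ (3 * C1.μ) := one_le_pow₀ (by norm_num)
    have h4 : (2:ℝ) ^ (3 * C1.μ) = (2 ^ C1.μ) ^ 3 := by rw [← pow_mul, mul_comm]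
    have h5 : q2 (C1.rk j + b) = q2 (C1.rk j) * q2 b := q2_add _ _
    have h6 : 0 < q2 (C1.rk j + b) := q2_pos _
    rw [← h5, ← h4]
    have e : rd (C1.rf j) (C1.p ω) * (C1.F j ω).cN (C1.l ω) (C1.s j ω) +
        (C1.ro 4 (C1.R j b - 3 * C1.μ) (C1.sl j b ω) - C1.sl j b ω) -
        C1.p ω * (C1.F j ω).cN (C1.l ω) (C1.s j ω) =
        (rd (C1.rf j) (C1.p ω) - C1.p ω) * (C1.F j ω).cN (C1.l ω) (C1.s j ω) +
        (C1.ro 4 (C1.R j b - 3 * C1.μ) (C1.sl j b ω) - C1.sl j b ω) := by ring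
    rw [e]
    refine (abs_add_le _ _).trans ((add_le_add h1 h2).trans ?_)
    have h7 : q2 (C1.rk j + b) * K ≤ K * (q2 (C1.rk j + b) * 2 ^ (3 * C1.μ)) := by
      rw [mul_comm]
      exact mul_le_mul_of_nonneg_left (le_mul_of_one_le_right h6.le h3) (by linarith)
    have h8 : q2 (C1.rk j + b) * 2 ^ (3 * C1.μ) ≤ K * (q2 (C1.rk j + b) * 2 ^ (3 * C1.μ)) :=
      le_mul_of_one_le_left (by positivity) hK
    linarith
  have s2 : |C1.ro 4 (C1.R j b - 3 * C1.μ) (C1.sl j b (dr ω)) - C1.sl j b (dr ω)| ≤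
      q2 (C1.rk j) * q2 b * (2 ^ C1.μ) ^ 3 := by
    refine (ro_err C1 4 _ _).trans ?_
    rw [hm, ← q2_add, ← pow_mul, mul_comm C1.μ 3]
    exact q2_sub _ _
  have e : C1.p ω * (GD C1 j b ω).cN (C1.l ω) (C1.s j ω) - ((GD C1 j b ω).cV (C1.l ω) (C1.s j ω) -
      (C1.ro 4 (C1.R j b - 3 * C1.μ) (C1.sl j b (dr ω)) - C1.sl j b (dr ω))) =
      -((GD C1 j b ω).cV (C1.l ω) (C1.s j ω) - C1.p ω * (GD C1 j b ω).cN (C1.l ω) (C1.s j ω)) +
      (C1.ro 4 (C1.R j b - 3 * C1.μ) (C1.sl j b (dr ω)) - C1.sl j b (dr ω)) := by ring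
  rw [e]
  refine (abs_add_le _ _).trans ?_
  rw [abs_neg]
  refine (add_le_add s1 s2).trans ?_
  set Y := q2 (C1.rk j) * q2 b * (2 ^ C1.μ) ^ 3 with hY
  have hY0 : 0 < Y := by positivity
  have K3 : 1 ≤ K ^ 3 := one_le_pow₀ hK
  have K13 : K ≤ K ^ 3 := by
    calc K = K ^ 1 := (pow_one K).symm
      _ ≤ K ^ 3 := pow_le_pow_right₀ hK (by norm_num)
  nlinarith

/-- same `D` : the numbers of the functional -/
theorem sameD {ω ω' : Ω} (h : C1.cell j b ω' = C1.cell j b ω) : C1.s j ω' = C1.s j ω ∧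
    (C1.F j ω').ga = (C1.F j ω).ga ∧ (C1.F j ω').ka = (C1.F j ω).ka ∧ (C1.F j ω').al = (C1.F j ω).al :=
  same_T C1 (congrArg Prod.fst h)

theorem G0N {dr : Ω → Ω} (hdr : Rep S (C1.cell j b) dr) {ω : Ω} (hω : S ω) (s : ℝ) (l : Ray) :
    (G0 C1 j dr s ω).cN l s = (C1.F j ω).cN l (C1.s j ω) := by
  rw [G0_cN, cN_same C1 (congrArg Prod.fst (hdr.val ω hω))]

/-- **same late cell** -/
theorem es {dr : Ω → Ω} (hdr : Rep S (C1.cell j b) dr) {ω ω' : Ω} (hω : S ω) (hω' : S ω')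
    (hi : C2.cell i b ω' = C2.cell i b ω) :
    Es K (q2 (C1.a j)) (q2 (C2.a i)) (q2 b) (q2 (C1.rk j)) (q2 (C2.rk i)) (q2 C1.μ) (2 ^ C1.μ) (GD C2 i b ω)
      (G0 C1 j dr (C2.s i ω) ω) (C1.l ω) (C1.l ω') (C1.p ω) (C1.p ω') (C2.s i ω) (rE C1 C2 j i ω) := by
  have ok := X.ok ω hω
  have ok' := X.ok ω' hω'
  have hK := X.K1
  have nr := near C2 (n := i) (d := b) X.k2 hi
  have q2p : ∀ n, 0 < q2 n := q2_pos
  have l2 := X.l2
  have m2 := X.m2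
  have p2 := X.p2
  have cE := pos_of_mul hK ok.n2
  obtain ⟨sr, g1, g2, g3⟩ := X.sameD (hdr.val ω hω)
  have hm : C2.R i b - 3 * C2.μ = C2.rk i + b - 3 * C2.μ := by unfold Pth.R Pth.bs; have := X.k2; omega
  have sle : ∀ ω, S ω → |(C2.Fr i b (C2.R i b - 3 * C2.μ) ω).cV (C1.l ω) (C2.s i ω) -
      C1.p ω * (C2.Fr i b (C2.R i b - 3 * C2.μ) ω).cN (C1.l ω) (C2.s i ω)| ≤
      2 * K * (q2 (C2.rk i) * q2 b * (2 ^ C1.μ) ^ 3) := by
    intro ω hω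
    have ok := X.ok ω hω
    have c0' : 0 < (C2.F i ω).cN (C1.l ω) (C2.s i ω) := pos_of_mul hK ok.n2
    have hF := F_cV C2 i ω
    rw [l2, p2] at hF
    rw [Fr_cN, Fr_cV, hF]
    have h1 : |(rd (C2.rf i) (C1.p ω) - C1.p ω) * (C2.F i ω).cN (C1.l ω) (C2.s i ω)| ≤ q2 (C2.rk i + b) * K := by
      rw [abs_mul, abs_of_pos c0']
      exact mul_le_mul ((rd_err _ _).trans (q2_le X.k2)) ok.n2' c0'.le (q2_pos _).le
    have h2 : |C2.ro 4 (C2.R i b - 3 * C2.μ) (C2.sl i b ω) - C2.sl i b ω| ≤ q2 (C2.rk i + b) * 2 ^ (3 * C1.μ) := by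
      refine (ro_err C2 4 _ _).trans ?_
      rw [hm, m2]
      exact q2_sub _ _
    have h3 : (1:ℝ) ≤ 2 ^ (3 * C1.μ) := one_le_pow₀ (by norm_num)
    have h4 : (2:ℝ) ^ (3 * C1.μ) = (2 ^ C1.μ) ^ 3 := by rw [← pow_mul, mul_comm]
    have h5 : q2 (C2.rk i + b) = q2 (C2.rk i) * q2 b := q2_add _ _
    have h6 : 0 < q2 (C2.rk i + b) := q2_pos _
    rw [← h5, ← h4]
    have e : rd (C2.rf i) (C1.p ω) * (C2.F i ω).cN (C1.l ω) (C2.s i ω) +
        (C2.ro 4 (C2.R i b - 3 * C2.μ) (C2.sl i b ω) - C2.sl i b ω) -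
        C1.p ω * (C2.F i ω).cN (C1.l ω) (C2.s i ω) =
        (rd (C2.rf i) (C1.p ω) - C1.p ω) * (C2.F i ω).cN (C1.l ω) (C2.s i ω) +
        (C2.ro 4 (C2.R i b - 3 * C2.μ) (C2.sl i b ω) - C2.sl i b ω) := by ring
    rw [e]
    refine (abs_add_le _ _).trans ((add_le_add h1 h2).trans ?_)
    have h7 : q2 (C2.rk i + b) * K ≤ K * (q2 (C2.rk i + b) * 2 ^ (3 * C1.μ)) := by
      rw [mul_comm]
      exact mul_le_mul_of_nonneg_left (le_mul_of_one_le_right h6.le h3) (by linarith)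
    have h8 : q2 (C2.rk i + b) * 2 ^ (3 * C1.μ) ≤ K * (q2 (C2.rk i + b) * 2 ^ (3 * C1.μ)) :=
      le_mul_of_one_le_left (by positivity) hK
    linarith
  have nX := nr.X
  have nN := nr.N
  have nw := nr.w
  have nv := nr.v
  have nz := nr.z
  have ng := nr.g
  have nd := nr.gd
  rw [l2, m2] at nX nN nw nz ng nd
  rw [l2] at nv
  exact
    { K1 := hK
      A0 := q2p _
      A'0 := q2p _
      B0 := q2p _
      k0 := q2p _
      k'0 := q2p _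
      η0 := q2p _
      η1 := q2_one _
      M1 := pη _
      AA := X.AA
      kk := X.kk
      Bη := X.Bη
      kB := (mul_le_of_le_one_left (q2p b).le (q2_one _)).trans X.Bη
      hv := nv
      hw := nw
      hX := nX
      hN := nN
      hz := nz
      hg := ng
      hd := nd
      c1 := ok.n2
      cr := by
        rw [X.G0N hdr hω]
        show _ = rE C1 C2 j i ω * (C2.F i ω).cN (C1.l ω) (C2.s i ω)
        unfold rE
        rw [div_mul_cancel₀ _ cE.ne']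
      r0 := (X.E_bd hω).1
      sl := sle ω hω
      sm := by
        have := sle ω' hω'
        have e : C2.Fr i b (C2.R i b - 3 * C2.μ) ω' = GD C2 i b ω := nr.G
        rw [e, nr.s] at this
        exact this
      cN2 := ok.n2'
      p1 := by
        have := ok.p1.trans (q2_le (show 2 * C1.μ ≤ 4 * C1.μ by omega))
        rwa [q2_mul] at this
      q1 := by
        have := ok'.p1.trans (q2_le (show 2 * C1.μ ≤ 4 * C1.μ by omega))
        rwa [q2_mul] at this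
      br := by
        rw [G0_cN, G0_cV]
        exact X.br_le hdr hω
      ka := ok.kE
      al := ok.aE
      T := by
        have := (X.E_bd hω).2.2
        rw [← abs_neg] at this
        have e : (G0 C1 j dr (C2.s i ω) ω).ka - rE C1 C2 j i ω * (GD C2 i b ω).ka = -TE C1 C2 j i ω := by
          unfold TE
          show (C1.F j (dr ω)).ka - (C2.s i ω - C1.s j ω) * (C1.F j (dr ω)).al - rE C1 C2 j i ω * (C2.F i ω).ka = _
          rw [g2, g3]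
          ring
        rw [e]
        refine this.trans ?_
        have h1 := X.NM
        have h2 := q2p (C1.rk j)
        gcongr
      aH := by
        show |(C1.F j (dr ω)).al - rE C1 C2 j i ω * (C2.F i ω).al| * _ ≤ _
        rw [g3]
        exact X.aH hω }

/-- **same fine cell** -/
theorem ws {dr : Ω → Ω} (hdr : Rep S (C1.cell j b) dr) {ω ω' : Ω} (hω : S ω) (hω' : S ω')
    (hi : C1.cell j bV ω' = C1.cell j bV ω) :
    Ws K (q2 (C1.a j)) (q2 b) (q2 bb) (q2 (C1.rk j)) (q2 C1.μ) (2 ^ C1.μ) (GD C1 j bV ω)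
      (G0 C1 j dr (C1.s j ω) ω) (C1.l ω) (C1.l ω') (C1.p ω) (C1.p ω') (C1.s j ω) 1 := by
  have ok := X.ok ω hω
  have ok' := X.ok ω' hω'
  have hK := X.K1
  have nr := nearR C1 (n := j) (d := bV) hi
  have q2p : ∀ n, 0 < q2 n := q2_pos
  have hβ := q2_pos bb
  have hk := q2_pos (C1.rk j)
  have hA := q2_pos (C1.a j)
  have hV := q2_pos bV
  have hR0 := q2_pos (C1.R j bV)
  have hVb : q2 bV ≤ q2 bb := q2_le X.bbV
  have hRb : q2 (C1.R j bV) ≤ q2 (C1.rk j) * q2 bb := by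
    rw [← q2_add]
    exact q2_le X.k3
  obtain ⟨sr, g1, g2, g3⟩ := X.sameD (hdr.val ω hω)
  have hM1 : (1:ℝ) ≤ 2 ^ C1.μ := one_le_pow₀ (by norm_num)
  have hM3 : (0:ℝ) < (2 ^ C1.μ) ^ 3 := by positivity
  have hM3' : (1:ℝ) ≤ (2 ^ C1.μ) ^ 3 := one_le_pow₀ hM1
  have hRf : C1.R j bV ≤ C1.rf j := by
    have := C1.hkf j
    unfold Pth.R Pth.bs
    omega
  have sle : ∀ ω, S ω → |(C1.Fr j bV (C1.R j bV - 3 * C1.μ) ω).cV (C1.l ω) (C1.s j ω) -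
      C1.p ω * (C1.Fr j bV (C1.R j bV - 3 * C1.μ) ω).cN (C1.l ω) (C1.s j ω)| ≤
      2 * K * (q2 (C1.rk j) * q2 bb * (2 ^ C1.μ) ^ 3) := by
    intro ω hω
    have ok := X.ok ω hω
    have c0' : 0 < (C1.F j ω).cN (C1.l ω) (C1.s j ω) := pos_of_mul hK ok.n1
    have hF := F_cV C1 j ω
    rw [Fr_cN, Fr_cV, hF]
    have h1 : |(rd (C1.rf j) (C1.p ω) - C1.p ω) * (C1.F j ω).cN (C1.l ω) (C1.s j ω)| ≤ q2 (C1.R j bV) * K := by
      rw [abs_mul, abs_of_pos c0']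
      exact mul_le_mul ((rd_err _ _).trans (q2_le hRf)) ok.n1' c0'.le (q2_pos _).le
    have h2 : |C1.ro 4 (C1.R j bV - 3 * C1.μ) (C1.sl j bV ω) - C1.sl j bV ω| ≤ q2 (C1.R j bV) * (2 ^ C1.μ) ^ 3 := by
      refine (ro_err C1 4 _ _).trans ((q2_sub _ _).trans (le_of_eq ?_))
      rw [← pow_mul, mul_comm 3 C1.μ]
    have e : rd (C1.rf j) (C1.p ω) * (C1.F j ω).cN (C1.l ω) (C1.s j ω) +
        (C1.ro 4 (C1.R j bV - 3 * C1.μ) (C1.sl j bV ω) - C1.sl j bV ω) -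
        C1.p ω * (C1.F j ω).cN (C1.l ω) (C1.s j ω) =
        (rd (C1.rf j) (C1.p ω) - C1.p ω) * (C1.F j ω).cN (C1.l ω) (C1.s j ω) +
        (C1.ro 4 (C1.R j bV - 3 * C1.μ) (C1.sl j bV ω) - C1.sl j bV ω) := by ring
    rw [e]
    refine (abs_add_le _ _).trans ((add_le_add h1 h2).trans ?_)
    have h7 : q2 (C1.R j bV) * K ≤ K * (q2 (C1.rk j) * q2 bb * (2 ^ C1.μ) ^ 3) := by
      rw [mul_comm]
      exact mul_le_mul_of_nonneg_left (hRb.trans (le_mul_of_one_le_right (by positivity) hM3')) (by linarith)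
    have h8 : q2 (C1.R j bV) * (2 ^ C1.μ) ^ 3 ≤ K * (q2 (C1.rk j) * q2 bb * (2 ^ C1.μ) ^ 3) :=
      (mul_le_mul_of_nonneg_right hRb hM3.le).trans (le_mul_of_one_le_left (by positivity) hK)
    linarith
  exact
    { K1 := hK
      A0 := q2p _
      B0 := q2p _
      β0 := q2p _
      k0 := q2p _
      η0 := q2p _
      η1 := q2_one _
      M1 := pη _
      βB := X.BB
      hv := nr.v.trans hVb
      hw := nr.w.trans (by gcongr)
      hX := nr.X.trans (by gcongr)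
      hN := nr.N.trans (by gcongr)
      hz := nr.z.trans (by gcongr)
      hg := by
        refine nr.g.trans ?_
        calc q2 (C1.a j) * q2 bV * q2 (C1.R j bV) * (2 ^ C1.μ) ^ 7 ≤
              q2 (C1.a j) * q2 bb * (q2 (C1.rk j) * q2 bb) * (2 ^ C1.μ) ^ 7 := by gcongr
          _ = _ := by ring
      hd := by
        refine nr.gd.trans ?_
        calc q2 bV * q2 (C1.R j bV) * (2 ^ C1.μ) ^ 5 ≤ q2 bb * (q2 (C1.rk j) * q2 bb) * (2 ^ C1.μ) ^ 5 := by gcongr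
          _ = _ := by ring
      cr := by
        rw [X.G0N hdr hω, one_mul]
        rfl
      r0 := by
        rw [abs_one]
        exact one_le_pow₀ hK
      sl := sle ω hω
      sm := by
        have := sle ω' hω'
        have e : C1.Fr j bV (C1.R j bV - 3 * C1.μ) ω' = GD C1 j bV ω := nr.G
        rw [e, nr.s] at this
        exact this
      q1 := ok'.p1.trans (q2_one _)
      br := by
        rw [G0_cN, G0_cV]
        exact X.br_le hdr hω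
      T := by
        have e : (G0 C1 j dr (C1.s j ω) ω).ka - 1 * (GD C1 j bV ω).ka = 0 := by
          show (C1.F j (dr ω)).ka - (C1.s j ω - C1.s j ω) * (C1.F j (dr ω)).al - 1 * (C1.F j ω).ka = _
          rw [g2]
          ring
        rw [e, abs_zero]
        positivity
      aH := by
        have e : (G0 C1 j dr (C1.s j ω) ω).al - 1 * (GD C1 j bV ω).al = 0 := by
          show (C1.F j (dr ω)).al - 1 * (C1.F j ω).al = _
          rw [g3]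
          ring
        rw [e, abs_zero, zero_mul]
        positivity }

/-- difference of the ratios of two points -/
theorem rat_near {c d c' d' r e : ℝ} (hK : 1 ≤ K) (hc : 1 ≤ K * c') (h0 : d = r * c) (h0c : 0 < c')
    (he : |(d' - d) - r * (c' - c)| ≤ e) : |d' / c' - r| ≤ K * e := by
  have e1 : d' / c' - r = ((d' - d) - r * (c' - c)) * (1 / c') := by
    rw [h0]
    field_simp
    ring
  rw [e1, abs_mul, abs_of_pos (by positivity : 0 < 1 / c'), mul_comm]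
  exact mul_le_mul (inv_le hK hc) he (abs_nonneg _) (by linarith)

/-- kappa of two points in the same `D`, `E` -/
theorem TE_near {ω ω' : Ω} (hω : S ω) (hω' : S ω') (hD : C1.cell j b ω' = C1.cell j b ω)
    (hi : C2.cell i b ω' = C2.cell i b ω) :
    |TE C1 C2 j i ω' - TE C1 C2 j i ω| ≤ 7 * K ^ 5 * (q2 (C1.rk j) * q2 C1.μ ^ 5) := by
  have ok := X.ok ω hω
  have ok' := X.ok ω' hω'
  have hK := X.K1
  have nr := near C2 (n := i) (d := b) X.k2 hi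
  obtain ⟨si, i1, i2, i3⟩ := same_T C2 (congrArg Prod.fst hi)
  obtain ⟨sf, f1, f2, f3⟩ := X.sameD hD
  have c0 := pos_of_mul hK ok.n2
  have c0' := pos_of_mul hK ok'.n2
  have hB := q2_pos b
  have hk := q2_pos (C1.rk j)
  have hA' := q2_pos (C2.a i)
  have hη := q2_pos C1.μ
  have hη1 := q2_one C1.μ
  have hpη := pη C1.μ
  have hNM := X.NM
  have nN := nr.N
  have nw := nr.w
  rw [X.l2, X.m2] at nN nw
  have hM1 : (1:ℝ) ≤ 2 ^ C1.μ := one_le_pow₀ (by norm_num)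
  have e3 : (C1.F j ω).cN (C1.l ω) (C1.s j ω) = rE C1 C2 j i ω * (C2.F i ω).cN (C1.l ω) (C2.s i ω) := by
    unfold rE
    rw [div_mul_cancel₀ _ c0.ne']
  have key : ((C1.F j ω').cN (C1.l ω') (C1.s j ω') - (C1.F j ω).cN (C1.l ω) (C1.s j ω)) -
      rE C1 C2 j i ω * ((C2.F i ω').cN (C1.l ω') (C2.s i ω') - (C2.F i ω).cN (C1.l ω) (C2.s i ω)) =
      TE C1 C2 j i ω * ((C1.l ω').w - (C1.l ω).w) -
      ((C1.F j ω).al - rE C1 C2 j i ω * (C2.F i ω).al) * ((C1.l ω').N (C2.s i ω) - (C1.l ω).N (C2.s i ω)) := by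
    unfold TE Fu.cN Ray.N
    rw [i1, i2, i3, f1, f2, f3, si, sf]
    ring
  have hT' := (X.E_bd hω).2.2
  have haH := X.aH hω
  have t1 : |TE C1 C2 j i ω * ((C1.l ω').w - (C1.l ω).w)| ≤ 2 * K ^ 3 * (q2 (C1.rk j) * q2 C1.μ ^ 5) := by
    refine (amul hT' nw).trans ?_
    calc 2 * K ^ 3 * (q2 (C1.rk j) * 2 ^ ν) * (q2 b * 2 ^ C1.μ) ≤
          2 * K ^ 3 * (q2 (C1.rk j) * 2 ^ C1.μ) * (q2 C1.μ ^ 8 * 2 ^ C1.μ) := by
          have := X.Bη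
          gcongr
      _ = 2 * K ^ 3 * (q2 (C1.rk j) * q2 C1.μ ^ 6) * (q2 C1.μ * 2 ^ C1.μ) ^ 2 := by ring
      _ = 2 * K ^ 3 * (q2 (C1.rk j) * q2 C1.μ ^ 6) := by rw [hpη]; ring
      _ ≤ _ := by
        have : q2 C1.μ ^ 6 ≤ q2 C1.μ ^ 5 := pow_le_pow_of_le_one hη.le hη1 (by norm_num)
        gcongr
  have t2 : |((C1.F j ω).al - rE C1 C2 j i ω * (C2.F i ω).al) * ((C1.l ω').N (C2.s i ω) - (C1.l ω).N (C2.s i ω))| ≤
      5 * K ^ 3 * (q2 (C1.rk j) * q2 C1.μ ^ 5) := by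
    rw [abs_mul]
    calc _ ≤ |(C1.F j ω).al - rE C1 C2 j i ω * (C2.F i ω).al| * (q2 (C2.a i) * q2 b * 2 ^ C1.μ) :=
          mul_le_mul_of_nonneg_left nN (abs_nonneg _)
      _ = (|(C1.F j ω).al - rE C1 C2 j i ω * (C2.F i ω).al| * q2 (C2.a i)) * (q2 b * 2 ^ C1.μ) := by ring
      _ ≤ (5 * K ^ 3 * (q2 (C1.rk j) * q2 C1.μ ^ 5)) * (q2 C1.μ ^ 8 * 2 ^ C1.μ) := by
        have := X.Bη
        gcongr
      _ = (5 * K ^ 3 * (q2 (C1.rk j) * q2 C1.μ ^ 5)) * (q2 C1.μ ^ 7 * (q2 C1.μ * 2 ^ C1.μ)) := by ring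
      _ ≤ (5 * K ^ 3 * (q2 (C1.rk j) * q2 C1.μ ^ 5)) * 1 := by
        rw [hpη, mul_one]
        exact mul_le_mul_of_nonneg_left (pow_le_one₀ hη.le hη1) (by positivity)
      _ = _ := mul_one _
  have hnum : |((C1.F j ω').cN (C1.l ω') (C1.s j ω') - (C1.F j ω).cN (C1.l ω) (C1.s j ω)) -
      rE C1 C2 j i ω * ((C2.F i ω').cN (C1.l ω') (C2.s i ω') - (C2.F i ω).cN (C1.l ω) (C2.s i ω))| ≤
      7 * K ^ 3 * (q2 (C1.rk j) * q2 C1.μ ^ 5) := by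
    rw [key]
    have := abs_sub (TE C1 C2 j i ω * ((C1.l ω').w - (C1.l ω).w))
      (((C1.F j ω).al - rE C1 C2 j i ω * (C2.F i ω).al) * ((C1.l ω').N (C2.s i ω) - (C1.l ω).N (C2.s i ω)))
    linarith
  have hr := X.rat_near hK ok'.n2 e3 c0' hnum
  have e5 : TE C1 C2 j i ω' - TE C1 C2 j i ω = (rE C1 C2 j i ω' - rE C1 C2 j i ω) * (C2.F i ω).ka := by
    unfold TE
    rw [f2, f3, i2, si, sf]
    ring
  rw [e5]
  refine (amul hr ok.kE).trans (le_of_eq ?_)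
  ring

/-- slope of the digits of `D` -/
theorem sD {ω : Ω} (hω : S ω) : |(GD C1 j b ω).cV (C1.l ω) (C1.s j ω) - C1.p ω * (GD C1 j b ω).cN (C1.l ω) (C1.s j ω)| ≤
    2 * K * (q2 (C1.rk j) * q2 b * (2 ^ C1.μ) ^ 3) := by
  have ok := X.ok ω hω
  have hK := X.K1
  have c0' : 0 < (C1.F j ω).cN (C1.l ω) (C1.s j ω) := pos_of_mul hK ok.n1
  have hm : C1.R j b - 3 * C1.μ = C1.rk j + b - 3 * C1.μ := by unfold Pth.R Pth.bs; have := X.k1; omega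
  unfold GD
  rw [Fr_cN, Fr_cV, F_cV]
  have h1 : |(rd (C1.rf j) (C1.p ω) - C1.p ω) * (C1.F j ω).cN (C1.l ω) (C1.s j ω)| ≤ q2 (C1.rk j + b) * K := by
    rw [abs_mul, abs_of_pos c0']
    exact mul_le_mul ((rd_err _ _).trans (q2_le X.k1)) ok.n1' c0'.le (q2_pos _).le
  have h2 : |C1.ro 4 (C1.R j b - 3 * C1.μ) (C1.sl j b ω) - C1.sl j b ω| ≤ q2 (C1.rk j + b) * 2 ^ (3 * C1.μ) := by
    refine (ro_err C1 4 _ _).trans ?_
    rw [hm]
    exact q2_sub _ _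
  have h3 : (1:ℝ) ≤ 2 ^ (3 * C1.μ) := one_le_pow₀ (by norm_num)
  have h4 : (2:ℝ) ^ (3 * C1.μ) = (2 ^ C1.μ) ^ 3 := by rw [← pow_mul, mul_comm]
  have h5 : q2 (C1.rk j + b) = q2 (C1.rk j) * q2 b := q2_add _ _
  have h6 : 0 < q2 (C1.rk j + b) := q2_pos _
  rw [← h5, ← h4]
  have e : rd (C1.rf j) (C1.p ω) * (C1.F j ω).cN (C1.l ω) (C1.s j ω) +
      (C1.ro 4 (C1.R j b - 3 * C1.μ) (C1.sl j b ω) - C1.sl j b ω) -
      C1.p ω * (C1.F j ω).cN (C1.l ω) (C1.s j ω) =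
      (rd (C1.rf j) (C1.p ω) - C1.p ω) * (C1.F j ω).cN (C1.l ω) (C1.s j ω) +
      (C1.ro 4 (C1.R j b - 3 * C1.μ) (C1.sl j b ω) - C1.sl j b ω) := by ring
  rw [e]
  refine (abs_add_le _ _).trans ((add_le_add h1 h2).trans ?_)
  have h7 : q2 (C1.rk j + b) * K ≤ K * (q2 (C1.rk j + b) * 2 ^ (3 * C1.μ)) := by
    rw [mul_comm]
    exact mul_le_mul_of_nonneg_left (le_mul_of_one_le_right h6.le h3) (by linarith)
  have h8 : q2 (C1.rk j + b) * 2 ^ (3 * C1.μ) ≤ K * (q2 (C1.rk j + b) * 2 ^ (3 * C1.μ)) :=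
    le_mul_of_one_le_left (by positivity) hK
  linarith

/-- the square of the ratio, from the digits of `D` -/
theorem r_sq {ω : Ω} (hω : S ω) : |rW C1 un j ω ^ 2 - ((GD C1 j b ω).cN (C1.l ω) (C1.s j ω) ^ 2 +
    (GD C1 j b ω).cV (C1.l ω) (C1.s j ω) ^ 2)| ≤ 9 * K ^ 5 * (q2 (C1.rk j) * q2 C1.μ ^ 5) := by
  have ok := X.ok ω hω
  have hK := X.K1
  have hk := q2_pos (C1.rk j)
  have hk1 := q2_one (C1.rk j)
  have hη := q2_pos C1.μ
  have hη1 := q2_one C1.μ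
  have hB := q2_pos b
  have hpη := pη C1.μ
  have c0 := pos_of_mul hK ok.n1
  have u0 := pos_of_mul hK ok.n3
  have h1 := X.sD hω
  have hc : (GD C1 j b ω).cN (C1.l ω) (C1.s j ω) = (C1.F j ω).cN (C1.l ω) (C1.s j ω) := rfl
  rw [hc] at h1 ⊢
  set c := (C1.F j ω).cN (C1.l ω) (C1.s j ω) with hcd
  set sV := (GD C1 j b ω).cV (C1.l ω) (C1.s j ω) with hsV
  have hBM : q2 (C1.rk j) * q2 b * (2 ^ C1.μ) ^ 3 ≤ q2 (C1.rk j) * q2 C1.μ ^ 5 := by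
    calc _ ≤ q2 (C1.rk j) * q2 C1.μ ^ 8 * (2 ^ C1.μ) ^ 3 := by
          have := X.Bη
          gcongr
      _ = q2 (C1.rk j) * q2 C1.μ ^ 5 * (q2 C1.μ * 2 ^ C1.μ) ^ 3 := by ring
      _ = _ := by rw [hpη]; ring
  have h2 : |sV - C1.p ω * c| ≤ 2 * K * (q2 (C1.rk j) * q2 C1.μ ^ 5) := h1.trans (by gcongr)
  have hη5 : q2 C1.μ ^ 5 ≤ 1 := pow_le_one₀ hη.le hη1
  have hkη : q2 (C1.rk j) * q2 C1.μ ^ 5 ≤ 1 := mul_le_one₀ hk1 (by positivity) hη5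
  have pc : |C1.p ω * c| ≤ K := by
    have h3 : |C1.p ω| ≤ 1 := ok.p1.trans (q2_one _)
    have h4 : |c| ≤ K := by rw [abs_of_pos c0]; exact ok.n1'
    have := amul h3 h4
    linarith
  have h3 : |sV + C1.p ω * c| ≤ 4 * K := by
    have x1 := abs_add_le (sV - C1.p ω * c) (2 * (C1.p ω * c))
    rw [show sV - C1.p ω * c + 2 * (C1.p ω * c) = sV + C1.p ω * c by ring, abs_mul, abs_two] at x1
    have x2 : 2 * K * (q2 (C1.rk j) * q2 C1.μ ^ 5) ≤ 2 * K * 1 := by gcongr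
    linarith
  have h4 : |rW C1 un j ω| ≤ K ^ 2 := (X.W_bd hω).1
  have e2 : rW C1 un j ω * un ω = c := by
    unfold rW
    rw [div_mul_cancel₀ _ u0.ne']
  have key : rW C1 un j ω ^ 2 - (c ^ 2 + sV ^ 2) = -(rW C1 un j ω ^ 2 * (un ω ^ 2 * (1 + C1.p ω ^ 2) - 1)) -
      (sV - C1.p ω * c) * (sV + C1.p ω * c) := by
    rw [← e2]
    ring
  rw [key]
  have h5 : |rW C1 un j ω ^ 2| ≤ (K ^ 2) ^ 2 := by
    rw [abs_pow]
    exact pow_le_pow_left₀ (abs_nonneg _) h4 2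
  have x1 := amul h5 ok.nm
  have x2 := amul h2 h3
  have x3 := abs_sub (-(rW C1 un j ω ^ 2 * (un ω ^ 2 * (1 + C1.p ω ^ 2) - 1))) ((sV - C1.p ω * c) * (sV + C1.p ω * c))
  rw [abs_neg] at x3
  have hY : 0 < q2 (C1.rk j) * q2 C1.μ ^ 5 := by positivity
  have x4 : (K ^ 2) ^ 2 * (K * (q2 (C1.rk j) * q2 C1.μ ^ 5)) = K ^ 5 * (q2 (C1.rk j) * q2 C1.μ ^ 5) := by ring
  have x5 : 2 * K * (q2 (C1.rk j) * q2 C1.μ ^ 5) * (4 * K) ≤ 8 * (K ^ 5 * (q2 (C1.rk j) * q2 C1.μ ^ 5)) := by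
    calc _ = 8 * (K ^ 2 * (q2 (C1.rk j) * q2 C1.μ ^ 5)) := by ring
      _ ≤ _ := by
        have : K ^ 2 ≤ K ^ 5 := pow_le_pow_right₀ hK (by norm_num)
        gcongr
  linarith

/-- **the ratio is determined by `D`** -/
theorem r_near {ω ω' : Ω} (hω : S ω) (hω' : S ω') (hD : C1.cell j b ω' = C1.cell j b ω) :
    |rW C1 un j ω' - rW C1 un j ω| ≤ 12 * K ^ 7 * (q2 (C1.rk j) * q2 C1.μ ^ 5) := by
  have ok := X.ok ω hω
  have ok' := X.ok ω' hω'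
  have hK := X.K1
  have hk := q2_pos (C1.rk j)
  have hη := q2_pos C1.μ
  have hη1 := q2_one C1.μ
  have hB := q2_pos b
  have hA := q2_pos (C1.a j)
  have hpη := pη C1.μ
  have nr := near C1 (n := j) (d := b) X.k1 hD
  have c0 := pos_of_mul hK ok.n1
  have c0' := pos_of_mul hK ok'.n1
  have u0 := pos_of_mul hK ok.n3
  have u0' := pos_of_mul hK ok'.n3
  have h1 := X.r_sq hω
  have h2 := X.r_sq hω'
  rw [nr.G, nr.s, inv_Fu] at h2
  rw [inv_Fu] at h1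
  set G := GD C1 j b ω with hG
  set s := C1.s j ω with hs
  have hM1 : (1:ℝ) ≤ 2 ^ C1.μ := one_le_pow₀ (by norm_num)
  have B2 : q2 b ^ 2 * (2 ^ C1.μ) ^ 7 ≤ q2 C1.μ ^ 9 := by
    calc _ ≤ (q2 C1.μ ^ 8) ^ 2 * (2 ^ C1.μ) ^ 7 := by
          have := X.Bη
          gcongr
      _ = q2 C1.μ ^ 9 * (q2 C1.μ * 2 ^ C1.μ) ^ 7 := by ring
      _ = _ := by rw [hpη]; ring
  have hη95 : q2 C1.μ ^ 9 ≤ q2 C1.μ ^ 5 := pow_le_pow_of_le_one hη.le hη1 (by norm_num)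
  have g1 : |2 * G.ka * (G.gd (C1.l ω') s - G.gd (C1.l ω) s)| ≤ 2 * (K * (q2 (C1.rk j) * q2 C1.μ ^ 5)) := by
    have a1 : |2 * G.ka| ≤ 2 * K := by
      rw [abs_mul, abs_two]
      have := ok.kD
      have e : G.ka = (C1.F j ω).ka := rfl
      rw [e]
      linarith
    refine (amul a1 nr.gd).trans ?_
    calc 2 * K * (q2 b ^ 2 * q2 (C1.rk j) * (2 ^ C1.μ) ^ 5) ≤ 2 * K * (q2 b ^ 2 * q2 (C1.rk j) * (2 ^ C1.μ) ^ 7) := by
          have := pow_le_pow_right₀ hM1 (show 5 ≤ 7 by norm_num)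
          gcongr
      _ = 2 * K * (q2 (C1.rk j) * (q2 b ^ 2 * (2 ^ C1.μ) ^ 7)) := by ring
      _ ≤ 2 * K * (q2 (C1.rk j) * q2 C1.μ ^ 5) := by
        have := B2.trans hη95
        gcongr
      _ = _ := by ring
  have g2 : |2 * G.al * (G.g (C1.l ω') s - G.g (C1.l ω) s)| ≤ 2 * (K * (q2 (C1.rk j) * q2 C1.μ ^ 5)) := by
    have e : G.al = (C1.F j ω).al := rfl
    rw [e, abs_mul, abs_mul, abs_two]
    have a2 := ok.aD
    calc 2 * |(C1.F j ω).al| * |G.g (C1.l ω') s - G.g (C1.l ω) s| ≤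
          2 * |(C1.F j ω).al| * (q2 (C1.a j) * q2 b ^ 2 * q2 (C1.rk j) * (2 ^ C1.μ) ^ 7) := by
          have := nr.g
          gcongr
      _ = 2 * ((|(C1.F j ω).al| * q2 (C1.a j)) * (q2 (C1.rk j) * (q2 b ^ 2 * (2 ^ C1.μ) ^ 7))) := by ring
      _ ≤ 2 * (K * (q2 (C1.rk j) * q2 C1.μ ^ 5)) := by
        have := B2.trans hη95
        gcongr
  have hY : 0 < q2 (C1.rk j) * q2 C1.μ ^ 5 := by positivity
  have KY : K * (q2 (C1.rk j) * q2 C1.μ ^ 5) ≤ K ^ 5 * (q2 (C1.rk j) * q2 C1.μ ^ 5) := by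
    have : K ≤ K ^ 5 := by
      calc K = K ^ 1 := (pow_one K).symm
        _ ≤ K ^ 5 := pow_le_pow_right₀ hK (by norm_num)
    gcongr
  have sq : |rW C1 un j ω' ^ 2 - rW C1 un j ω ^ 2| ≤ 22 * K ^ 5 * (q2 (C1.rk j) * q2 C1.μ ^ 5) := by
    have h1 := ab h1
    have h2 := ab h2
    have g1 := ab g1
    have g2 := ab g2
    rw [abs_le]
    constructor <;> nlinarith
  -- lower bound of the sum
  have lo : ∀ ω, S ω → 1 / K ^ 2 ≤ rW C1 un j ω := by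
    intro ω hω
    have ok := X.ok ω hω
    have u0 := pos_of_mul hK ok.n3
    unfold rW
    rw [div_le_div_iff₀ (by positivity) u0, one_mul]
    calc un ω ≤ K := ok.n3'
      _ = K * 1 := (mul_one K).symm
      _ ≤ K * (K * (C1.F j ω).cN (C1.l ω) (C1.s j ω)) := mul_le_mul_of_nonneg_left ok.n1 (by linarith)
      _ = _ := by ring
  have l1 := lo ω hω
  have l2 := lo ω' hω'
  have hs0 : 2 / K ^ 2 ≤ rW C1 un j ω' + rW C1 un j ω := by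
    have : 2 / K ^ 2 = 1 / K ^ 2 + 1 / K ^ 2 := by ring
    linarith
  have hpos : 0 < 2 / K ^ 2 := by positivity
  have key : |rW C1 un j ω' - rW C1 un j ω| * (rW C1 un j ω' + rW C1 un j ω) = |rW C1 un j ω' ^ 2 - rW C1 un j ω ^ 2| := by
    rw [show rW C1 un j ω' ^ 2 - rW C1 un j ω ^ 2 = (rW C1 un j ω' - rW C1 un j ω) * (rW C1 un j ω' + rW C1 un j ω) by
      ring, abs_mul, abs_of_pos (lt_of_lt_of_le hpos hs0)]
  have k2 : |rW C1 un j ω' - rW C1 un j ω| * (2 / K ^ 2) ≤ 22 * K ^ 5 * (q2 (C1.rk j) * q2 C1.μ ^ 5) := by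
    refine le_trans (mul_le_mul_of_nonneg_left hs0 (abs_nonneg _)) ?_
    rw [key]
    exact sq
  have k3 : |rW C1 un j ω' - rW C1 un j ω| = (|rW C1 un j ω' - rW C1 un j ω| * (2 / K ^ 2)) * (K ^ 2 / 2) := by
    field_simp
  rw [k3]
  calc _ ≤ (22 * K ^ 5 * (q2 (C1.rk j) * q2 C1.μ ^ 5)) * (K ^ 2 / 2) := mul_le_mul_of_nonneg_right k2 (by positivity)
    _ = 11 * (K ^ 7 * (q2 (C1.rk j) * q2 C1.μ ^ 5)) := by ring
    _ ≤ 12 * (K ^ 7 * (q2 (C1.rk j) * q2 C1.μ ^ 5)) := by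
      have : 0 < K ^ 7 * (q2 (C1.rk j) * q2 C1.μ ^ 5) := by positivity
      linarith
    _ = _ := by ring

/-- kappa and curvature of two points in the same `D`, `W` -/
theorem W_near {ω ω' : Ω} (hω : S ω) (hω' : S ω') (hD : C1.cell j b ω' = C1.cell j b ω)
    (hk : |κW ω' - κW ω| ≤ K * (q2 (C1.rk j) * q2 C1.μ ^ 5))
    (ha : |αW ω' - αW ω| * q2 (C1.a j) ≤ K * (q2 (C1.rk j) * q2 C1.μ ^ 5)) :
    |kap C1 un κW j ω' - kap C1 un κW j ω| ≤ 13 * K ^ 8 * (q2 (C1.rk j) * q2 C1.μ ^ 5) ∧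
    |alp C1 un αW j ω' - alp C1 un αW j ω| * q2 (C1.a j) ≤ 13 * K ^ 8 * (q2 (C1.rk j) * q2 C1.μ ^ 5) := by
  have ok := X.ok ω hω
  have ok' := X.ok ω' hω'
  have hK := X.K1
  have hk0 := q2_pos (C1.rk j)
  have hη := q2_pos C1.μ
  have hη1 := q2_one C1.μ
  have hA := q2_pos (C1.a j)
  obtain ⟨sf, f1, f2, f3⟩ := X.sameD hD
  have hr := X.r_near hω hω' hD
  have hr' := (X.W_bd hω).1
  have hY : 0 < q2 (C1.rk j) * q2 C1.μ ^ 5 := by positivity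
  have K38 : K ^ 3 * (q2 (C1.rk j) * q2 C1.μ ^ 5) ≤ K ^ 8 * (q2 (C1.rk j) * q2 C1.μ ^ 5) := by
    have : K ^ 3 ≤ K ^ 8 := pow_le_pow_right₀ hK (by norm_num)
    gcongr
  constructor
  · have e5 : kap C1 un κW j ω' - kap C1 un κW j ω = (rW C1 un j ω' - rW C1 un j ω) * κW ω' +
        rW C1 un j ω * (κW ω' - κW ω) := by
      unfold kap
      rw [f2]
      ring
    rw [e5]
    have x1 := amul hr ok'.kW
    have x2 := amul hr' hk
    have x3 := abs_add_le ((rW C1 un j ω' - rW C1 un j ω) * κW ω') (rW C1 un j ω * (κW ω' - κW ω))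
    have x4 : 12 * K ^ 7 * (q2 (C1.rk j) * q2 C1.μ ^ 5) * K = 12 * (K ^ 8 * (q2 (C1.rk j) * q2 C1.μ ^ 5)) := by ring
    have x5 : K ^ 2 * (K * (q2 (C1.rk j) * q2 C1.μ ^ 5)) = K ^ 3 * (q2 (C1.rk j) * q2 C1.μ ^ 5) := by ring
    linarith
  · have e5 : alp C1 un αW j ω' - alp C1 un αW j ω = (rW C1 un j ω' - rW C1 un j ω) * αW ω' +
        rW C1 un j ω * (αW ω' - αW ω) := by
      unfold alp
      rw [f3]
      ring
    have h1 : |αW ω' * q2 (C1.a j)| ≤ K := by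
      rw [abs_mul, abs_of_pos hA]
      exact ok'.w0.trans (mul_le_of_le_one_right (by linarith) (pow_le_one₀ hη.le hη1))
    have h2 : |(αW ω' - αW ω) * q2 (C1.a j)| ≤ K * (q2 (C1.rk j) * q2 C1.μ ^ 5) := by
      rw [abs_mul, abs_of_pos hA]
      exact ha
    rw [e5, ← abs_of_pos hA, ← abs_mul]
    have e6 : ((rW C1 un j ω' - rW C1 un j ω) * αW ω' + rW C1 un j ω * (αW ω' - αW ω)) * q2 (C1.a j) =
      (rW C1 un j ω' - rW C1 un j ω) * (αW ω' * q2 (C1.a j)) + rW C1 un j ω * ((αW ω' - αW ω) * q2 (C1.a j)) := by ring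
    rw [e6]
    have x1 := amul hr h1
    have x2 := amul hr' h2
    have x3 := abs_add_le ((rW C1 un j ω' - rW C1 un j ω) * (αW ω' * q2 (C1.a j)))
      (rW C1 un j ω * ((αW ω' - αW ω) * q2 (C1.a j)))
    have x4 : 12 * K ^ 7 * (q2 (C1.rk j) * q2 C1.μ ^ 5) * K = 12 * (K ^ 8 * (q2 (C1.rk j) * q2 C1.μ ^ 5)) := by ring
    have x5 : K ^ 2 * (K * (q2 (C1.rk j) * q2 C1.μ ^ 5)) = K ^ 3 * (q2 (C1.rk j) * q2 C1.μ ^ 5) := by ring
    linarith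

end LCtx

end Vale.Agent.P106.U.H466
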