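import Vale.Agent.P106.U.Cell

/-!
# P106 / U / H466 : two rays in the same late cell, frame of the early step (helper466)

`l, m` two light rays with own slopes `p, q`, seen at the time `t`; `F` the slab functional of the late step (common to the
two rays), `G` the functional of the early step written at the time `t`; `r = G.cN / F.cN` at `l`, `T = r F.ka - G.ka`.
Units: `A` (time), `B` (cap), `k` (kappa) of the early step, `A'`, `k'` of the late step, `η M = 1` the margin.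
* `Es` : the hypotheses, from the digits of the cell.
* `Es.dw`, `Es.g`, `Es.br`, `Es.gd` : the normal velocity, the value of `G`, the slope relative to `G`, the derivative of `G`.
-/

set_option autoImplicit false

namespace Vale.Agent.P106.U.H466

open Vale.Agent.P106.U.Cell

/-- values of two functionals on two rays -/
theorem g_pair (F G : Fu) (l m : Ray) (s r : ℝ) (h : G.cN l s = r * F.cN l s) :
    G.g m s - G.g l s = r * (F.g m s - F.g l s) - (G.cV l s - r * F.cV l s) * (m.X s - l.X s) -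
      (G.ka - r * F.ka) * l.dz m s - (G.al - r * F.al) * (((m.X s - l.X s) ^ 2 + (m.N s - l.N s) ^ 2) / 2) := by
  rw [Fu.g_sub G l m s, Fu.g_sub F l m s, h]
  ring

/-- derivatives of two functionals on two rays -/
theorem gd_pair (F G : Fu) (l m : Ray) (s r : ℝ) (h : G.cN l s = r * F.cN l s) :
    G.gd m s - G.gd l s = r * (F.gd m s - F.gd l s) - (G.cV l s - r * F.cV l s) * (m.v - l.v) -
      (G.ka - r * F.ka) * (((m.v - l.v) ^ 2 + (m.w - l.w) ^ 2) / 2) -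
      (G.al - r * F.al) * ((m.X s - l.X s) * (m.v - l.v) + (m.N s - l.N s) * (m.w - l.w) - l.dz m s) := by
  rw [Fu.gd_sub G l m s, Fu.gd_sub F l m s, h]
  ring

/-- slopes relative to `G` on two rays -/
theorem br_pair (F G : Fu) (l m : Ray) (s r p q : ℝ) (h : G.cN l s = r * F.cN l s) :
    (q * G.cN m s - G.cV m s) - (p * G.cN l s - G.cV l s) =
      q * (-(G.ka - r * F.ka) * (m.w - l.w) - (G.al - r * F.al) * (m.N s - l.N s)) -
      (G.ka - r * F.ka) * (m.v - l.v) - (G.al - r * F.al) * (m.X s - l.X s) -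
      r * ((F.cV m s - q * F.cN m s) - (F.cV l s - p * F.cN l s)) := by
  have h' : G.ga - G.ka * l.w - G.al * l.N s = r * (F.ga - F.ka * l.w - F.al * l.N s) := h
  unfold Fu.cN Fu.cV
  linear_combination (q - p) * h'

/-- data of two rays in the same late cell -/
structure Es (K A A' B k k' η M : ℝ) (F G : Fu) (l m : Ray) (p q t r : ℝ) : Prop where
  K1 : 1 ≤ K
  A0 : 0 < A
  A'0 : 0 < A'
  B0 : 0 < B
  k0 : 0 < k
  k'0 : 0 < k'
  η0 : 0 < η
  η1 : η ≤ 1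
  M1 : η * M = 1
  AA : A' ≤ A * η ^ 8
  kk : k' ≤ k * η ^ 8
  Bη : B ≤ η ^ 8
  kB : k' * B ≤ η ^ 8
  hv : |m.v - l.v| ≤ B
  hw : |m.w - l.w| ≤ B * M
  hX : |m.X t - l.X t| ≤ A' * B * M
  hN : |m.N t - l.N t| ≤ A' * B * M
  hz : |l.dz m t| ≤ 3 * A' * B ^ 2 * M ^ 3
  hg : |F.g m t - F.g l t| ≤ A' * B ^ 2 * k' * M ^ 7
  hd : |F.gd m t - F.gd l t| ≤ B ^ 2 * k' * M ^ 5
  c1 : 1 ≤ K * F.cN l t
  cr : G.cN l t = r * F.cN l t
  r0 : |r| ≤ K ^ 2
  sl : |F.cV l t - p * F.cN l t| ≤ 2 * K * (k' * B * M ^ 3)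
  sm : |F.cV m t - q * F.cN m t| ≤ 2 * K * (k' * B * M ^ 3)
  cN2 : F.cN l t ≤ K
  p1 : |p| ≤ η ^ 2
  q1 : |q| ≤ η ^ 2
  br : |p * G.cN l t - G.cV l t| ≤ 13 * K ^ 3 * (k * B * M ^ 3)
  ka : |F.ka| ≤ K
  al : |F.al| * A' ≤ K
  T : |G.ka - r * F.ka| ≤ 2 * K ^ 3 * (k * M)
  aH : |G.al - r * F.al| * A' ≤ 5 * K ^ 3 * (k * η ^ 5)

namespace Es

variable {K A A' B k k' η M : ℝ} {F G : Fu} {l m : Ray} {p q t r : ℝ} (h : Es K A A' B k k' η M F G l m p q t r)
include h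

theorem M0 : 0 < M := by
  have h1 := h.M1
  have h2 := h.η0
  by_contra hn
  push Not at hn
  nlinarith

theorem pw (n : ℕ) : η ^ n * M ^ n = 1 := by rw [← mul_pow, h.M1, one_pow]

/-- `x M^n` against `η^(n + j)` -/
theorem cut {x y : ℝ} (n j : ℕ) (hx : x ≤ y * η ^ (n + j)) : x * M ^ n ≤ y * η ^ j := by
  have h1 : x * M ^ n ≤ y * η ^ (n + j) * M ^ n := mul_le_mul_of_nonneg_right hx (pow_pos h.M0 n).le
  have h2 : y * η ^ (n + j) * M ^ n = y * η ^ j * (η ^ n * M ^ n) := by rw [pow_add]; ring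
  rw [h2, h.pw, mul_one] at h1
  exact h1

theorem ηp (n : ℕ) : η ^ n ≤ 1 := pow_le_one₀ h.η0.le h.η1

theorem ηm {i j : ℕ} (hij : i ≤ j) : η ^ j ≤ η ^ i := pow_le_pow_of_le_one h.η0.le h.η1 hij

/-- the normal velocity -/
theorem dw : |m.w - l.w| ≤ 20 * K ^ 2 * (B * η ^ 2) := by
  have hK := h.K1
  have hM0 := h.M0
  have hB0 := h.B0
  have hη0 := h.η0
  have hA'0 := h.A'0
  have hk'0 := h.k'0
  have hsub := Fu.gd_sub F l m t
  set c := F.cN l t with hc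
  have hc0 : 0 < c := by
    by_contra hn
    push Not at hn
    nlinarith [h.c1]
  have e : c * (m.w - l.w) = (F.gd m t - F.gd l t) + F.cV l t * (m.v - l.v) +
      F.ka * (((m.v - l.v) ^ 2 + (m.w - l.w) ^ 2) / 2) +
      F.al * ((m.X t - l.X t) * (m.v - l.v) + (m.N t - l.N t) * (m.w - l.w) - l.dz m t) := by
    rw [hsub]; ring
  have hB : B * M ≤ η ^ 7 := by
    have := h.cut 1 7 (x := B) (y := 1) (by simpa using h.Bη)
    simpa using this
  -- the terms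
  have t1 : |F.gd m t - F.gd l t| ≤ B * η ^ 3 := by
    refine h.hd.trans ?_
    have h1 : B ^ 2 * k' ≤ B * η ^ (5 + 3) := by
      calc B ^ 2 * k' = B * (k' * B) := by ring
        _ ≤ B * η ^ 8 := mul_le_mul_of_nonneg_left h.kB hB0.le
    exact h.cut 5 3 h1
  have tc : |F.cV l t| ≤ 3 * K * η ^ 2 := by
    have h1 : |F.cV l t| ≤ |F.cV l t - p * c| + |p * c| := by
      have := abs_add_le (F.cV l t - p * c) (p * c)
      rwa [sub_add_cancel] at this
    have h2 : |p * c| ≤ η ^ 2 * K := by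
      rw [abs_mul, abs_of_pos hc0]
      exact mul_le_mul h.p1 h.cN2 hc0.le (by positivity)
    have h3 : k' * B * M ^ 3 ≤ 1 * η ^ 5 := h.cut 3 5 (by simpa using h.kB)
    have h4 : η ^ 5 ≤ η ^ 2 := h.ηm (by norm_num)
    have h5 := h.sl
    have h6 : 2 * K * (k' * B * M ^ 3) ≤ 2 * K * η ^ 2 :=
      mul_le_mul_of_nonneg_left (by linarith) (by positivity)
    linarith
  have t2 : |F.cV l t * (m.v - l.v)| ≤ 3 * K * (B * η ^ 2) := by
    rw [abs_mul]
    calc |F.cV l t| * |m.v - l.v| ≤ (3 * K * η ^ 2) * B := mul_le_mul tc h.hv (abs_nonneg _) (by positivity)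
      _ = 3 * K * (B * η ^ 2) := by ring
  have hBB : B ^ 2 ≤ B * η ^ 8 := by
    rw [sq]; exact mul_le_mul_of_nonneg_left h.Bη hB0.le
  have hBM : (B * M) ^ 2 ≤ B * η ^ 6 := by
    have := h.cut 2 6 (x := B ^ 2) (y := B) (by simpa using hBB)
    calc (B * M) ^ 2 = B ^ 2 * M ^ 2 := by ring
      _ ≤ B * η ^ 6 := this
  have h82 : B * η ^ 8 ≤ B * η ^ 2 := mul_le_mul_of_nonneg_left (h.ηm (by norm_num)) hB0.le
  have h62 : B * η ^ 6 ≤ B * η ^ 2 := mul_le_mul_of_nonneg_left (h.ηm (by norm_num)) hB0.le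
  have h32 : B * η ^ 3 ≤ B * η ^ 2 := mul_le_mul_of_nonneg_left (h.ηm (by norm_num)) hB0.le
  have t3 : |F.ka * (((m.v - l.v) ^ 2 + (m.w - l.w) ^ 2) / 2)| ≤ K * (B * η ^ 2) := by
    rw [abs_mul]
    have h1 : (m.v - l.v) ^ 2 ≤ B ^ 2 := sq_le_sq' (by linarith [(abs_le.1 h.hv).1]) (abs_le.1 h.hv).2
    have h2 : (m.w - l.w) ^ 2 ≤ (B * M) ^ 2 := sq_le_sq' (by linarith [(abs_le.1 h.hw).1]) (abs_le.1 h.hw).2
    have h3 : |((m.v - l.v) ^ 2 + (m.w - l.w) ^ 2) / 2| ≤ B * η ^ 2 := by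
      rw [abs_of_nonneg (by positivity)]
      linarith
    exact mul_le_mul h.ka h3 (abs_nonneg _) (by positivity)
  have t4 : |F.al * ((m.X t - l.X t) * (m.v - l.v) + (m.N t - l.N t) * (m.w - l.w) - l.dz m t)| ≤ 5 * K * (B * η ^ 2) := by
    rw [abs_mul]
    have h1 : |(m.X t - l.X t) * (m.v - l.v)| ≤ A' * (B * η ^ 2) := by
      rw [abs_mul]
      calc |m.X t - l.X t| * |m.v - l.v| ≤ (A' * B * M) * B := mul_le_mul h.hX h.hv (abs_nonneg _) (by positivity)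
        _ = A' * (B * (B * M)) := by ring
        _ ≤ A' * (B * η ^ 7) := by gcongr
        _ ≤ A' * (B * η ^ 2) := mul_le_mul_of_nonneg_left (mul_le_mul_of_nonneg_left (h.ηm (by norm_num)) hB0.le) hA'0.le
    have h2 : |(m.N t - l.N t) * (m.w - l.w)| ≤ A' * (B * η ^ 2) := by
      rw [abs_mul]
      calc |m.N t - l.N t| * |m.w - l.w| ≤ (A' * B * M) * (B * M) := mul_le_mul h.hN h.hw (abs_nonneg _) (by positivity)
        _ = A' * (B * M) ^ 2 := by ring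
        _ ≤ A' * (B * η ^ 2) := mul_le_mul_of_nonneg_left (by linarith) hA'0.le
    have h3 : |l.dz m t| ≤ A' * (3 * (B * η ^ 2)) := by
      refine h.hz.trans ?_
      have h5 : B ^ 2 * M ^ 3 ≤ B * η ^ 5 := h.cut 3 5 (by simpa using hBB)
      have h6 : η ^ 5 ≤ η ^ 2 := h.ηm (by norm_num)
      calc 3 * A' * B ^ 2 * M ^ 3 = A' * (3 * (B ^ 2 * M ^ 3)) := by ring
        _ ≤ A' * (3 * (B * η ^ 2)) := by
          have h7 := h5.trans (mul_le_mul_of_nonneg_left h6 hB0.le)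
          exact mul_le_mul_of_nonneg_left (by linarith) hA'0.le
    have h4 : |(m.X t - l.X t) * (m.v - l.v) + (m.N t - l.N t) * (m.w - l.w) - l.dz m t| ≤ A' * (5 * (B * η ^ 2)) := by
      have x1 := abs_sub ((m.X t - l.X t) * (m.v - l.v) + (m.N t - l.N t) * (m.w - l.w)) (l.dz m t)
      have x2 := abs_add_le ((m.X t - l.X t) * (m.v - l.v)) ((m.N t - l.N t) * (m.w - l.w))
      linarith
    calc |F.al| * _ ≤ |F.al| * (A' * (5 * (B * η ^ 2))) := mul_le_mul_of_nonneg_left h4 (abs_nonneg _)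
      _ = (|F.al| * A') * (5 * (B * η ^ 2)) := by ring
      _ ≤ K * (5 * (B * η ^ 2)) := mul_le_mul_of_nonneg_right h.al (by positivity)
      _ = 5 * K * (B * η ^ 2) := by ring
  have hsum : |c * (m.w - l.w)| ≤ 10 * K * (B * η ^ 2) := by
    rw [e]
    have x1 := abs_add_le ((F.gd m t - F.gd l t) + F.cV l t * (m.v - l.v) +
      F.ka * (((m.v - l.v) ^ 2 + (m.w - l.w) ^ 2) / 2))
      (F.al * ((m.X t - l.X t) * (m.v - l.v) + (m.N t - l.N t) * (m.w - l.w) - l.dz m t))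
    have x2 := abs_add_le ((F.gd m t - F.gd l t) + F.cV l t * (m.v - l.v))
      (F.ka * (((m.v - l.v) ^ 2 + (m.w - l.w) ^ 2) / 2))
    have x3 := abs_add_le (F.gd m t - F.gd l t) (F.cV l t * (m.v - l.v))
    have x4 : B * η ^ 2 ≤ K * (B * η ^ 2) := le_mul_of_one_le_left (by positivity) hK
    linarith
  have hfin : |m.w - l.w| ≤ K * |c * (m.w - l.w)| := by
    rw [abs_mul, abs_of_pos hc0, ← mul_assoc]
    exact le_mul_of_one_le_left (abs_nonneg _) h.c1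
  calc |m.w - l.w| ≤ K * |c * (m.w - l.w)| := hfin
    _ ≤ K * (10 * K * (B * η ^ 2)) := mul_le_mul_of_nonneg_left hsum (by linarith)
    _ = 10 * K ^ 2 * (B * η ^ 2) := by ring
    _ ≤ 20 * K ^ 2 * (B * η ^ 2) := by
      have : 0 ≤ K ^ 2 * (B * η ^ 2) := by positivity
      linarith

/-- the normal velocity, smaller own slope -/
theorem dw4 (hp : |p| ≤ η ^ 4) (hkB : k' * B ≤ η ^ 9) : |m.w - l.w| ≤ 20 * K ^ 2 * (B * η ^ 4) := by
  have hK := h.K1
  have hM0 := h.M0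
  have hB0 := h.B0
  have hη0 := h.η0
  have hA'0 := h.A'0
  have hk'0 := h.k'0
  have hsub := Fu.gd_sub F l m t
  set c := F.cN l t with hc
  have hc0 : 0 < c := by
    by_contra hn
    push Not at hn
    nlinarith [h.c1]
  have e : c * (m.w - l.w) = (F.gd m t - F.gd l t) + F.cV l t * (m.v - l.v) +
      F.ka * (((m.v - l.v) ^ 2 + (m.w - l.w) ^ 2) / 2) +
      F.al * ((m.X t - l.X t) * (m.v - l.v) + (m.N t - l.N t) * (m.w - l.w) - l.dz m t) := by
    rw [hsub]; ring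
  have hB : B * M ≤ η ^ 7 := by
    have := h.cut 1 7 (x := B) (y := 1) (by simpa using h.Bη)
    simpa using this
  -- the terms
  have t1 : |F.gd m t - F.gd l t| ≤ B * η ^ 4 := by
    refine h.hd.trans ?_
    have h1 : B ^ 2 * k' ≤ B * η ^ (5 + 4) := by
      calc B ^ 2 * k' = B * (k' * B) := by ring
        _ ≤ B * η ^ 9 := mul_le_mul_of_nonneg_left hkB hB0.le
    exact h.cut 5 4 h1
  have tc : |F.cV l t| ≤ 3 * K * η ^ 4 := by
    have h1 : |F.cV l t| ≤ |F.cV l t - p * c| + |p * c| := by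
      have := abs_add_le (F.cV l t - p * c) (p * c)
      rwa [sub_add_cancel] at this
    have h2 : |p * c| ≤ η ^ 4 * K := by
      rw [abs_mul, abs_of_pos hc0]
      exact mul_le_mul hp h.cN2 hc0.le (by positivity)
    have h3 : k' * B * M ^ 3 ≤ 1 * η ^ 6 := h.cut 3 6 (by simpa using hkB)
    have h4 : η ^ 6 ≤ η ^ 4 := h.ηm (by norm_num)
    have h5 := h.sl
    have h6 : 2 * K * (k' * B * M ^ 3) ≤ 2 * K * η ^ 4 :=
      mul_le_mul_of_nonneg_left (by linarith) (by positivity)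
    linarith
  have t2 : |F.cV l t * (m.v - l.v)| ≤ 3 * K * (B * η ^ 4) := by
    rw [abs_mul]
    calc |F.cV l t| * |m.v - l.v| ≤ (3 * K * η ^ 4) * B := mul_le_mul tc h.hv (abs_nonneg _) (by positivity)
      _ = 3 * K * (B * η ^ 4) := by ring
  have hBB : B ^ 2 ≤ B * η ^ 8 := by
    rw [sq]; exact mul_le_mul_of_nonneg_left h.Bη hB0.le
  have hBM : (B * M) ^ 2 ≤ B * η ^ 6 := by
    have := h.cut 2 6 (x := B ^ 2) (y := B) (by simpa using hBB)
    calc (B * M) ^ 2 = B ^ 2 * M ^ 2 := by ring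
      _ ≤ B * η ^ 6 := this
  have h82 : B * η ^ 8 ≤ B * η ^ 4 := mul_le_mul_of_nonneg_left (h.ηm (by norm_num)) hB0.le
  have h62 : B * η ^ 6 ≤ B * η ^ 4 := mul_le_mul_of_nonneg_left (h.ηm (by norm_num)) hB0.le
  have t3 : |F.ka * (((m.v - l.v) ^ 2 + (m.w - l.w) ^ 2) / 2)| ≤ K * (B * η ^ 4) := by
    rw [abs_mul]
    have h1 : (m.v - l.v) ^ 2 ≤ B ^ 2 := sq_le_sq' (by linarith [(abs_le.1 h.hv).1]) (abs_le.1 h.hv).2
    have h2 : (m.w - l.w) ^ 2 ≤ (B * M) ^ 2 := sq_le_sq' (by linarith [(abs_le.1 h.hw).1]) (abs_le.1 h.hw).2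
    have h3 : |((m.v - l.v) ^ 2 + (m.w - l.w) ^ 2) / 2| ≤ B * η ^ 4 := by
      rw [abs_of_nonneg (by positivity)]
      linarith
    exact mul_le_mul h.ka h3 (abs_nonneg _) (by positivity)
  have t4 : |F.al * ((m.X t - l.X t) * (m.v - l.v) + (m.N t - l.N t) * (m.w - l.w) - l.dz m t)| ≤ 5 * K * (B * η ^ 4) := by
    rw [abs_mul]
    have h1 : |(m.X t - l.X t) * (m.v - l.v)| ≤ A' * (B * η ^ 4) := by
      rw [abs_mul]
      calc |m.X t - l.X t| * |m.v - l.v| ≤ (A' * B * M) * B := mul_le_mul h.hX h.hv (abs_nonneg _) (by positivity)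
        _ = A' * (B * (B * M)) := by ring
        _ ≤ A' * (B * η ^ 7) := by gcongr
        _ ≤ A' * (B * η ^ 4) := mul_le_mul_of_nonneg_left (mul_le_mul_of_nonneg_left (h.ηm (by norm_num)) hB0.le) hA'0.le
    have h2 : |(m.N t - l.N t) * (m.w - l.w)| ≤ A' * (B * η ^ 4) := by
      rw [abs_mul]
      calc |m.N t - l.N t| * |m.w - l.w| ≤ (A' * B * M) * (B * M) := mul_le_mul h.hN h.hw (abs_nonneg _) (by positivity)
        _ = A' * (B * M) ^ 2 := by ring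
        _ ≤ A' * (B * η ^ 4) := mul_le_mul_of_nonneg_left (by linarith) hA'0.le
    have h3 : |l.dz m t| ≤ A' * (3 * (B * η ^ 4)) := by
      refine h.hz.trans ?_
      have h5 : B ^ 2 * M ^ 3 ≤ B * η ^ 5 := h.cut 3 5 (by simpa using hBB)
      have h6 : η ^ 5 ≤ η ^ 4 := h.ηm (by norm_num)
      calc 3 * A' * B ^ 2 * M ^ 3 = A' * (3 * (B ^ 2 * M ^ 3)) := by ring
        _ ≤ A' * (3 * (B * η ^ 4)) := by
          have h7 := h5.trans (mul_le_mul_of_nonneg_left h6 hB0.le)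
          exact mul_le_mul_of_nonneg_left (by linarith) hA'0.le
    have h4 : |(m.X t - l.X t) * (m.v - l.v) + (m.N t - l.N t) * (m.w - l.w) - l.dz m t| ≤ A' * (5 * (B * η ^ 4)) := by
      have x1 := abs_sub ((m.X t - l.X t) * (m.v - l.v) + (m.N t - l.N t) * (m.w - l.w)) (l.dz m t)
      have x2 := abs_add_le ((m.X t - l.X t) * (m.v - l.v)) ((m.N t - l.N t) * (m.w - l.w))
      linarith
    calc |F.al| * _ ≤ |F.al| * (A' * (5 * (B * η ^ 4))) := mul_le_mul_of_nonneg_left h4 (abs_nonneg _)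
      _ = (|F.al| * A') * (5 * (B * η ^ 4)) := by ring
      _ ≤ K * (5 * (B * η ^ 4)) := mul_le_mul_of_nonneg_right h.al (by positivity)
      _ = 5 * K * (B * η ^ 4) := by ring
  have hsum : |c * (m.w - l.w)| ≤ 10 * K * (B * η ^ 4) := by
    rw [e]
    have x1 := abs_add_le ((F.gd m t - F.gd l t) + F.cV l t * (m.v - l.v) +
      F.ka * (((m.v - l.v) ^ 2 + (m.w - l.w) ^ 2) / 2))
      (F.al * ((m.X t - l.X t) * (m.v - l.v) + (m.N t - l.N t) * (m.w - l.w) - l.dz m t))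
    have x2 := abs_add_le ((F.gd m t - F.gd l t) + F.cV l t * (m.v - l.v))
      (F.ka * (((m.v - l.v) ^ 2 + (m.w - l.w) ^ 2) / 2))
    have x3 := abs_add_le (F.gd m t - F.gd l t) (F.cV l t * (m.v - l.v))
    have x4 : B * η ^ 4 ≤ K * (B * η ^ 4) := le_mul_of_one_le_left (by positivity) hK
    linarith
  have hfin : |m.w - l.w| ≤ K * |c * (m.w - l.w)| := by
    rw [abs_mul, abs_of_pos hc0, ← mul_assoc]
    exact le_mul_of_one_le_left (abs_nonneg _) h.c1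
  calc |m.w - l.w| ≤ K * |c * (m.w - l.w)| := hfin
    _ ≤ K * (10 * K * (B * η ^ 4)) := mul_le_mul_of_nonneg_left hsum (by linarith)
    _ = 10 * K ^ 2 * (B * η ^ 4) := by ring
    _ ≤ 20 * K ^ 2 * (B * η ^ 4) := by
      have : 0 ≤ K ^ 2 * (B * η ^ 4) := by positivity
      linarith

theorem r0' : 0 ≤ K ^ 2 := by have := h.K1; positivity

theorem Kp (i j : ℕ) (hij : i ≤ j) : K ^ i ≤ K ^ j := pow_le_pow_right₀ h.K1 hij

/-- error of the late slope -/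
theorem el : |r * (F.cV l t - p * F.cN l t)| ≤ 2 * K ^ 3 * (k * B * η ^ 5) := by
  have hK := h.K1
  have hB0 := h.B0
  have hk0 := h.k0
  have hη0 := h.η0
  rw [abs_mul]
  have h1 : k' * B * M ^ 3 ≤ k * B * η ^ 5 := by
    refine h.cut 3 5 ?_
    calc k' * B ≤ (k * η ^ 8) * B := mul_le_mul_of_nonneg_right h.kk hB0.le
      _ = k * B * η ^ (3 + 5) := by ring
  calc |r| * |F.cV l t - p * F.cN l t| ≤ K ^ 2 * (2 * K * (k' * B * M ^ 3)) :=
        mul_le_mul h.r0 h.sl (abs_nonneg _) h.r0'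
    _ ≤ K ^ 2 * (2 * K * (k * B * η ^ 5)) := by gcongr
    _ = 2 * K ^ 3 * (k * B * η ^ 5) := by ring

theorem em : |r * (F.cV m t - q * F.cN m t)| ≤ 2 * K ^ 3 * (k * B * η ^ 5) := by
  have hK := h.K1
  have hB0 := h.B0
  have hk0 := h.k0
  have hη0 := h.η0
  rw [abs_mul]
  have h1 : k' * B * M ^ 3 ≤ k * B * η ^ 5 := by
    refine h.cut 3 5 ?_
    calc k' * B ≤ (k * η ^ 8) * B := mul_le_mul_of_nonneg_right h.kk hB0.le
      _ = k * B * η ^ (3 + 5) := by ring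
  calc |r| * |F.cV m t - q * F.cN m t| ≤ K ^ 2 * (2 * K * (k' * B * M ^ 3)) :=
        mul_le_mul h.r0 h.sm (abs_nonneg _) h.r0'
    _ ≤ K ^ 2 * (2 * K * (k * B * η ^ 5)) := by gcongr
    _ = 2 * K ^ 3 * (k * B * η ^ 5) := by ring

/-- **value of `G`** -/
theorem g : |G.g m t - G.g l t| ≤ 40 * K ^ 3 * (A * B ^ 2 * k * η ^ 2) := by
  have hK := h.K1
  have hM0 := h.M0
  have hB0 := h.B0
  have hk0 := h.k0
  have hη0 := h.η0
  have hA0 := h.A0
  have hA'0 := h.A'0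
  have hk'0 := h.k'0
  have hkk := h.kk
  have hAA := h.AA
  set U := A * B ^ 2 * k with hU
  have hU0 : 0 < U := by positivity
  have up : ∀ j, 2 ≤ j → U * η ^ j ≤ U * η ^ 2 := fun j hj => mul_le_mul_of_nonneg_left (h.ηm hj) hU0.le
  rw [g_pair F G l m t r h.cr]
  have t1 : |r * (F.g m t - F.g l t)| ≤ K ^ 2 * (U * η ^ 2) := by
    rw [abs_mul]
    have h1 : A' * B ^ 2 * k' * M ^ 7 ≤ U * η ^ 9 := by
      refine h.cut 7 9 ?_
      calc A' * B ^ 2 * k' ≤ (A * η ^ 8) * B ^ 2 * (k * η ^ 8) := by gcongr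
        _ = U * η ^ (7 + 9) := by rw [hU]; ring
    exact mul_le_mul h.r0 ((h.hg.trans h1).trans (up 9 (by norm_num))) (abs_nonneg _) h.r0'
  have hcV : |G.cV l t - r * F.cV l t| ≤ 15 * K ^ 3 * (k * B * M ^ 3) := by
    have e : G.cV l t - r * F.cV l t = -(p * G.cN l t - G.cV l t) - r * (F.cV l t - p * F.cN l t) := by
      rw [h.cr]; ring
    rw [e]
    have x1 := abs_sub (-(p * G.cN l t - G.cV l t)) (r * (F.cV l t - p * F.cN l t))
    rw [abs_neg] at x1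
    have x2 := h.br
    have x3 := h.el
    have x4 : k * B * η ^ 5 ≤ k * B * M ^ 3 := by
      have hM1 : 1 ≤ M := by
        by_contra hn
        push Not at hn
        have := h.M1
        have := h.η1
        nlinarith
      have h5 : η ^ 5 ≤ M ^ 3 := (h.ηp 5).trans (one_le_pow₀ hM1)
      gcongr
    have x7 : 2 * K ^ 3 * (k * B * η ^ 5) ≤ 2 * K ^ 3 * (k * B * M ^ 3) := mul_le_mul_of_nonneg_left x4 (by positivity)
    linarith
  have t2 : |(G.cV l t - r * F.cV l t) * (m.X t - l.X t)| ≤ 15 * K ^ 3 * (U * η ^ 2) := by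
    rw [abs_mul]
    calc |G.cV l t - r * F.cV l t| * |m.X t - l.X t| ≤ (15 * K ^ 3 * (k * B * M ^ 3)) * (A' * B * M) :=
          mul_le_mul hcV h.hX (abs_nonneg _) (by positivity)
      _ = 15 * K ^ 3 * ((A' * B ^ 2 * k) * M ^ 4) := by ring
      _ ≤ 15 * K ^ 3 * (U * η ^ 4) := by
        refine mul_le_mul_of_nonneg_left (h.cut 4 4 ?_) (by positivity)
        calc A' * B ^ 2 * k ≤ (A * η ^ 8) * B ^ 2 * k := by gcongr
          _ = U * η ^ (4 + 4) := by rw [hU]; ring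
      _ ≤ 15 * K ^ 3 * (U * η ^ 2) := mul_le_mul_of_nonneg_left (up 4 (by norm_num)) (by positivity)
  have t3 : |(G.ka - r * F.ka) * l.dz m t| ≤ 6 * K ^ 3 * (U * η ^ 2) := by
    rw [abs_mul]
    calc |G.ka - r * F.ka| * |l.dz m t| ≤ (2 * K ^ 3 * (k * M)) * (3 * A' * B ^ 2 * M ^ 3) :=
          mul_le_mul h.T h.hz (abs_nonneg _) (by positivity)
      _ = 6 * K ^ 3 * ((A' * B ^ 2 * k) * M ^ 4) := by ring
      _ ≤ 6 * K ^ 3 * (U * η ^ 4) := by
        refine mul_le_mul_of_nonneg_left (h.cut 4 4 ?_) (by positivity)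
        calc A' * B ^ 2 * k ≤ (A * η ^ 8) * B ^ 2 * k := by gcongr
          _ = U * η ^ (4 + 4) := by rw [hU]; ring
      _ ≤ 6 * K ^ 3 * (U * η ^ 2) := mul_le_mul_of_nonneg_left (up 4 (by norm_num)) (by positivity)
  have t4 : |(G.al - r * F.al) * (((m.X t - l.X t) ^ 2 + (m.N t - l.N t) ^ 2) / 2)| ≤ 5 * K ^ 3 * (U * η ^ 2) := by
    rw [abs_mul]
    have h1 : (m.X t - l.X t) ^ 2 ≤ (A' * B * M) ^ 2 := sq_le_sq' (by linarith [(abs_le.1 h.hX).1]) (abs_le.1 h.hX).2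
    have h2 : (m.N t - l.N t) ^ 2 ≤ (A' * B * M) ^ 2 := sq_le_sq' (by linarith [(abs_le.1 h.hN).1]) (abs_le.1 h.hN).2
    have h3 : |((m.X t - l.X t) ^ 2 + (m.N t - l.N t) ^ 2) / 2| ≤ (A' * B * M) ^ 2 := by
      rw [abs_of_nonneg (by positivity)]
      linarith
    calc |G.al - r * F.al| * _ ≤ |G.al - r * F.al| * (A' * B * M) ^ 2 := mul_le_mul_of_nonneg_left h3 (abs_nonneg _)
      _ = (|G.al - r * F.al| * A') * (A' * B ^ 2 * M ^ 2) := by ring
      _ ≤ (5 * K ^ 3 * (k * η ^ 5)) * (A' * B ^ 2 * M ^ 2) := mul_le_mul_of_nonneg_right h.aH (by positivity)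
      _ = 5 * K ^ 3 * η ^ 5 * ((A' * B ^ 2 * k) * M ^ 2) := by ring
      _ ≤ 5 * K ^ 3 * η ^ 5 * (U * η ^ 6) := by
        refine mul_le_mul_of_nonneg_left (h.cut 2 6 ?_) (by positivity)
        calc A' * B ^ 2 * k ≤ (A * η ^ 8) * B ^ 2 * k := by gcongr
          _ = U * η ^ (2 + 6) := by rw [hU]; ring
      _ = 5 * K ^ 3 * (U * η ^ 11) := by ring
      _ ≤ 5 * K ^ 3 * (U * η ^ 2) := mul_le_mul_of_nonneg_left (up 11 (by norm_num)) (by positivity)
  have x1 := abs_sub (r * (F.g m t - F.g l t) - (G.cV l t - r * F.cV l t) * (m.X t - l.X t) -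
    (G.ka - r * F.ka) * l.dz m t) ((G.al - r * F.al) * (((m.X t - l.X t) ^ 2 + (m.N t - l.N t) ^ 2) / 2))
  have x2 := abs_sub (r * (F.g m t - F.g l t) - (G.cV l t - r * F.cV l t) * (m.X t - l.X t))
    ((G.ka - r * F.ka) * l.dz m t)
  have x3 := abs_sub (r * (F.g m t - F.g l t)) ((G.cV l t - r * F.cV l t) * (m.X t - l.X t))
  have x4 : K ^ 2 * (U * η ^ 2) ≤ K ^ 3 * (U * η ^ 2) := mul_le_mul_of_nonneg_right (h.Kp 2 3 (by norm_num)) (by positivity)
  have x5 : 0 ≤ K ^ 3 * (U * η ^ 2) := by positivity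
  linarith

/-- **slope relative to `G`** -/
theorem brd : |(q * G.cN m t - G.cV m t) - (p * G.cN l t - G.cV l t) - (r * F.ka - G.ka) * (m.v - l.v)| ≤
    60 * K ^ 5 * (k * B * η ^ 2) := by
  have hK := h.K1
  have hM0 := h.M0
  have hB0 := h.B0
  have hk0 := h.k0
  have hη0 := h.η0
  have hA'0 := h.A'0
  set U := k * B with hU
  have hU0 : 0 < U := by positivity
  have up : ∀ j, 2 ≤ j → U * η ^ j ≤ U * η ^ 2 := fun j hj => mul_le_mul_of_nonneg_left (h.ηm hj) hU0.le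
  have e := br_pair F G l m t r p q h.cr
  have e' : (q * G.cN m t - G.cV m t) - (p * G.cN l t - G.cV l t) - (r * F.ka - G.ka) * (m.v - l.v) =
      q * (-(G.ka - r * F.ka) * (m.w - l.w) - (G.al - r * F.al) * (m.N t - l.N t)) -
      (G.al - r * F.al) * (m.X t - l.X t) - (r * (F.cV m t - q * F.cN m t) - r * (F.cV l t - p * F.cN l t)) := by
    rw [e]; ring
  rw [e']
  have hal : ∀ x : ℝ, |x| ≤ A' * B * M → |(G.al - r * F.al) * x| ≤ 5 * K ^ 3 * (U * η ^ 2) := by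
    intro x hx
    rw [abs_mul]
    calc |G.al - r * F.al| * |x| ≤ |G.al - r * F.al| * (A' * B * M) := mul_le_mul_of_nonneg_left hx (abs_nonneg _)
      _ = (|G.al - r * F.al| * A') * (B * M) := by ring
      _ ≤ (5 * K ^ 3 * (k * η ^ 5)) * (B * M) := mul_le_mul_of_nonneg_right h.aH (by positivity)
      _ = 5 * K ^ 3 * (U * η ^ 4) * (η * M) := by rw [hU]; ring
      _ = 5 * K ^ 3 * (U * η ^ 4) := by rw [h.M1, mul_one]
      _ ≤ 5 * K ^ 3 * (U * η ^ 2) := mul_le_mul_of_nonneg_left (up 4 (by norm_num)) (by positivity)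
  have t1 : |-(G.ka - r * F.ka) * (m.w - l.w)| ≤ 40 * K ^ 5 * U := by
    rw [abs_mul, abs_neg]
    calc |G.ka - r * F.ka| * |m.w - l.w| ≤ (2 * K ^ 3 * (k * M)) * (20 * K ^ 2 * (B * η ^ 2)) :=
          mul_le_mul h.T h.dw (abs_nonneg _) (by positivity)
      _ = 40 * K ^ 5 * U * η * (η * M) := by rw [hU]; ring
      _ = 40 * K ^ 5 * U * η := by rw [h.M1, mul_one]
      _ ≤ 40 * K ^ 5 * U := mul_le_of_le_one_right (by positivity) h.η1
  have t2 := hal _ h.hN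
  have t3 := hal _ h.hX
  have t4 : |q * (-(G.ka - r * F.ka) * (m.w - l.w) - (G.al - r * F.al) * (m.N t - l.N t))| ≤ 45 * K ^ 5 * (U * η ^ 2) := by
    rw [abs_mul]
    have x1 := abs_sub (-(G.ka - r * F.ka) * (m.w - l.w)) ((G.al - r * F.al) * (m.N t - l.N t))
    have x2 : K ^ 3 * (U * η ^ 2) ≤ K ^ 5 * U := by
      calc K ^ 3 * (U * η ^ 2) ≤ K ^ 5 * (U * 1) := by
            have := h.Kp 3 5 (by norm_num)
            have := h.ηp 2
            gcongr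
        _ = K ^ 5 * U := by rw [mul_one]
    calc |q| * _ ≤ η ^ 2 * (45 * K ^ 5 * U) := mul_le_mul h.q1 (by linarith) (abs_nonneg _) (by positivity)
      _ = 45 * K ^ 5 * (U * η ^ 2) := by ring
  have t5 : |r * (F.cV m t - q * F.cN m t) - r * (F.cV l t - p * F.cN l t)| ≤ 4 * K ^ 3 * (U * η ^ 2) := by
    have x1 := abs_sub (r * (F.cV m t - q * F.cN m t)) (r * (F.cV l t - p * F.cN l t))
    have x2 := h.em
    have x3 := h.el
    have x4 := mul_le_mul_of_nonneg_left (up 5 (by norm_num)) (show 0 ≤ 2 * K ^ 3 by positivity)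
    linarith
  have x1 := abs_sub (q * (-(G.ka - r * F.ka) * (m.w - l.w) - (G.al - r * F.al) * (m.N t - l.N t)) -
      (G.al - r * F.al) * (m.X t - l.X t)) (r * (F.cV m t - q * F.cN m t) - r * (F.cV l t - p * F.cN l t))
  have x2 := abs_sub (q * (-(G.ka - r * F.ka) * (m.w - l.w) - (G.al - r * F.al) * (m.N t - l.N t)))
      ((G.al - r * F.al) * (m.X t - l.X t))
  have x3 : K ^ 3 * (U * η ^ 2) ≤ K ^ 5 * (U * η ^ 2) := mul_le_mul_of_nonneg_right (h.Kp 3 5 (by norm_num)) (by positivity)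
  have x5 : 0 ≤ K ^ 5 * (U * η ^ 2) := by positivity
  linarith

/-- **derivative of `G`** -/
theorem gdd : |G.gd m t - G.gd l t - (p * G.cN l t - G.cV l t) * (m.v - l.v) -
    (r * F.ka - G.ka) * ((m.v - l.v) ^ 2 / 2)| ≤ 500 * K ^ 7 * (k * B ^ 2 * η ^ 2) := by
  have hK := h.K1
  have hM0 := h.M0
  have hB0 := h.B0
  have hk0 := h.k0
  have hk'0 := h.k'0
  have hη0 := h.η0
  have hA'0 := h.A'0
  have hkk := h.kk
  set U := k * B ^ 2 with hU
  have hU0 : 0 < U := by positivity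
  have up : ∀ j, 2 ≤ j → U * η ^ j ≤ U * η ^ 2 := fun j hj => mul_le_mul_of_nonneg_left (h.ηm hj) hU0.le
  have e : G.gd m t - G.gd l t - (p * G.cN l t - G.cV l t) * (m.v - l.v) -
      (r * F.ka - G.ka) * ((m.v - l.v) ^ 2 / 2) =
      r * (F.gd m t - F.gd l t) + r * (F.cV l t - p * F.cN l t) * (m.v - l.v) -
      (G.ka - r * F.ka) * ((m.w - l.w) ^ 2 / 2) -
      (G.al - r * F.al) * ((m.X t - l.X t) * (m.v - l.v) + (m.N t - l.N t) * (m.w - l.w) - l.dz m t) := by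
    rw [gd_pair F G l m t r h.cr, h.cr]
    ring
  rw [e]
  have t1 : |r * (F.gd m t - F.gd l t)| ≤ K ^ 2 * (U * η ^ 2) := by
    rw [abs_mul]
    have h1 : B ^ 2 * k' * M ^ 5 ≤ U * η ^ 3 := by
      refine h.cut 5 3 ?_
      calc B ^ 2 * k' ≤ B ^ 2 * (k * η ^ 8) := by gcongr
        _ = U * η ^ (5 + 3) := by rw [hU]; ring
    exact mul_le_mul h.r0 ((h.hd.trans h1).trans (up 3 (by norm_num))) (abs_nonneg _) h.r0'
  have t2 : |r * (F.cV l t - p * F.cN l t) * (m.v - l.v)| ≤ 2 * K ^ 3 * (U * η ^ 2) := by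
    rw [abs_mul]
    calc |r * (F.cV l t - p * F.cN l t)| * |m.v - l.v| ≤ (2 * K ^ 3 * (k * B * η ^ 5)) * B :=
          mul_le_mul h.el h.hv (abs_nonneg _) (by positivity)
      _ = 2 * K ^ 3 * (U * η ^ 5) := by rw [hU]; ring
      _ ≤ 2 * K ^ 3 * (U * η ^ 2) := mul_le_mul_of_nonneg_left (up 5 (by norm_num)) (by positivity)
  have t3 : |(G.ka - r * F.ka) * ((m.w - l.w) ^ 2 / 2)| ≤ 400 * K ^ 7 * (U * η ^ 2) := by
    rw [abs_mul]
    have h1 : (m.w - l.w) ^ 2 ≤ (20 * K ^ 2 * (B * η ^ 2)) ^ 2 :=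
      sq_le_sq' (by linarith [(abs_le.1 h.dw).1]) (abs_le.1 h.dw).2
    have h2 : |(m.w - l.w) ^ 2 / 2| ≤ (20 * K ^ 2 * (B * η ^ 2)) ^ 2 / 2 := by
      rw [abs_of_nonneg (by positivity)]
      linarith
    calc |G.ka - r * F.ka| * |(m.w - l.w) ^ 2 / 2| ≤ (2 * K ^ 3 * (k * M)) * ((20 * K ^ 2 * (B * η ^ 2)) ^ 2 / 2) :=
          mul_le_mul h.T h2 (abs_nonneg _) (by positivity)
      _ = 400 * K ^ 7 * (U * η ^ 3) * (η * M) := by rw [hU]; ring
      _ = 400 * K ^ 7 * (U * η ^ 3) := by rw [h.M1, mul_one]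
      _ ≤ 400 * K ^ 7 * (U * η ^ 2) := mul_le_mul_of_nonneg_left (up 3 (by norm_num)) (by positivity)
  have t4 : |(G.al - r * F.al) * ((m.X t - l.X t) * (m.v - l.v) + (m.N t - l.N t) * (m.w - l.w) - l.dz m t)| ≤
      25 * K ^ 3 * (U * η ^ 2) := by
    rw [abs_mul]
    have h1 : |(m.X t - l.X t) * (m.v - l.v)| ≤ A' * (B ^ 2 * M ^ 3) := by
      rw [abs_mul]
      calc |m.X t - l.X t| * |m.v - l.v| ≤ (A' * B * M) * B := mul_le_mul h.hX h.hv (abs_nonneg _) (by positivity)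
        _ = A' * (B ^ 2 * M ^ 1) := by ring
        _ ≤ A' * (B ^ 2 * M ^ 3) := by
          have hM1 : 1 ≤ M := by
            by_contra hn
            push Not at hn
            have := h.M1
            have := h.η1
            nlinarith
          have : M ^ 1 ≤ M ^ 3 := pow_le_pow_right₀ hM1 (by norm_num)
          gcongr
    have h2 : |(m.N t - l.N t) * (m.w - l.w)| ≤ A' * (B ^ 2 * M ^ 3) := by
      rw [abs_mul]
      calc |m.N t - l.N t| * |m.w - l.w| ≤ (A' * B * M) * (B * M) := mul_le_mul h.hN h.hw (abs_nonneg _) (by positivity)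
        _ = A' * (B ^ 2 * M ^ 2) := by ring
        _ ≤ A' * (B ^ 2 * M ^ 3) := by
          have hM1 : 1 ≤ M := by
            by_contra hn
            push Not at hn
            have := h.M1
            have := h.η1
            nlinarith
          have : M ^ 2 ≤ M ^ 3 := pow_le_pow_right₀ hM1 (by norm_num)
          gcongr
    have h4 : |(m.X t - l.X t) * (m.v - l.v) + (m.N t - l.N t) * (m.w - l.w) - l.dz m t| ≤ A' * (5 * (B ^ 2 * M ^ 3)) := by
      have x1 := abs_sub ((m.X t - l.X t) * (m.v - l.v) + (m.N t - l.N t) * (m.w - l.w)) (l.dz m t)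
      have x2 := abs_add_le ((m.X t - l.X t) * (m.v - l.v)) ((m.N t - l.N t) * (m.w - l.w))
      have x3 := h.hz
      have x4 : 3 * A' * B ^ 2 * M ^ 3 = 3 * (A' * (B ^ 2 * M ^ 3)) := by ring
      linarith
    have h5 : η ^ 5 * M ^ 3 = η ^ 2 := by
      have := h.pw 3
      calc η ^ 5 * M ^ 3 = η ^ 2 * (η ^ 3 * M ^ 3) := by ring
        _ = η ^ 2 := by rw [this, mul_one]
    calc |G.al - r * F.al| * _ ≤ |G.al - r * F.al| * (A' * (5 * (B ^ 2 * M ^ 3))) :=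
          mul_le_mul_of_nonneg_left h4 (abs_nonneg _)
      _ = (|G.al - r * F.al| * A') * (5 * (B ^ 2 * M ^ 3)) := by ring
      _ ≤ (5 * K ^ 3 * (k * η ^ 5)) * (5 * (B ^ 2 * M ^ 3)) := mul_le_mul_of_nonneg_right h.aH (by positivity)
      _ = 25 * K ^ 3 * (U * (η ^ 5 * M ^ 3)) := by rw [hU]; ring
      _ = 25 * K ^ 3 * (U * η ^ 2) := by rw [h5]
  have x1 := abs_sub (r * (F.gd m t - F.gd l t) + r * (F.cV l t - p * F.cN l t) * (m.v - l.v) -
      (G.ka - r * F.ka) * ((m.w - l.w) ^ 2 / 2))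
      ((G.al - r * F.al) * ((m.X t - l.X t) * (m.v - l.v) + (m.N t - l.N t) * (m.w - l.w) - l.dz m t))
  have x2 := abs_sub (r * (F.gd m t - F.gd l t) + r * (F.cV l t - p * F.cN l t) * (m.v - l.v))
      ((G.ka - r * F.ka) * ((m.w - l.w) ^ 2 / 2))
  have x3 := abs_add_le (r * (F.gd m t - F.gd l t)) (r * (F.cV l t - p * F.cN l t) * (m.v - l.v))
  have y1 : K ^ 2 * (U * η ^ 2) ≤ K ^ 7 * (U * η ^ 2) := mul_le_mul_of_nonneg_right (h.Kp 2 7 (by norm_num)) (by positivity)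
  have y2 : K ^ 3 * (U * η ^ 2) ≤ K ^ 7 * (U * η ^ 2) := mul_le_mul_of_nonneg_right (h.Kp 3 7 (by norm_num)) (by positivity)
  have y3 : 0 ≤ K ^ 7 * (U * η ^ 2) := by positivity
  linarith

end Es

/-- data of two rays in the same fine cell (cap `β`, `β ≤ B η^8`), seen at the time `s` of the early step -/
structure Ws (K A B β k η M : ℝ) (F G : Fu) (l m : Ray) (p q s r : ℝ) : Prop where
  K1 : 1 ≤ K
  A0 : 0 < A
  B0 : 0 < B
  β0 : 0 < β
  k0 : 0 < k
  η0 : 0 < η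
  η1 : η ≤ 1
  M1 : η * M = 1
  βB : β ≤ B * η ^ 8
  hv : |m.v - l.v| ≤ β
  hw : |m.w - l.w| ≤ β * M
  hX : |m.X s - l.X s| ≤ A * β * M
  hN : |m.N s - l.N s| ≤ A * β * M
  hz : |l.dz m s| ≤ 3 * A * β ^ 2 * M ^ 3
  hg : |F.g m s - F.g l s| ≤ A * β ^ 2 * k * M ^ 7
  hd : |F.gd m s - F.gd l s| ≤ β ^ 2 * k * M ^ 5
  cr : G.cN l s = r * F.cN l s
  r0 : |r| ≤ K ^ 2
  sl : |F.cV l s - p * F.cN l s| ≤ 2 * K * (k * β * M ^ 3)
  sm : |F.cV m s - q * F.cN m s| ≤ 2 * K * (k * β * M ^ 3)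
  q1 : |q| ≤ 1
  br : |p * G.cN l s - G.cV l s| ≤ 13 * K ^ 3 * (k * B * M ^ 3)
  T : |G.ka - r * F.ka| ≤ 2 * K ^ 3 * (k * M)
  aH : |G.al - r * F.al| * A ≤ 2 * K ^ 3 * k

namespace Ws

variable {K A B β k η M : ℝ} {F G : Fu} {l m : Ray} {p q s r : ℝ} (h : Ws K A B β k η M F G l m p q s r)
include h

theorem M0 : 1 ≤ M := by
  have h1 := h.M1
  have h2 := h.η0
  have h3 := h.η1
  by_contra hn
  push Not at hn
  nlinarith

theorem cut {x y : ℝ} (n j : ℕ) (hx : x ≤ y * η ^ (n + j)) : x * M ^ n ≤ y * η ^ j := by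
  have hM := h.M0
  have h1 : x * M ^ n ≤ y * η ^ (n + j) * M ^ n := mul_le_mul_of_nonneg_right hx (by positivity)
  have h2 : y * η ^ (n + j) * M ^ n = y * η ^ j * (η * M) ^ n := by rw [pow_add, mul_pow]; ring
  rw [h2, h.M1, one_pow, mul_one] at h1
  exact h1

theorem ηm {i j : ℕ} (hij : i ≤ j) : η ^ j ≤ η ^ i := pow_le_pow_of_le_one h.η0.le h.η1 hij

theorem ββ : β ^ 2 ≤ B ^ 2 * η ^ 16 := by
  have hβ := h.β0
  calc β ^ 2 ≤ (B * η ^ 8) ^ 2 := pow_le_pow_left₀ hβ.le h.βB 2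
    _ = B ^ 2 * η ^ 16 := by ring

theorem el : |r * (F.cV l s - p * F.cN l s)| ≤ 2 * K ^ 3 * (k * β * M ^ 3) := by
  have hK := h.K1
  rw [abs_mul]
  calc _ ≤ K ^ 2 * (2 * K * (k * β * M ^ 3)) := mul_le_mul h.r0 h.sl (abs_nonneg _) (by positivity)
    _ = _ := by ring

theorem em : |r * (F.cV m s - q * F.cN m s)| ≤ 2 * K ^ 3 * (k * β * M ^ 3) := by
  have hK := h.K1
  rw [abs_mul]
  calc _ ≤ K ^ 2 * (2 * K * (k * β * M ^ 3)) := mul_le_mul h.r0 h.sm (abs_nonneg _) (by positivity)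
    _ = _ := by ring

theorem hcV : |G.cV l s - r * F.cV l s| ≤ 15 * K ^ 3 * (k * B * M ^ 3) := by
  have hK := h.K1
  have hM := h.M0
  have hk := h.k0
  have hη := h.η0
  have hB := h.B0
  have e : G.cV l s - r * F.cV l s = -(p * G.cN l s - G.cV l s) - r * (F.cV l s - p * F.cN l s) := by
    rw [h.cr]; ring
  rw [e]
  have x1 := abs_sub (-(p * G.cN l s - G.cV l s)) (r * (F.cV l s - p * F.cN l s))
  rw [abs_neg] at x1
  have x2 := h.br
  have x3 := h.el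
  have x4 : β ≤ B := h.βB.trans (mul_le_of_le_one_right hB.le (pow_le_one₀ hη.le h.η1))
  have x5 : 2 * K ^ 3 * (k * β * M ^ 3) ≤ 2 * K ^ 3 * (k * B * M ^ 3) := by gcongr
  linarith

theorem dzc : |(G.al - r * F.al) * ((m.X s - l.X s) * (m.v - l.v) + (m.N s - l.N s) * (m.w - l.w) - l.dz m s)| ≤
    10 * K ^ 3 * (k * B ^ 2 * η ^ 2) := by
  have hK := h.K1
  have hM := h.M0
  have hk := h.k0
  have hη := h.η0
  have hB := h.B0
  have hA := h.A0
  have hβ := h.β0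
  rw [abs_mul]
  have m1 : M ^ 1 ≤ M ^ 3 := pow_le_pow_right₀ hM (by norm_num)
  have m2 : M ^ 2 ≤ M ^ 3 := pow_le_pow_right₀ hM (by norm_num)
  have h1 : |(m.X s - l.X s) * (m.v - l.v)| ≤ A * (β ^ 2 * M ^ 3) := by
    rw [abs_mul]
    calc _ ≤ (A * β * M) * β := mul_le_mul h.hX h.hv (abs_nonneg _) (by positivity)
      _ = A * (β ^ 2 * M ^ 1) := by ring
      _ ≤ _ := by gcongr
  have h2 : |(m.N s - l.N s) * (m.w - l.w)| ≤ A * (β ^ 2 * M ^ 3) := by
    rw [abs_mul]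
    calc _ ≤ (A * β * M) * (β * M) := mul_le_mul h.hN h.hw (abs_nonneg _) (by positivity)
      _ = A * (β ^ 2 * M ^ 2) := by ring
      _ ≤ _ := by gcongr
  have h3 := h.hz
  have h4 : |(m.X s - l.X s) * (m.v - l.v) + (m.N s - l.N s) * (m.w - l.w) - l.dz m s| ≤ A * (5 * (β ^ 2 * M ^ 3)) := by
    have x1 := abs_sub ((m.X s - l.X s) * (m.v - l.v) + (m.N s - l.N s) * (m.w - l.w)) (l.dz m s)
    have x2 := abs_add_le ((m.X s - l.X s) * (m.v - l.v)) ((m.N s - l.N s) * (m.w - l.w))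
    have x4 : 3 * A * β ^ 2 * M ^ 3 = 3 * (A * (β ^ 2 * M ^ 3)) := by ring
    linarith
  have h5 : β ^ 2 * M ^ 3 ≤ B ^ 2 * η ^ 13 := h.cut 3 13 h.ββ
  have h6 : B ^ 2 * η ^ 13 ≤ B ^ 2 * η ^ 2 := mul_le_mul_of_nonneg_left (h.ηm (by norm_num)) (by positivity)
  calc _ ≤ |G.al - r * F.al| * (A * (5 * (β ^ 2 * M ^ 3))) := mul_le_mul_of_nonneg_left h4 (abs_nonneg _)
    _ = (|G.al - r * F.al| * A) * (5 * (β ^ 2 * M ^ 3)) := by ring
    _ ≤ (2 * K ^ 3 * k) * (5 * (B ^ 2 * η ^ 2)) := by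
      refine mul_le_mul h.aH ?_ (by positivity) (by positivity)
      linarith
    _ = _ := by ring

/-- **value** -/
theorem g : |G.g m s - G.g l s| ≤ 24 * K ^ 3 * (A * B ^ 2 * k * η ^ 2) := by
  have hK := h.K1
  have hM := h.M0
  have hk := h.k0
  have hη := h.η0
  have hB := h.B0
  have hA := h.A0
  have hβ := h.β0
  have hββ := h.ββ
  set U := A * B ^ 2 * k with hU
  have hU0 : 0 < U := by positivity
  have up : ∀ j, 2 ≤ j → U * η ^ j ≤ U * η ^ 2 := fun j hj => mul_le_mul_of_nonneg_left (h.ηm hj) hU0.le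
  rw [g_pair F G l m s r h.cr]
  have t1 : |r * (F.g m s - F.g l s)| ≤ K ^ 2 * (U * η ^ 2) := by
    rw [abs_mul]
    have h1 : A * β ^ 2 * k * M ^ 7 ≤ U * η ^ 9 := by
      refine h.cut 7 9 ?_
      calc A * β ^ 2 * k ≤ A * (B ^ 2 * η ^ 16) * k := by gcongr
        _ = U * η ^ (7 + 9) := by rw [hU]; ring
    exact mul_le_mul h.r0 ((h.hg.trans h1).trans (up 9 (by norm_num))) (abs_nonneg _) (by positivity)
  have t2 : |(G.cV l s - r * F.cV l s) * (m.X s - l.X s)| ≤ 15 * K ^ 3 * (U * η ^ 2) := by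
    rw [abs_mul]
    calc _ ≤ (15 * K ^ 3 * (k * B * M ^ 3)) * (A * β * M) := mul_le_mul h.hcV h.hX (abs_nonneg _) (by positivity)
      _ = 15 * K ^ 3 * ((A * B * k * β) * M ^ 4) := by ring
      _ ≤ 15 * K ^ 3 * (U * η ^ 4) := by
        refine mul_le_mul_of_nonneg_left (h.cut 4 4 ?_) (by positivity)
        calc A * B * k * β ≤ A * B * k * (B * η ^ 8) := mul_le_mul_of_nonneg_left h.βB (by positivity)
          _ = U * η ^ (4 + 4) := by rw [hU]; ring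
      _ ≤ _ := mul_le_mul_of_nonneg_left (up 4 (by norm_num)) (by positivity)
  have t3 : |(G.ka - r * F.ka) * l.dz m s| ≤ 6 * K ^ 3 * (U * η ^ 2) := by
    rw [abs_mul]
    calc _ ≤ (2 * K ^ 3 * (k * M)) * (3 * A * β ^ 2 * M ^ 3) := mul_le_mul h.T h.hz (abs_nonneg _) (by positivity)
      _ = 6 * K ^ 3 * ((A * β ^ 2 * k) * M ^ 4) := by ring
      _ ≤ 6 * K ^ 3 * (U * η ^ 12) := by
        refine mul_le_mul_of_nonneg_left (h.cut 4 12 ?_) (by positivity)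
        calc A * β ^ 2 * k ≤ A * (B ^ 2 * η ^ 16) * k := by gcongr
          _ = U * η ^ (4 + 12) := by rw [hU]; ring
      _ ≤ _ := mul_le_mul_of_nonneg_left (up 12 (by norm_num)) (by positivity)
  have t4 : |(G.al - r * F.al) * (((m.X s - l.X s) ^ 2 + (m.N s - l.N s) ^ 2) / 2)| ≤ 2 * K ^ 3 * (U * η ^ 2) := by
    rw [abs_mul]
    have h1 : (m.X s - l.X s) ^ 2 ≤ (A * β * M) ^ 2 := sq_le_sq' (by linarith [(abs_le.1 h.hX).1]) (abs_le.1 h.hX).2
    have h2 : (m.N s - l.N s) ^ 2 ≤ (A * β * M) ^ 2 := sq_le_sq' (by linarith [(abs_le.1 h.hN).1]) (abs_le.1 h.hN).2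
    have h3 : |((m.X s - l.X s) ^ 2 + (m.N s - l.N s) ^ 2) / 2| ≤ (A * β * M) ^ 2 := by
      rw [abs_of_nonneg (by positivity)]
      linarith
    calc _ ≤ |G.al - r * F.al| * (A * β * M) ^ 2 := mul_le_mul_of_nonneg_left h3 (abs_nonneg _)
      _ = (|G.al - r * F.al| * A) * (A * β ^ 2 * M ^ 2) := by ring
      _ ≤ (2 * K ^ 3 * k) * (A * β ^ 2 * M ^ 2) := mul_le_mul_of_nonneg_right h.aH (by positivity)
      _ = 2 * K ^ 3 * ((A * β ^ 2 * k) * M ^ 2) := by ring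
      _ ≤ 2 * K ^ 3 * (U * η ^ 14) := by
        refine mul_le_mul_of_nonneg_left (h.cut 2 14 ?_) (by positivity)
        calc A * β ^ 2 * k ≤ A * (B ^ 2 * η ^ 16) * k := by gcongr
          _ = U * η ^ (2 + 14) := by rw [hU]; ring
      _ ≤ _ := mul_le_mul_of_nonneg_left (up 14 (by norm_num)) (by positivity)
  have x1 := abs_sub (r * (F.g m s - F.g l s) - (G.cV l s - r * F.cV l s) * (m.X s - l.X s) -
    (G.ka - r * F.ka) * l.dz m s) ((G.al - r * F.al) * (((m.X s - l.X s) ^ 2 + (m.N s - l.N s) ^ 2) / 2))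
  have x2 := abs_sub (r * (F.g m s - F.g l s) - (G.cV l s - r * F.cV l s) * (m.X s - l.X s))
    ((G.ka - r * F.ka) * l.dz m s)
  have x3 := abs_sub (r * (F.g m s - F.g l s)) ((G.cV l s - r * F.cV l s) * (m.X s - l.X s))
  have x4 : K ^ 2 * (U * η ^ 2) ≤ K ^ 3 * (U * η ^ 2) :=
    mul_le_mul_of_nonneg_right (pow_le_pow_right₀ hK (by norm_num)) (by positivity)
  linarith

/-- **derivative** -/
theorem gdd : |G.gd m s - G.gd l s| ≤ 30 * K ^ 3 * (k * B ^ 2 * η ^ 2) := by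
  have hK := h.K1
  have hM := h.M0
  have hk := h.k0
  have hη := h.η0
  have hB := h.B0
  have hA := h.A0
  have hβ := h.β0
  have hββ := h.ββ
  set U := k * B ^ 2 with hU
  have hU0 : 0 < U := by positivity
  have up : ∀ j, 2 ≤ j → U * η ^ j ≤ U * η ^ 2 := fun j hj => mul_le_mul_of_nonneg_left (h.ηm hj) hU0.le
  rw [gd_pair F G l m s r h.cr]
  have t1 : |r * (F.gd m s - F.gd l s)| ≤ K ^ 2 * (U * η ^ 2) := by
    rw [abs_mul]
    have h1 : β ^ 2 * k * M ^ 5 ≤ U * η ^ 11 := by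
      refine h.cut 5 11 ?_
      calc β ^ 2 * k ≤ (B ^ 2 * η ^ 16) * k := by gcongr
        _ = U * η ^ (5 + 11) := by rw [hU]; ring
    exact mul_le_mul h.r0 ((h.hd.trans h1).trans (up 11 (by norm_num))) (abs_nonneg _) (by positivity)
  have t2 : |(G.cV l s - r * F.cV l s) * (m.v - l.v)| ≤ 15 * K ^ 3 * (U * η ^ 2) := by
    rw [abs_mul]
    calc _ ≤ (15 * K ^ 3 * (k * B * M ^ 3)) * β := mul_le_mul h.hcV h.hv (abs_nonneg _) (by positivity)
      _ = 15 * K ^ 3 * ((B * k * β) * M ^ 3) := by ring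
      _ ≤ 15 * K ^ 3 * (U * η ^ 5) := by
        refine mul_le_mul_of_nonneg_left (h.cut 3 5 ?_) (by positivity)
        calc B * k * β ≤ B * k * (B * η ^ 8) := mul_le_mul_of_nonneg_left h.βB (by positivity)
          _ = U * η ^ (3 + 5) := by rw [hU]; ring
      _ ≤ _ := mul_le_mul_of_nonneg_left (up 5 (by norm_num)) (by positivity)
  have t3 : |(G.ka - r * F.ka) * (((m.v - l.v) ^ 2 + (m.w - l.w) ^ 2) / 2)| ≤ 2 * K ^ 3 * (U * η ^ 2) := by
    rw [abs_mul]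
    have h1 : (m.v - l.v) ^ 2 ≤ (β * M) ^ 2 := by
      refine sq_le_sq' ?_ ?_
      · have := (abs_le.1 h.hv).1
        have : β ≤ β * M := le_mul_of_one_le_right hβ.le hM
        linarith
      · exact (abs_le.1 h.hv).2.trans (le_mul_of_one_le_right hβ.le hM)
    have h2 : (m.w - l.w) ^ 2 ≤ (β * M) ^ 2 := sq_le_sq' (by linarith [(abs_le.1 h.hw).1]) (abs_le.1 h.hw).2
    have h3 : |((m.v - l.v) ^ 2 + (m.w - l.w) ^ 2) / 2| ≤ (β * M) ^ 2 := by
      rw [abs_of_nonneg (by positivity)]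
      linarith
    calc _ ≤ (2 * K ^ 3 * (k * M)) * (β * M) ^ 2 := mul_le_mul h.T h3 (abs_nonneg _) (by positivity)
      _ = 2 * K ^ 3 * ((β ^ 2 * k) * M ^ 3) := by ring
      _ ≤ 2 * K ^ 3 * (U * η ^ 13) := by
        refine mul_le_mul_of_nonneg_left (h.cut 3 13 ?_) (by positivity)
        calc β ^ 2 * k ≤ (B ^ 2 * η ^ 16) * k := by gcongr
          _ = U * η ^ (3 + 13) := by rw [hU]; ring
      _ ≤ _ := mul_le_mul_of_nonneg_left (up 13 (by norm_num)) (by positivity)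
  have t4 := h.dzc
  have x1 := abs_sub (r * (F.gd m s - F.gd l s) - (G.cV l s - r * F.cV l s) * (m.v - l.v) -
    (G.ka - r * F.ka) * (((m.v - l.v) ^ 2 + (m.w - l.w) ^ 2) / 2))
    ((G.al - r * F.al) * ((m.X s - l.X s) * (m.v - l.v) + (m.N s - l.N s) * (m.w - l.w) - l.dz m s))
  have x2 := abs_sub (r * (F.gd m s - F.gd l s) - (G.cV l s - r * F.cV l s) * (m.v - l.v))
    ((G.ka - r * F.ka) * (((m.v - l.v) ^ 2 + (m.w - l.w) ^ 2) / 2))
  have x3 := abs_sub (r * (F.gd m s - F.gd l s)) ((G.cV l s - r * F.cV l s) * (m.v - l.v))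
  have x4 : K ^ 2 * (U * η ^ 2) ≤ K ^ 3 * (U * η ^ 2) :=
    mul_le_mul_of_nonneg_right (pow_le_pow_right₀ hK (by norm_num)) (by positivity)
  have x5 : 0 ≤ K ^ 3 * (U * η ^ 2) := by positivity
  linarith

/-- **slope** -/
theorem brd : |(q * G.cN m s - G.cV m s) - (p * G.cN l s - G.cV l s)| ≤ 12 * K ^ 3 * (k * B * η ^ 5) := by
  have hK := h.K1
  have hM := h.M0
  have hk := h.k0
  have hη := h.η0
  have hB := h.B0
  have hA := h.A0
  have hβ := h.β0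
  have e := br_pair F G l m s r p q h.cr
  have hal : ∀ x : ℝ, |x| ≤ A * β * M → |(G.al - r * F.al) * x| ≤ 2 * K ^ 3 * (k * β * M ^ 3) := by
    intro x hx
    have m1 : M ^ 1 ≤ M ^ 3 := pow_le_pow_right₀ hM (by norm_num)
    rw [abs_mul]
    calc _ ≤ |G.al - r * F.al| * (A * β * M) := mul_le_mul_of_nonneg_left hx (abs_nonneg _)
      _ = (|G.al - r * F.al| * A) * (β * M ^ 1) := by ring
      _ ≤ (2 * K ^ 3 * k) * (β * M ^ 3) := mul_le_mul h.aH (by gcongr) (by positivity) (by positivity)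
      _ = _ := by ring
  have hka : ∀ x : ℝ, |x| ≤ β * M → |(G.ka - r * F.ka) * x| ≤ 2 * K ^ 3 * (k * β * M ^ 3) := by
    intro x hx
    have m1 : M ^ 2 ≤ M ^ 3 := pow_le_pow_right₀ hM (by norm_num)
    rw [abs_mul]
    calc _ ≤ (2 * K ^ 3 * (k * M)) * (β * M) := mul_le_mul h.T hx (abs_nonneg _) (by positivity)
      _ = (2 * K ^ 3 * k) * (β * M ^ 2) := by ring
      _ ≤ (2 * K ^ 3 * k) * (β * M ^ 3) := by gcongr
      _ = _ := by ring
  have hv' : |m.v - l.v| ≤ β * M := h.hv.trans (le_mul_of_one_le_right hβ.le hM)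
  have t1 := hka _ h.hw
  have t2 := hal _ h.hN
  have t3 := hka _ hv'
  have t4 := hal _ h.hX
  have t5 : |r * ((F.cV m s - q * F.cN m s) - (F.cV l s - p * F.cN l s))| ≤ 4 * K ^ 3 * (k * β * M ^ 3) := by
    rw [mul_sub]
    have := abs_sub (r * (F.cV m s - q * F.cN m s)) (r * (F.cV l s - p * F.cN l s))
    linarith [h.el, h.em]
  have t6 : |q * (-(G.ka - r * F.ka) * (m.w - l.w) - (G.al - r * F.al) * (m.N s - l.N s))| ≤
      4 * K ^ 3 * (k * β * M ^ 3) := by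
    rw [abs_mul]
    have x1 := abs_sub (-(G.ka - r * F.ka) * (m.w - l.w)) ((G.al - r * F.al) * (m.N s - l.N s))
    rw [neg_mul, abs_neg] at x1
    calc |q| * _ ≤ 1 * _ := mul_le_mul_of_nonneg_right h.q1 (abs_nonneg _)
      _ = |-(G.ka - r * F.ka) * (m.w - l.w) - (G.al - r * F.al) * (m.N s - l.N s)| := one_mul _
      _ ≤ 4 * K ^ 3 * (k * β * M ^ 3) := by
        rw [neg_mul]
        linarith
  rw [e]
  have x1 := abs_sub (q * (-(G.ka - r * F.ka) * (m.w - l.w) - (G.al - r * F.al) * (m.N s - l.N s)) -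
      (G.ka - r * F.ka) * (m.v - l.v) - (G.al - r * F.al) * (m.X s - l.X s))
      (r * ((F.cV m s - q * F.cN m s) - (F.cV l s - p * F.cN l s)))
  have x2 := abs_sub (q * (-(G.ka - r * F.ka) * (m.w - l.w) - (G.al - r * F.al) * (m.N s - l.N s)) -
      (G.ka - r * F.ka) * (m.v - l.v)) ((G.al - r * F.al) * (m.X s - l.X s))
  have x3 := abs_sub (q * (-(G.ka - r * F.ka) * (m.w - l.w) - (G.al - r * F.al) * (m.N s - l.N s)))
      ((G.ka - r * F.ka) * (m.v - l.v))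
  have x4 : k * β * M ^ 3 ≤ k * B * η ^ 5 := by
    refine h.cut 3 5 ?_
    calc k * β ≤ k * (B * η ^ 8) := mul_le_mul_of_nonneg_left h.βB hk.le
      _ = k * B * η ^ (3 + 5) := by ring
  have x5 : 12 * K ^ 3 * (k * β * M ^ 3) ≤ 12 * K ^ 3 * (k * B * η ^ 5) := mul_le_mul_of_nonneg_left x4 (by positivity)
  linarith

end Ws

end Vale.Agent.P106.U.H466
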